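import Vale.Agent.P158.Frame

namespace Vale.Agent.P158
open SimpleGraph Finset

section greedy
variable (R : ℕ → ℕ → Prop)

open Classical in
noncomputable def sig : ℕ → ℕ
  | 0 => 0
  | a + 1 => if R (sig a) (a + 1) then sig a else a + 1

open Classical in
noncomputable def kap : ℕ → ℕ
  | 0 => 0
  | a + 1 => if R (sig R a) (a + 1) then kap a else kap a + 1

lemma sig_le (a : ℕ) : sig R a ≤ a := by
  induction a with
  | zero => simp [sig]
  | succ a ih => unfold sig; split_ifs <;> omega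

lemma sig_rel (h : ∀ a, R a a) (a : ℕ) : R (sig R a) a := by
  cases a with
  | zero => exact h 0
  | succ a =>
    unfold sig; split_ifs with h'
    · exact h'
    · exact h _

lemma kap_mono : Monotone (kap R) := monotone_nat_of_le_succ fun a => by
  rw [kap]; split_ifs <;> omega

lemma kap_sig (a : ℕ) : kap R (sig R a) = kap R a := by
  induction a with
  | zero => rfl
  | succ a ih =>
    by_cases h : R (sig R a) (a + 1)
    · simp only [sig, kap, h, if_true, ih]
    · simp only [sig, h, if_false]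

lemma sig_eq_of_kap {a b : ℕ} (h : kap R a = kap R b) : sig R a = sig R b := by
  wlog hab : a ≤ b generalizing a b
  · exact (this h.symm (by omega)).symm
  induction b, hab using Nat.le_induction with
  | base => rfl
  | succ b hab ih =>
    have := kap_mono R hab
    by_cases h' : R (sig R b) (b + 1)
    · simp only [sig, kap, h', if_true] at h ⊢; exact ih h
    · simp only [kap, h', if_false] at h; omega

lemma lt_of_kap {a b : ℕ} (h : kap R a < kap R b) : a < b := by
  by_contra hc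
  exact absurd (kap_mono R (not_lt.1 hc)) (not_le.2 h)

lemma gap2 {a b : ℕ} (h : kap R a + 2 ≤ kap R b) :
    ∃ e, e < b ∧ a < sig R e ∧ ¬ R (sig R e) (e + 1) := by
  induction b with
  | zero => simp [kap] at h
  | succ b ih =>
    by_cases h' : R (sig R b) (b + 1)
    · simp only [kap, h', if_true] at h
      obtain ⟨e, h1, h2⟩ := ih h
      exact ⟨e, by omega, h2⟩
    · simp only [kap, h', if_false] at h
      exact ⟨b, by omega, lt_of_kap R (by rw [kap_sig]; omega), h'⟩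

lemma kap_bound {K : ℝ} {N : ℕ} (dd : ℕ → ℝ) (hd : ∀ i, 0 ≤ dd i)
    (h : ∀ a b, a ≤ b → b ≤ N → ¬ R a b → K ≤ ∑ i ∈ Ico a b, dd i) :
    K * kap R N ≤ ∑ i ∈ range N, dd i := by
  have : ∀ b ≤ N, K * kap R b ≤ ∑ i ∈ range (sig R b), dd i := by
    intro b hb
    induction b with
    | zero => simp [kap, sig]
    | succ b ih =>
      have ih := ih (by omega)
      by_cases h' : R (sig R b) (b + 1)
      · simpa only [sig, kap, h', if_true] using ih
      · simp only [sig, kap, h', if_false]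
        have h1 := h _ _ ((sig_le R b).trans (Nat.le_succ b)) hb h'
        rw [← sum_range_add_sum_Ico _ ((sig_le R b).trans (Nat.le_succ b))]
        push_cast
        linarith
  exact (this N le_rfl).trans
    (sum_le_sum_of_subset_of_nonneg (range_subset_range.2 (sig_le R N)) fun i _ _ => hd i)

end greedy

lemma tv_aux (h : ℕ → ℝ) (N : ℕ) (M : ℝ) (hM : ∀ i ≤ N, |h i| ≤ M) {p q : ℕ} (hp : p ≤ q)
    (hq : q ≤ N) (hmax : ∀ i ≤ N, h i ≤ h p) (hmin : ∀ i ≤ N, h q ≤ h i)
    (hc : ∀ i₁ i₂ i₃ i₄, i₁ < i₂ → i₂ < i₃ → i₃ < i₄ → i₄ ≤ N →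
      min (h i₁) (h i₃) ≤ max (h i₂) (h i₄)) :
    ∑ i ∈ range N, |h (i + 1) - h i| ≤ 6 * M := by
  let φ : ℕ → ℝ := fun a => h (min a p) - h (min (max a p) q) + h (max a q)
  have key : ∀ a ∈ range N, |h (a + 1) - h a| = φ (a + 1) - φ a := by
    intro a ha
    rw [mem_range] at ha
    simp only [φ]
    rcases lt_or_ge a p with c1 | c1
    · rw [show min (a + 1) p = a + 1 by omega, show min a p = a by omega,
        show min (max (a + 1) p) q = p by omega, show min (max a p) q = p by omega,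
        show max (a + 1) q = q by omega, show max a q = q by omega, abs_of_nonneg]
      · ring
      · by_contra hh
        have h1 := hmax a (by omega)
        have h2 := hmin (a + 1) (by omega)
        rcases eq_or_lt_of_le (show a + 1 ≤ p by omega) with e | e
        · rw [← e] at h1; linarith
        · rcases eq_or_lt_of_le hp with e' | e'
          · rw [← e'] at h2; linarith
          · have := hc a (a + 1) p q (by omega) e e' hq
            rw [min_eq_left h1, max_eq_left h2] at this; linarith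
    rcases lt_or_ge a q with c2 | c2
    · rw [show min (a + 1) p = p by omega, show min a p = p by omega,
        show min (max (a + 1) p) q = a + 1 by omega, show min (max a p) q = a by omega,
        show max (a + 1) q = q by omega, show max a q = q by omega, abs_of_nonpos]
      · ring
      · by_contra hh
        have h1 := hmax (a + 1) (by omega)
        have h2 := hmin a (by omega)
        rcases eq_or_lt_of_le c1 with e | e
        · rw [e] at h1; linarith
        · rcases eq_or_lt_of_le (show a + 1 ≤ q by omega) with e' | e'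
          · rw [← e'] at h2; linarith
          · have := hc p a (a + 1) q e (by omega) e' hq
            rw [min_eq_right h1, max_eq_left h2] at this; linarith
    · rw [show min (a + 1) p = p by omega, show min a p = p by omega,
        show min (max (a + 1) p) q = q by omega, show min (max a p) q = q by omega,
        show max (a + 1) q = a + 1 by omega, show max a q = a by omega, abs_of_nonneg]
      · ring
      · by_contra hh
        have h1 := hmax a (by omega)
        have h2 := hmin (a + 1) (by omega)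
        rcases eq_or_lt_of_le c2 with e | e
        · rw [e] at h2; linarith
        · rcases eq_or_lt_of_le hp with e' | e'
          · rw [← e'] at h2; linarith
          · have := hc p q a (a + 1) e' e (by omega) (by omega)
            rw [min_eq_right h1, max_eq_right h2] at this; linarith
  rw [sum_congr rfl key, sum_range_sub]
  simp only [φ]
  have b1 := abs_le.1 (hM (min N p) (by omega))
  have b2 := abs_le.1 (hM (min (max N p) q) (by omega))
  have b3 := abs_le.1 (hM (max N q) (by omega))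
  have b4 := abs_le.1 (hM (min 0 p) (by omega))
  have b5 := abs_le.1 (hM (min (max 0 p) q) (by omega))
  have b6 := abs_le.1 (hM (max 0 q) (by omega))
  linarith [b1.1, b2.1, b3.1, b4.1, b5.1, b6.1, b1.2, b2.2, b3.2, b4.2, b5.2, b6.2]

lemma tv_bound (h : ℕ → ℝ) (N : ℕ) (M : ℝ) (hM : ∀ i ≤ N, |h i| ≤ M)
    (hc : ∀ i₁ i₂ i₃ i₄, i₁ < i₂ → i₂ < i₃ → i₃ < i₄ → i₄ ≤ N →
      min (h i₁) (h i₃) ≤ max (h i₂) (h i₄))
    (hc' : ∀ i₁ i₂ i₃ i₄, i₁ < i₂ → i₂ < i₃ → i₃ < i₄ → i₄ ≤ N →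
      min (-h i₁) (-h i₃) ≤ max (-h i₂) (-h i₄)) :
    ∑ i ∈ range N, |h (i + 1) - h i| ≤ 6 * M := by
  obtain ⟨p, hp, hmax⟩ := (range (N + 1)).exists_max_image h ⟨0, by simp⟩
  obtain ⟨q, hq, hmin⟩ := (range (N + 1)).exists_min_image h ⟨0, by simp⟩
  simp only [mem_range, Nat.lt_succ_iff] at hp hq hmax hmin
  rcases le_total p q with c | c
  · exact tv_aux h N M hM c hq hmax hmin hc
  · have := tv_aux (fun i => -h i) N M (fun i hi => by rw [abs_neg]; exact hM i hi) c hp
      (fun i hi => neg_le_neg (hmin i hi)) (fun i hi => neg_le_neg (hmax i hi)) hc'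
    refine le_trans (le_of_eq (sum_congr rfl fun i _ => ?_)) this
    rw [← abs_neg]; congr 1; ring

lemma walk_osc (g : V → ℝ) {a b : V} (p : G.Walk a b) :
    g a - g b ≤ (p.darts.map fun d => |g d.fst - g d.snd|).sum := by
  induction p with
  | nil => simp
  | @cons u v w h p ih =>
    simp only [Walk.darts_cons, List.map_cons, List.sum_cons]
    linarith [le_abs_self (g u - g v)]

namespace Fr
variable (F : Fr)

def Rl (K : ℝ) (w : W) (a b : ℕ) : Prop := F.Close K w (bd F.L a) (bd F.L b)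

noncomputable def rep (K : ℝ) (w : W) (v : V) : V :=
  if v ∈ ring 0 F.L then bd F.L (sig (F.Rl K w) (pos F.L v)) else v

noncomputable def cls (K : ℝ) (w : W) (v : V) : ℕ :=
  if v ∈ ring 0 F.L then kap (F.Rl K w) (pos F.L v) + 1 else 0

noncomputable def kmax (K : ℝ) (w : W) : ℕ := kap (F.Rl K w) (8 * F.L - 1)

def Far (u : V) : Prop := (u ∈ ring 0 F.L ∨ u = 0) ∧ u ∉ box F.c (4 * F.r + 4)

def Act (U : Set V) (K : ℝ) (w : W) (i : V × V) : Prop :=
  ∃ u ∈ U, ∃ v ∈ ring 0 F.L, ∃ x ∈ box F.c (2 * F.r), Btw F.Λ w u x v ∧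
    F.rep K w u = i.1 ∧ F.rep K w v = i.2

open Classical in
noncomputable def Acts (U : Set V) (K : ℝ) (w : W) : Finset (V × V) :=
  (box 0 F.L ×ˢ box 0 F.L).filter (F.Act U K w)

noncomputable def Fv (w : W) (i : V × V) (y : V) : ℝ := T F.Λ w y i.1 + T F.Λ w y i.2

def Nr (w : W) (i : V × V) (y : V) (ρ : ℝ) : Prop := ∀ z ∈ F.Z w, F.Fv w i y ≤ F.Fv w i z + ρ

def ActBad (K : ℝ) (w : W) : Prop :=
  ∃ u ∈ ring 0 F.L, ∃ v₁ ∈ ring 0 F.L, ∃ v₂ ∈ ring 0 F.L, ∃ x₁ ∈ box F.c (2 * F.r),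
    ∃ x₂ ∈ box F.c (2 * F.r), Btw F.Λ w u x₁ v₁ ∧ Btw F.Λ w u x₂ v₂ ∧ ¬ F.Close K w v₁ v₂

variable {F} {w w' : W} {x y z z' u u' v v' : V} {K : ℝ} {U : Set V}

lemma Ok.unimodal (h : F.Ok) (hw : Pos w) (hz : z ∈ F.O w) (hz' : z' ∈ F.O w) {i₁ i₂ i₃ i₄ : ℕ}
    (h12 : i₁ < i₂) (h23 : i₂ < i₃) (h34 : i₃ < i₄) (h4 : i₄ ≤ 8 * F.L - 1) :
    min (T (F.O w) w z (bd F.L i₁) - T (F.O w) w z' (bd F.L i₁))
        (T (F.O w) w z (bd F.L i₃) - T (F.O w) w z' (bd F.L i₃)) ≤
      max (T (F.O w) w z (bd F.L i₂) - T (F.O w) w z' (bd F.L i₂))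
        (T (F.O w) w z (bd F.L i₄) - T (F.O w) w z' (bd F.L i₄)) := by
  have hL := h.L1
  have m := metO (F := F) hw
  have r1 := bd_mem (show i₁ < 8 * F.L by omega)
  have r2 := bd_mem (show i₂ < 8 * F.L by omega)
  have r3 := bd_mem (show i₃ < 8 * F.L by omega)
  have r4 := bd_mem (show i₄ < 8 * F.L by omega)
  obtain ⟨p1, -, g1⟩ := m.geo hz' (h.ring_O r1)
  obtain ⟨p3, -, g3⟩ := m.geo hz' (h.ring_O r3)
  obtain ⟨p2, -, g2⟩ := m.geo hz (h.ring_O r2)
  obtain ⟨p4, -, g4⟩ := m.geo hz (h.ring_O r4)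
  have sub : F.O w ⊆ box 0 F.L := fun t ht => O_Λ ht
  obtain ⟨t, t1, t2⟩ := crossing hL r1 r2 r3 r4
    (by rw [pos_bd (by omega), pos_bd (by omega)]; omega)
    (by rw [pos_bd (by omega), pos_bd (by omega)]; omega)
    (by rw [pos_bd (by omega), pos_bd (by omega)]; omega)
    (p1.reverse.append p3) (p2.reverse.append p4)
    (in_append.2 ⟨in_reverse.2 (g1.inD.mono sub), g3.inD.mono sub⟩)
    (in_append.2 ⟨in_reverse.2 (g2.inD.mono sub), g4.inD.mono sub⟩)
  have key : ∀ a b, Btw (F.O w) w z' t a → Btw (F.O w) w z t b →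
      T (F.O w) w z a - T (F.O w) w z' a ≤ T (F.O w) w z b - T (F.O w) w z' b := fun a b ha hb => by
    linarith [ha.eq, hb.eq, m.tri hz ha.m ha.r, m.tri hz' hb.m hb.r]
  simp only [Walk.mem_support_append_iff, Walk.support_reverse, List.mem_reverse] at t1 t2
  rcases t1 with t1 | t1 <;> rcases t2 with t2 | t2
  · exact min_le_of_left_le (le_max_of_le_left (key _ _ (m.btw_of_mem g1 t1) (m.btw_of_mem g2 t2)))
  · exact min_le_of_left_le (le_max_of_le_right (key _ _ (m.btw_of_mem g1 t1) (m.btw_of_mem g4 t2)))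
  · exact min_le_of_right_le (le_max_of_le_left (key _ _ (m.btw_of_mem g3 t1) (m.btw_of_mem g2 t2)))
  · exact min_le_of_right_le (le_max_of_le_right (key _ _ (m.btw_of_mem g3 t1) (m.btw_of_mem g4 t2)))

lemma Ok.kmax_le (h : F.Ok) (hw : Pos w) (hf : F.FG w) :
    K * F.kmax K w ≤ 2646 * F.M₀ * F.r := by
  classical
  have hL := h.L1
  have m := metO (F := F) hw
  let DZ := (F.Z w ×ˢ F.Z w).filter fun d => G.Adj d.1 d.2
  let hh : V × V → ℕ → ℝ := fun d i => T (F.O w) w d.1 (bd F.L i) - T (F.O w) w d.2 (bd F.L i)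
  have hcard : DZ.card ≤ 9 * (49 * F.r) := by
    have : DZ ⊆ (F.Z w).biUnion fun z => (box z 1).image fun t => (z, t) := by
      rintro ⟨a, b⟩ hab
      simp only [DZ, mem_filter, mem_product] at hab
      exact mem_biUnion.2 ⟨a, hab.1.1, mem_image.2 ⟨b, adj_mem_box hab.2, rfl⟩⟩
    have h1 := (card_le_card this).trans (card_biUnion_le_card_mul _ _ 9 fun z _ =>
      card_image_le.trans (by rw [card_box]; norm_num))
    have h2 := h.Z_card hf
    omega
  have tv : ∀ d ∈ DZ, ∑ i ∈ range (8 * F.L - 1), |hh d (i + 1) - hh d i| ≤ 6 * F.M₀ := by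
    rintro ⟨a, b⟩ hab
    simp only [DZ, mem_filter, mem_product] at hab
    have ha := Z_O hab.1.1
    have hb := Z_O hab.1.2
    refine tv_bound _ _ _ (fun i hi => ?_) (fun _ _ _ _ a1 a2 a3 a4 => h.unimodal hw ha hb a1 a2 a3 a4)
      fun _ _ _ _ a1 a2 a3 a4 => ?_
    · have r := h.ring_O (w := w) (bd_mem (show i < 8 * F.L by omega))
      have t : T (F.O w) w a b ≤ F.M₀ := by
        refine (T_le hw (p := hab.2.toWalk) ?_).trans ?_
        · intro s hs
          simp only [Adj.support_toWalk, List.mem_cons, List.not_mem_nil, or_false] at hs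
          rcases hs with rfl | rfl
          · exact ha
          · exact hb
        · simpa [cost] using Z_light hf hab.1.1 hab.1.2 hab.2
      rw [abs_le]
      have := T_symm (F.O w) w a b
      constructor <;> simp only [hh] <;> linarith [m.tri ha hb r, m.tri hb ha r]
    · simpa only [hh, neg_sub] using h.unimodal hw hb ha a1 a2 a3 a4
  refine (kap_bound _ (fun i => ∑ d ∈ DZ, |hh d (i + 1) - hh d i|)
    (fun i => sum_nonneg fun _ _ => abs_nonneg _) ?_).trans ?_
  · intro a b hab _ hR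
    simp only [Rl, Close, Osc, not_forall, not_le] at hR
    obtain ⟨z, hz, z', hz', hlt⟩ := hR
    obtain ⟨p, hp⟩ := h.Z_conn hz hz'
    have h1 := walk_osc (fun t => T (F.O w) w t (bd F.L a) - T (F.O w) w t (bd F.L b)) p.bypass
    rw [← List.sum_toFinset _ (Walk.darts_nodup_of_support_nodup p.bypass_isPath.support_nodup)] at h1
    have h2 : ∑ d ∈ p.bypass.darts.toFinset,
        |T (F.O w) w d.fst (bd F.L a) - T (F.O w) w d.fst (bd F.L b) -
          (T (F.O w) w d.snd (bd F.L a) - T (F.O w) w d.snd (bd F.L b))| ≤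
        ∑ d ∈ DZ, |hh d b - hh d a| := by
      refine le_trans (le_of_eq ?_) (sum_le_sum_of_subset_of_nonneg
        (s := p.bypass.darts.toFinset.image Dart.toProd) ?_ fun _ _ _ => abs_nonneg _)
      · rw [sum_image fun _ _ _ _ e => Dart.toProd_injective e]
        refine sum_congr rfl fun d _ => ?_
        rw [← abs_neg]; congr 1; simp only [hh]; ring
      · intro d' hd'
        obtain ⟨d, hd, rfl⟩ := mem_image.1 hd'
        rw [List.mem_toFinset] at hd
        exact mem_filter.2 ⟨mem_product.2 ⟨hp.bypass _ (Walk.dart_fst_mem_support_of_mem_darts _ hd),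
          hp.bypass _ (Walk.dart_snd_mem_support_of_mem_darts _ hd)⟩, d.adj⟩
    rw [sum_comm]
    refine le_trans (by linarith) (h2.trans (sum_le_sum fun d _ => ?_))
    rw [← sum_Ico_sub (hh d) hab]
    exact abs_sum_le_sum_abs _ _
  · rw [sum_comm]
    refine (sum_le_card_nsmul _ _ _ tv).trans ?_
    rw [nsmul_eq_mul]
    have : (DZ.card : ℝ) ≤ 9 * (49 * F.r) := by exact_mod_cast hcard
    nlinarith [h.M0]

lemma Ok.far_ring (h : F.Ok) (hv : v ∈ ring 0 F.L) : F.Far v := ⟨.inl hv, h.ring_far hv⟩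

lemma Far.Λ (hu : F.Far u) : u ∈ F.Λ := by
  rcases hu.1 with h | rfl
  · exact ring_sub_box h
  · exact self_mem_box _ _

lemma Ok.far_O (h : F.Ok) (hu : F.Far u) : u ∈ F.O w :=
  h.O_of_far hu.Λ fun hb => hu.2 (by rw [mem_box] at hb ⊢; omega)

lemma Ok.sig_lt (h : F.Ok) (hv : v ∈ ring 0 F.L) : sig (F.Rl K w) (pos F.L v) < 8 * F.L :=
  (sig_le _ _).trans_lt (pos_lt h.L1 hv)

lemma Ok.rep_ring (h : F.Ok) (hv : v ∈ ring 0 F.L) : F.rep K w v ∈ ring 0 F.L := by
  rw [rep, if_pos hv]; exact bd_mem (h.sig_lt hv)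

lemma Ok.rep_far (h : F.Ok) (hu : F.Far u) : F.Far (F.rep K w u) := by
  by_cases hr : u ∈ ring 0 F.L
  · exact h.far_ring (h.rep_ring hr)
  · rw [rep, if_neg hr]; exact hu

lemma rep_close (hK : 0 ≤ K) : F.Close K w (F.rep K w u) u := by
  unfold rep
  split_ifs with hr
  · have := sig_rel (F.Rl K w) (fun a => Osc.refl hK) (pos F.L u)
    rwa [Rl, bd_pos hr] at this
  · exact Osc.refl hK

lemma Ok.rep_osc (h : F.Ok) (hw : Pos w) (hK : 0 ≤ K) (hu : F.Far u) :
    Osc F.Λ w (F.DZ w) u (F.rep K w u) K :=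
  (h.C2 hw (h.far_O (h.rep_far hu)) (h.far_O hu) (rep_close hK)).symm

lemma Ok.cls_rep (h : F.Ok) : F.cls K w (F.rep K w u) = F.cls K w u := by
  by_cases hr : u ∈ ring 0 F.L
  · rw [cls, cls, if_pos hr, if_pos (h.rep_ring hr), rep, if_pos hr, pos_bd (h.sig_lt hr), kap_sig]
  · rw [rep, if_neg hr]

lemma rep_eq_of_cls (hu : F.Far u) (hu' : F.Far u') (e : F.cls K w u = F.cls K w u') :
    F.rep K w u = F.rep K w u' := by
  unfold cls at e
  unfold rep
  split_ifs at e ⊢ with h1 h2 h2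
  · rw [sig_eq_of_kap _ (Nat.succ_injective e)]
  · rw [hu.1.resolve_left h1, hu'.1.resolve_left h2]

lemma Ok.cls_le (h : F.Ok) : F.cls K w u ≤ F.kmax K w + 1 := by
  unfold cls
  split_ifs with hr
  · have := pos_lt h.L1 hr
    exact Nat.succ_le_succ (kap_mono _ (by omega))
  · omega

lemma mem_Acts {i : V × V} (h : F.Ok) (hU : ∀ u ∈ U, F.Far u) :
    i ∈ F.Acts U K w ↔ F.Act U K w i := by
  simp only [Acts, mem_filter, and_iff_right_iff_imp, mem_product]
  rintro ⟨u, hu, v, hv, x, -, -, e1, e2⟩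
  exact ⟨e1 ▸ (h.rep_far (hU u hu)).Λ, e2 ▸ (h.rep_far (h.far_ring hv)).Λ⟩

lemma Act.far {i : V × V} (ha : F.Act U K w i) (h : F.Ok) (hU : ∀ u ∈ U, F.Far u) :
    F.Far i.1 ∧ i.2 ∈ ring 0 F.L := by
  obtain ⟨u, hu, v, hv, x, -, -, e1, e2⟩ := ha
  exact ⟨e1 ▸ h.rep_far (hU u hu), e2 ▸ h.rep_ring hv⟩

lemma Act.inj {i j : V × V} (hi : F.Act U K w i) (hj : F.Act U K w j) (h : F.Ok)
    (hU : ∀ u ∈ U, F.Far u) (e1 : F.cls K w i.1 = F.cls K w j.1)
    (e2 : F.cls K w i.2 = F.cls K w j.2) : i = j := by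
  obtain ⟨u, hu, v, hv, x, -, -, a1, a2⟩ := hi
  obtain ⟨u', hu', v', hv', x', -, -, b1, b2⟩ := hj
  rw [← a1, ← b1, h.cls_rep, h.cls_rep] at e1
  rw [← a2, ← b2, h.cls_rep, h.cls_rep] at e2
  exact Prod.ext (by rw [← a1, ← b1, rep_eq_of_cls (hU u hu) (hU u' hu') e1])
    (by rw [← a2, ← b2, rep_eq_of_cls (h.far_ring hv) (h.far_ring hv') e2])

lemma Ok.acts_triv (h : F.Ok) (hU : ∀ u ∈ U, F.Far u) :
    (F.Acts U K w).card ≤ (F.kmax K w + 2) ^ 2 := by
  have := card_le_card_of_injOn (s := F.Acts U K w)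
    (t := range (F.kmax K w + 2) ×ˢ range (F.kmax K w + 2))
    (fun i => (F.cls K w i.1, F.cls K w i.2))
    (fun i _ => by simp [Nat.lt_succ_iff, h.cls_le])
    fun i hi j hj e => ((mem_Acts h hU).1 hi).inj ((mem_Acts h hU).1 hj) h hU
      (congrArg Prod.fst e) (congrArg Prod.snd e)
  simpa [sq] using this

lemma Ok.acts_fixed (h : F.Ok) (hU : F.Far 0) :
    (F.Acts {0} K w).card ≤ 8 * F.kmax K w + 4 := by
  have hU' : ∀ u ∈ ({0} : Set V), F.Far u := fun u hu => hu ▸ hU
  have := card_le_card_of_injOn (s := F.Acts {0} K w) (t := range (F.kmax K w + 2))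
    (fun i => F.cls K w i.2) (fun i _ => by simp [Nat.lt_succ_iff, h.cls_le])
    fun i hi j hj e => by
      have hi := (mem_Acts h hU').1 hi
      have hj := (mem_Acts h hU').1 hj
      refine hi.inj hj h hU' ?_ e
      obtain ⟨u, rfl, -, -, -, -, -, a, -⟩ := hi
      obtain ⟨u, rfl, -, -, -, -, -, b, -⟩ := hj
      rw [← a, ← b]
  rw [card_range] at this
  omega

lemma Ok.thru (h : F.Ok) (hw : Pos w) {p₁ p₂ p₃ p₄ x x' : V} (h1 : p₁ ∈ ring 0 F.L)
    (h2 : p₂ ∈ ring 0 F.L) (h3 : p₃ ∈ ring 0 F.L) (h4 : p₄ ∈ ring 0 F.L)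
    (h12 : pos F.L p₁ < pos F.L p₂) (h23 : pos F.L p₂ < pos F.L p₃)
    (h34 : pos F.L p₃ < pos F.L p₄) (hx : x ∈ box F.c (2 * F.r)) (hx' : x' ∈ box F.c (2 * F.r))
    (b : Btw F.Λ w p₁ x p₄) (b' : Btw F.Λ w p₂ x' p₃ ∨ Btw F.Λ w p₁ x' p₂) :
    ∃ t ∈ box F.c (2 * F.r), Btw F.Λ w p₁ t p₃ := by
  have m := met (F := F) hw
  have hx'Λ := h.box_sub (by omega) hx'
  obtain ⟨η, -, gη⟩ := m.geo (ring_sub_box h1) (ring_sub_box h3)
  obtain ⟨q₁, -, g1⟩ := m.geo (ring_sub_box h2) hx'Λ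
  obtain ⟨q₂, -, g2⟩ := box_walk hx' hx
  obtain ⟨q₃, -, g3⟩ := m.geo b.m b.r
  obtain ⟨t, t1, t2⟩ := crossing h.L1 h1 h2 h3 h4 h12 h23 h34 η (q₁.append (q₂.append q₃)) gη.inD
    (in_append.2 ⟨g1.inD, in_append.2 ⟨g2.mono fun t ht => h.box_sub (by omega) ht, g3.inD⟩⟩)
  have bt := m.btw_of_mem gη t1
  simp only [Walk.mem_support_append_iff] at t2
  rcases t2 with t2 | t2 | t2
  · have := m.btw_of_mem g1 t2
    rcases b' with b' | b'
    · exact ⟨x', hx', m.t3 bt (m.t2 this b')⟩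
    · exact ⟨x', hx', m.t1 (m.t4 b' this.symm) bt⟩
  · exact ⟨t, g2 t t2, bt⟩
  · exact ⟨x, hx, m.t1 (m.t4 b (m.btw_of_mem g3 t2)) bt⟩

lemma Ok.nested (h : F.Ok) (hw : Pos w) {p q p' q' x x' : V} (hp : p ∈ ring 0 F.L)
    (hq : q ∈ ring 0 F.L) (hp' : p' ∈ ring 0 F.L) (hq' : q' ∈ ring 0 F.L)
    (hx : x ∈ box F.c (2 * F.r)) (hx' : x' ∈ box F.c (2 * F.r))
    (b : Btw F.Λ w p x q) (b' : Btw F.Λ w p' x' q')
    (k1 : F.cls K w p < F.cls K w p') (k2 : F.cls K w p < F.cls K w q')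
    (k3 : F.cls K w p' + 2 ≤ F.cls K w q) (k4 : F.cls K w q' + 2 ≤ F.cls K w q) :
    F.ActBad K w := by
  wlog hlt : pos F.L p' < pos F.L q' generalizing p' q'
  · refine this hq' hp' b'.symm k2 k1 k4 k3 (lt_of_le_of_ne (not_lt.1 hlt) fun e => ?_)
    have e' : q' = p' := by rw [← bd_pos hq', e, bd_pos hp']
    subst e'
    have m := met (F := F) hw
    have : q' = x' := m.eq_of_le b'.l b'.m (by linarith [b'.eq, m.self b'.l, T_nonneg (D := F.Λ) (w := w) (a := x') (b := q')])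
    exact h.ring_far hq' (by rw [this]; rw [mem_box] at hx' ⊢; omega)
  simp only [cls, hp, hq, hp', hq', if_true] at k1 k2 k3 k4
  have l1 := lt_of_kap (F.Rl K w) (show kap _ (pos F.L p) < kap _ (pos F.L p') by omega)
  have l2 := lt_of_kap (F.Rl K w) (show kap _ (pos F.L q') < kap _ (pos F.L q) by omega)
  obtain ⟨t, ht, bt⟩ := h.thru hw hp hp' hq' hq l1 hlt l2 hx hx' b (.inl b')
  obtain ⟨e, e1, e2, e3⟩ := gap2 (F.Rl K w) (show kap _ (pos F.L q') + 2 ≤ kap _ (pos F.L q) by omega)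
  have hql := pos_lt h.L1 hq
  have se := sig_le (F.Rl K w) e
  have key : ∀ i, pos F.L q' < i → i ≤ pos F.L q →
      ∃ t ∈ box F.c (2 * F.r), Btw F.Λ w p t (bd F.L i) := by
    intro i i1 i2
    rcases eq_or_lt_of_le i2 with rfl | i2
    · rw [bd_pos hq]; exact ⟨x, hx, b⟩
    · exact h.thru hw hp hq' (bd_mem (by omega)) hq (by omega) (by rw [pos_bd (by omega)]; exact i1)
        (by rw [pos_bd (by omega)]; exact i2) hx ht b (.inr bt)
  obtain ⟨x₁, a1, b1⟩ := key _ e2 (by omega)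
  obtain ⟨x₂, a2, b2⟩ := key (e + 1) (by omega) (by omega)
  exact ⟨p, hp, _, bd_mem (by omega), _, bd_mem (by omega), x₁, a1, x₂, a2, b1, b2, e3⟩

lemma Ok.acts_main (h : F.Ok) (hw : Pos w) (hb : ¬ F.ActBad K w) :
    (F.Acts (ring 0 F.L) K w).card ≤ 8 * F.kmax K w + 4 := by
  have hU : ∀ u ∈ (ring 0 F.L : Set V), F.Far u := fun u hu => h.far_ring hu
  have := card_le_card_of_injOn (s := F.Acts (ring 0 F.L) K w)
    (t := Icc 2 (2 * F.kmax K w + 2) ×ˢ range 2 ×ˢ (univ : Finset Bool))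
    (fun i => (F.cls K w i.1 + F.cls K w i.2, F.cls K w i.1 % 2,
      decide (F.cls K w i.1 ≤ F.cls K w i.2)))
    (fun i hi => by
      obtain ⟨u, hu, v, hv, x, -, -, a1, a2⟩ := (mem_Acts h hU).1 hi
      have c1 := h.cls_le (K := K) (w := w) (u := i.1)
      have c2 := h.cls_le (K := K) (w := w) (u := i.2)
      have c3 : 1 ≤ F.cls K w i.1 := by rw [← a1, h.cls_rep, cls, if_pos (mem_coe.1 hu)]; omega
      have c4 : 1 ≤ F.cls K w i.2 := by rw [← a2, h.cls_rep, cls, if_pos hv]; omega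
      simp only [coe_product, Set.mem_prod, mem_coe, mem_Icc, mem_range, mem_univ, and_true]
      omega)
    fun i hi j hj e => by
      have hi := (mem_Acts h hU).1 hi
      have hj := (mem_Acts h hU).1 hj
      simp only [Prod.mk.injEq, decide_eq_decide] at e
      suffices F.cls K w i.1 = F.cls K w j.1 from hi.inj hj h hU this (by omega)
      by_contra hne
      apply hb
      obtain ⟨u, hu, v, hv, x, hx, b, a1, a2⟩ := hi
      obtain ⟨u', hu', v', hv', x', hx', b', b1, b2⟩ := hj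
      rw [← a1, ← a2, ← b1, ← b2] at e
      rw [← a1, ← b1] at hne
      simp only [h.cls_rep] at e hne
      by_cases c : F.cls K w u ≤ F.cls K w v
      · have c' := e.2.2.1 c
        rcases lt_or_gt_of_ne hne with l | l
        · exact h.nested hw hu hv hu' hv' hx hx' b b' (by omega) (by omega) (by omega) (by omega)
        · exact h.nested hw hu' hv' hu hv hx' hx b' b (by omega) (by omega) (by omega) (by omega)
      · have c' : ¬ F.cls K w u' ≤ F.cls K w v' := fun hh => c (e.2.2.2 hh)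
        rcases lt_or_gt_of_ne hne with l | l
        · exact h.nested hw hv' hu' hu hv hx' hx b'.symm b (by omega) (by omega) (by omega) (by omega)
        · exact h.nested hw hv hu hu' hv' hx hx' b.symm b' (by omega) (by omega) (by omega) (by omega)
  simp only [card_product, Nat.card_Icc, card_range, card_univ, Fintype.card_bool] at this
  omega

open Classical in
lemma Ok.opt_count {X : Law} (h : F.Ok) (hw : Pos w) (hg : Gen w) (hf : F.FG w) {k : ℕ}
    (hm : ∀ z ∈ box F.c (4 * F.r + 3), Med X w z (2 * k) k) (hk : 49 * F.r * F.M₀ < k * X.a₁)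
    {i : V × V} (h1 : i.1 ∈ F.O w) (h2 : i.2 ∈ F.O w) :
    ((box F.c (2 * F.r)).filter fun x => F.Nr w i x 0).card ≤ 4 * k := by
  have m := met (F := F) hw
  rcases ((box F.c (2 * F.r)).filter fun x => F.Nr w i x 0).eq_empty_or_nonempty with e | ⟨x₀, hx₀⟩
  · rw [e]; simp
  have low : ∀ x ∈ box F.c (2 * F.r), ∃ z ∈ F.Z w, F.Fv w i z ≤ F.Fv w i x := fun x hx => by
    obtain ⟨z, hz, e⟩ := h.C1 hw h1 (box_DZ hx)
    refine ⟨z, hz, ?_⟩
    have := m.tri (O_Λ (Z_O hz)) (h.box_sub (by omega) hx) (O_Λ h2)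
    have := (metO hw).mono (fun t ht => O_Λ ht) (Z_O hz) h1
    unfold Fv
    linarith [T_symm F.Λ w x z]
  rw [mem_filter] at hx₀
  have x0 := h.box_sub (by omega) hx₀.1
  obtain ⟨pa, ha, ga⟩ := m.geo (O_Λ h1) x0
  obtain ⟨pb, hb, gb⟩ := m.geo (O_Λ h2) x0
  obtain ⟨za, hza, a₁, a₂, rfl, ia⟩ := entry pa h1 ga.inD (box_DZ hx₀.1)
  obtain ⟨zb, hzb, b₁, b₂, rfl, ib⟩ := entry pb h2 gb.inD (box_DZ hx₀.1)
  obtain ⟨-, ga2, ba⟩ := m.geo_split ga
  obtain ⟨-, gb2, bb⟩ := m.geo_split gb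
  have hd := ((metO hw).mono (fun t ht => O_Λ ht) (Z_O hza) (Z_O hzb)).trans (h.Z_diam hw hf hza hzb)
  have hsum : cost w a₂ + cost w b₂ ≤ 49 * F.r * F.M₀ := by
    have := hx₀.2 za hza
    unfold Fv at this
    rw [ga2.eq, gb2.eq]
    linarith [ba.eq, bb.eq, T_symm F.Λ w x₀ i.1, T_symm F.Λ w x₀ i.2, T_symm F.Λ w za i.1,
      T_symm F.Λ w zb i.2, m.tri ba.m bb.m bb.l]
  have la := (hm za (Z_box hza)).cost hw ha.of_append_right (by linarith [cost_nonneg hw b₂])
  have lb := (hm zb (Z_box hzb)).cost hw hb.of_append_right (by linarith [cost_nonneg hw a₂])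
  have sub : ((box F.c (2 * F.r)).filter fun x => F.Nr w i x 0) ⊆
      a₂.support.toFinset ∪ b₂.support.toFinset := by
    intro x hx
    rw [mem_filter] at hx
    have xΛ := h.box_sub (by omega) hx.1
    obtain ⟨p, -, gp⟩ := m.geo (O_Λ h1) xΛ
    obtain ⟨q, -, gq⟩ := m.geo xΛ (O_Λ h2)
    have e : cost w (p.append q) = cost w ((a₁.append a₂).append (b₁.append b₂).reverse) := by
      rw [cost_append p, cost_append (a₁.append a₂), cost_reverse, gp.eq, gq.eq, ga.eq, gb.eq]
      obtain ⟨z, hz, e⟩ := low x hx.1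
      obtain ⟨z₀, hz₀, e₀⟩ := low x₀ hx₀.1
      have i1 := hx.2 z₀ hz₀
      have i2 := hx₀.2 z hz
      unfold Fv at *
      linarith [T_symm F.Λ w x₀ i.1, T_symm F.Λ w x₀ i.2, T_symm F.Λ w x i.1]
    have := hg.mem_support e (z := x) (by simp)
    have nO : x ∉ F.O w := fun hh => O_D hh (.inl hx.1)
    simp only [Walk.mem_support_append_iff, Walk.support_reverse, List.mem_reverse] at this
    simp only [mem_union, List.mem_toFinset]
    rcases this with (t | t) | t | t
    · exact absurd (ia x t) nO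
    · exact .inl t
    · exact absurd (ib x t) nO
    · exact .inr t
  have c1 := List.toFinset_card_le a₂.support
  have c2 := List.toFinset_card_le b₂.support
  rw [Walk.length_support] at c1 c2
  have := (card_le_card sub).trans (card_union_le _ _)
  omega

lemma Same.rep (h : F.Same w w') (K : ℝ) : F.rep K w' = F.rep K w := by
  have : F.Rl K w' = F.Rl K w := by funext a b; rw [Rl, Rl, h.Close]
  funext v; rw [Fr.rep, Fr.rep, this]

lemma nr_transfer {S : Set V} {a b : V} {i j : V × V} {K₁ K₂ ρ : ℝ}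
    (h1 : Osc F.Λ w S i.1 j.1 K₁) (h2 : Osc F.Λ w S i.2 j.2 K₂) (ha : a ∈ S) (hb : b ∈ S)
    (h : F.Fv w i a ≤ F.Fv w i b + ρ) : F.Fv w j a ≤ F.Fv w j b + (ρ + K₁ + K₂) := by
  unfold Fv at *
  linarith [h1 b hb a ha, h2 b hb a ha]

end Fr
end Vale.Agent.P158
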