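import Mathlib

namespace Vale.Agent.P158

/-- The nearest-neighbour graph on the square lattice. -/
def G : SimpleGraph (ℤ × ℤ) where
  Adj x y := |x.1 - y.1| + |x.2 - y.2| = 1
  symm := ⟨fun x y h => by rw [abs_sub_comm y.1, abs_sub_comm y.2]; exact h⟩
  loopless := ⟨fun x h => by simp at h⟩

/-- The passage time of a lattice walk: the sum of the weights of the traversed edges. -/
def cost (w : Sym2 (ℤ × ℤ) → ℝ) {a b : ℤ × ℤ} (p : G.Walk a b) : ℝ := (p.edges.map w).sum

/-- The first-passage time: the infimum of the passage times of all walks from `a` to `b`. -/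
noncomputable def passageTime (w : Sym2 (ℤ × ℤ) → ℝ) (a b : ℤ × ℤ) : ℝ :=
  sInf (Set.range fun p : G.Walk a b => cost w p)

/-- A bigeodesic: a doubly infinite self-avoiding nearest-neighbour path all of whose finite
segments realise the first-passage time. -/
def IsBigeodesic (w : Sym2 (ℤ × ℤ) → ℝ) (v : ℤ → ℤ × ℤ) : Prop :=
  Function.Injective v ∧ (∀ i, G.Adj (v i) (v (i + 1))) ∧
    ∀ i j, i < j → ∑ k ∈ Finset.Ico i j, w s(v k, v (k + 1)) = passageTime w (v i) (v j)

end Vale.Agent.P158
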