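import Vale.Agent.P158.Scale

namespace Vale.Agent.P158
open SimpleGraph Finset MeasureTheory Law Fr

lemma ex_big (A : ℝ) {ε : ℝ} (hε : 0 < ε) : ∃ n : ℕ, 1 ≤ n ∧ ∀ n' : ℕ, n ≤ n' → A < n' * ε := by
  obtain ⟨n, hn⟩ := exists_nat_gt (A / ε)
  refine ⟨n + 1, by omega, fun n' h => ?_⟩
  rw [div_lt_iff₀ hε] at hn
  have : (n : ℝ) ≤ n' := by exact_mod_cast (by omega)
  nlinarith

lemma card_le_sum2 {α β : Type*} {I : Finset (α × β)} {A : Finset α} {B : Finset β}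
    (p : α → β → Prop) (h : I ⊆ A ×ˢ B) (hp : ∀ t ∈ I, p t.1 t.2) :
    (I.card : ℝ) ≤ ∑ i ∈ A, ∑ y ∈ B, ind (p i y) := by
  rw [← sum_product' (f := fun i y => ind (p i y)), card_eq_sum_ones]
  push_cast
  exact le_trans (sum_le_sum fun t ht => le_of_eq (ind_true (hp t ht)).symm)
    (sum_le_sum_of_subset_of_nonneg h fun _ _ _ => ind_nonneg _)

lemma sum_box_le {c : V} {R : ℕ} (hR : 1 ≤ R) {f : V → ℝ} {b : ℝ} (hb : 0 ≤ b)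
    (h : ∀ y ∈ box c R, f y ≤ b) : ∑ y ∈ box c R, f y ≤ 9 * R ^ 2 * b := by
  refine (sum_le_card_nsmul _ _ _ h).trans ?_
  rw [card_box, nsmul_eq_mul]
  have : (1 : ℝ) ≤ R := by exact_mod_cast hR
  push_cast
  exact mul_le_mul_of_nonneg_right (by nlinarith) hb

lemma m_PP (L : ℕ) (U : Set V) (y : V) : Measurable (PP L U y) :=
  .exists fun _ => .and measurable_const (.exists fun _ => .and measurable_const (m_btw ..))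

noncomputable def A1 (X : Law) (c₀ : V) (R k k' k₁ : ℕ) (w : W) : ℝ :=
  ∑ y ∈ box c₀ R, ind (¬ (Med X w y (2 * k) k ∧ Med X w y (2 * k') k' ∧ Med X w y (2 * k₁) k₁))

noncomputable def A2 (X : Law) (L : ℕ) (U : Set V) (c₀ : V) (R : ℕ) (K : ℝ) (r' r : ℕ) (w : W) : ℝ :=
  ∑ y ∈ box c₀ R, ind (NB X L U K y r' r w)

noncomputable def A3 (M₀ : ℝ) (L : ℕ) (U : Set V) (c₀ : V) (R : ℕ) (K₁ : ℝ) (r : ℕ) (w : W) : ℝ :=
  ∑ y ∈ box c₀ R, ind (¬ Fr.FG ⟨L, gr r y, r, M₀⟩ w ∨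
    (Fr.FG ⟨L, gr r y, r, M₀⟩ w ∧ Fr.Many ⟨L, gr r y, r, M₀⟩ U K₁ w))

noncomputable def A4 (M₀ : ℝ) (c₀ : V) (R : ℕ) (K₁ : ℝ) (α r : ℕ) : ℝ :=
  ((box c₀ R).image (gr r)).card * (α * r * (8 * (2646 * M₀ * r / K₁) + 4))

noncomputable def A5 (X : Law) (M₀ : ℝ) (L : ℕ) (U : Set V) (c₀ : V) (R k k' m r : ℕ) (w : W) : ℝ :=
  ∑ g ∈ (box c₀ R).image (gr r), ∑ i ∈ box 0 L ×ˢ box 0 L, ∑ y ∈ box g r,
    ind (Fr.Ev ⟨L, g, r, M₀⟩ X U X.M₁ (2 * k) k (6 * X.M₁) i y w ∧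
      Fr.Fat ⟨L, g, r, M₀⟩ X m (2 * k') k' (6 * X.M₁) i w)

noncomputable def A6 (X : Law) (M₀ : ℝ) (L : ℕ) (U : Set V) (c₀ : V) (R k : ℕ) (ρ : ℝ) (w : W) : ℝ :=
  ∑ i ∈ box 0 L ×ˢ box 0 L, ∑ y ∈ box c₀ R, ind (Fr.Ev ⟨L, c₀, R, M₀⟩ X U X.M₁ (2 * k) k ρ i y w)

noncomputable def BB (X : Law) (M₀ : ℝ) (L : ℕ) (U : Set V) (c₀ : V) (R k k' k₁ m α : ℕ) (K₁ : ℝ)
    (r' r : ℕ) (w : W) : ℝ :=
  A1 X c₀ R k k' k₁ w + A2 X L U c₀ R (2 * K₁ + 2 * X.M₁) r' r w + A3 M₀ L U c₀ R K₁ r w +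
    A4 M₀ c₀ R K₁ α r + A5 X M₀ L U c₀ R k k' m r w + m / α * A6 X M₀ L U c₀ R k (6 * X.M₁) w

lemma sum_ind_nonneg {ι : Type*} (I : Finset ι) (p : ι → Prop) : 0 ≤ ∑ t ∈ I, ind (p t) :=
  sum_nonneg fun _ _ => ind_nonneg _

lemma multi_scale {X : Law} {M₀ K₁ : ℝ} {r₀ L R k k' k₁ m α J : ℕ} {U : Set V} {c₀ : V} {w : W}
    {r : ℕ → ℕ} (hS : Setup X M₀ r₀ L U c₀ R) (mono : Monotone r)
    (hr : ∀ j < J, r₀ ≤ r (j + 1) ∧ r (j + 1) ≤ R) (K1 : X.M₁ ≤ K₁) (α1 : 1 ≤ α) (hw : Pos w)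
    (hf : Fr.FG ⟨L, c₀, R, M₀⟩ w) :
    J * ∑ y ∈ box c₀ R, ind (PP L U y w) ≤
      ∑ j ∈ range J, BB X M₀ L U c₀ R k k' k₁ m α K₁ (r j) (r (j + 1)) w +
        m / α * A6 X M₀ L U c₀ R k₁ (4 * K₁ + 2 * X.M₁) w := by
  classical
  have h := fun j (hj : j < J) => one_scale (r' := r j) (k := k)
      (k' := k') (k₁ := k₁) (m := m) hS (hr j hj).1 (hr j hj).2 K1 α1 hw hf
  choose! I hI1 hI2 hI3 using h
  let nr : ℕ → (V × V) × V → Prop := fun j t =>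
    ∃ p ∈ box t.2 (r j), PP L U p w ∧ Fr.rc ⟨L, c₀, R, M₀⟩ U X.M₁ w p = t.1
  have a1 : ∀ j < J, ((I j).card : ℝ) ≤ A6 X M₀ L U c₀ R k (6 * X.M₁) w +
      ((I j).filter fun t => ¬ nr j t).card := by
    intro j hj
    rw [← card_filter_add_card_filter_not (s := I j) (nr j)]
    push_cast
    exact add_le_add_left (card_le_sum2 _ ((filter_subset _ _).trans (hI1 j hj))
      fun t ht => (hI3 j hj t (mem_filter.1 ht).1).2.2 (mem_filter.1 ht).2) _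
  have a2 : ∑ j ∈ range J, (((I j).filter fun t => ¬ nr j t).card : ℝ) ≤
      A6 X M₀ L U c₀ R k₁ (4 * K₁ + 2 * X.M₁) w := by
    rw [← Nat.cast_sum, ← card_biUnion]
    · refine card_le_sum2 _ (biUnion_subset.2 fun j hj =>
        (filter_subset _ _).trans (hI1 j (mem_range.1 hj))) fun t ht => ?_
      obtain ⟨j, hj, ht⟩ := mem_biUnion.1 ht
      exact (hI3 j (mem_range.1 hj) t (mem_filter.1 ht).1).1
    · have key : ∀ j j', j < j' → j' < J →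
          Disjoint ((I j).filter fun t => ¬ nr j t) ((I j').filter fun t => ¬ nr j' t) := by
        intro j j' h1 h2
        refine disjoint_left.2 fun t t1 t2 => (mem_filter.1 t2).2 ?_
        obtain ⟨y, hy, h⟩ := (hI3 j (by omega) t (mem_filter.1 t1).1).2.1
        have := mono (show j + 1 ≤ j' from h1)
        exact ⟨y, by rw [mem_box] at hy ⊢; omega, h⟩
      intro j hj j' hj' hne
      rcases lt_or_gt_of_ne hne with c | c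
      · exact key _ _ c (by simpa using hj')
      · exact (key _ _ c (by simpa using hj)).symm
  have a3 : ∑ j ∈ range J, ∑ y ∈ box c₀ R, ind (PP L U y w) ≤
      ∑ j ∈ range J, (BB X M₀ L U c₀ R k k' k₁ m α K₁ (r j) (r (j + 1)) w +
        m / α * ((I j).filter fun t => ¬ nr j t).card) :=
    sum_le_sum fun j hj => by
      have := mul_le_mul_of_nonneg_left (a1 j (mem_range.1 hj)) (show (0 : ℝ) ≤ m / α by positivity)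
      have := hI2 j (mem_range.1 hj)
      simp only [BB, A1, A2, A3, A4, A5]
      linarith
  rw [sum_const, card_range, nsmul_eq_mul, sum_add_distrib, ← mul_sum] at a3
  linarith [mul_le_mul_of_nonneg_left a2 (show (0 : ℝ) ≤ m / α by positivity)]

lemma BB_nonneg {X : Law} {M₀ K₁ : ℝ} {L R k k' k₁ m α r' r : ℕ} {U : Set V} {c₀ : V} {w : W}
    (hM : 0 < M₀) (hK : 0 < K₁) : 0 ≤ BB X M₀ L U c₀ R k k' k₁ m α K₁ r' r w := by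
  have : 0 ≤ A6 X M₀ L U c₀ R k (6 * X.M₁) w := sum_nonneg fun _ _ => sum_ind_nonneg _ _
  have : 0 ≤ A5 X M₀ L U c₀ R k k' m r w :=
    sum_nonneg fun _ _ => sum_nonneg fun _ _ => sum_ind_nonneg _ _
  have : 0 ≤ A4 M₀ c₀ R K₁ α r := by unfold A4; positivity
  have : 0 ≤ A1 X c₀ R k k' k₁ w := sum_ind_nonneg _ _
  have : 0 ≤ A2 X L U c₀ R (2 * K₁ + 2 * X.M₁) r' r w := sum_ind_nonneg _ _
  have : 0 ≤ A3 M₀ L U c₀ R K₁ r w := sum_ind_nonneg _ _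
  unfold BB; positivity

lemma ub_A1 {X : Law} {ε : ℝ} {c₀ : V} {R k k' k₁ : ℕ} (hε : 0 < ε) (R1 : 1 ≤ R)
    (hk : (1 / 2 : ℝ) ^ k ≤ ε) (h1 : k ≤ k') (h2 : k ≤ k₁) :
    X.UB (A1 X c₀ R k k' k₁) (27 * ε * R ^ 2) := by
  have hmed : ∀ y k', k ≤ k' → X.pr (fun w => ¬ Med X w y (2 * k') k') ≤ ε := fun y k' h =>
    (pr_med y k').trans ((pow_le_pow_of_le_one (by norm_num) (by norm_num) h).trans hk)
  refine (ub_sum_ind _ _).mono (.of_forall fun _ => le_rfl)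
    ((sum_box_le R1 (b := 3 * ε) (by positivity) fun y _ => ?_).trans (le_of_eq (by ring)))
  simp only [not_and_or]
  refine pr_or.trans ((add_le_add (hmed y k le_rfl) (pr_or.trans
    (add_le_add (hmed y k' h1) (hmed y k₁ h2)))).trans (le_of_eq (by ring)))

lemma Setup.loc {X : Law} {M₀ : ℝ} {r₀ L R ρ : ℕ} {U : Set V} {c₀ : V} (hS : Setup X M₀ r₀ L U c₀ R)
    (ρ1 : 1 ≤ ρ) (h1 : r₀ ≤ ρ) (h2 : ρ ≤ R) {y : V} (hy : y ∈ box c₀ R) {K : ℝ} (hK : X.M₁ ≤ K) :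
    Fr.Gd ⟨L, gr ρ y, ρ, M₀⟩ X M₀ r₀ U K :=
  hS _ (by have := gr_bd ρ1 y; rw [mem_box] at hy ⊢; omega) ρ h1 h2 K hK

lemma ub_A3 {X : Law} {ε M₀ K₁ : ℝ} {r₀ L R ρ : ℕ} {U : Set V} {c₀ : V} (hε : 0 < ε)
    (hFG : ∀ F : Fr, F.M₀ = M₀ → 1 ≤ F.r → X.pr (fun w => ¬ F.FG w) ≤ ε)
    (hS : Setup X M₀ r₀ L U c₀ R) (ρ1 : 1 ≤ ρ) (h1 : r₀ ≤ ρ) (h2 : ρ ≤ R) (K1 : X.M₁ ≤ K₁)
    (e1 : 1 ≤ ρ * ε) : X.UB (A3 M₀ L U c₀ R K₁ ρ) (18 * ε * R ^ 2) := by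
  have ρp : (1 : ℝ) ≤ ρ := by exact_mod_cast ρ1
  refine (ub_sum_ind _ _).mono (.of_forall fun _ => le_rfl)
    ((sum_box_le (ρ1.trans h2) (b := 2 * ε) (by positivity) fun y hy => ?_).trans (le_of_eq (by ring)))
  refine pr_or.trans ?_
  have b1 := hFG ⟨L, gr ρ y, ρ, M₀⟩ rfl ρ1
  have b2 := (hS.loc ρ1 h1 h2 hy K1).ha
  have b3 : 1 / (ρ : ℝ) ^ 3 ≤ ε := by
    rw [div_le_iff₀ (by positivity)]
    nlinarith [pow_le_pow_right₀ ρp (show 1 ≤ 3 by norm_num)]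
  linarith

lemma A4_le {ε M₀ K₁ : ℝ} {R ρ α : ℕ} {c₀ : V} (hε : 0 < ε) (ρ1 : 1 ≤ ρ) (h2 : ρ ≤ R) (K0 : 0 < K₁)
    (K2 : α * 8 * (2646 * M₀) ≤ K₁ * ε) (e1 : 4 * α ≤ ρ * ε) :
    A4 M₀ c₀ R K₁ α ρ ≤ 50 * ε * R ^ 2 := by
  have ρp : (1 : ℝ) ≤ ρ := by exact_mod_cast ρ1
  have cg := card_grid ρ1 h2 c₀
  have b1 : α * ρ * (8 * (2646 * M₀ * ρ / K₁) + 4) ≤ ρ ^ 2 * (2 * ε) := by
    have : α * (8 * (2646 * M₀ * ρ / K₁)) ≤ ρ * ε := by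
      rw [mul_div_assoc', mul_div_assoc', div_le_iff₀ K0]; nlinarith
    nlinarith
  calc A4 M₀ c₀ R K₁ α ρ ≤ ((box c₀ R).image (gr ρ)).card * (ρ ^ 2 * (2 * ε)) :=
        mul_le_mul_of_nonneg_left b1 (by positivity)
    _ ≤ _ := by nlinarith

lemma ub_A5 {X : Law} {ε M₀ CT : ℝ} {r₀ rb L R ρ k k' m : ℕ} {U : Set V} {c₀ : V} (hε : 0 < ε)
    (hS : Setup X M₀ r₀ L U c₀ R) (ρ1 : 1 ≤ ρ) (h1 : r₀ ≤ ρ) (h2 : ρ ≤ R) (h3 : rb ≤ ρ) (m1 : 1 ≤ m)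
    (hthin : ∀ (F : Fr) U K, F.Gd X M₀ rb U K → ∀ m : ℕ, 1 ≤ m → ∑ i ∈ F.II, ∑ y ∈ box F.c F.r,
      X.pr (fun w => F.Ev X U K (2 * k) k (6 * X.M₁) i y w ∧ F.Fat X m (2 * k') k' (6 * X.M₁) i w) ≤
      CT * (F.r ^ 2 / m + F.r)) (e1 : CT ≤ ρ * ε) (e2 : CT ≤ m * ε) :
    X.UB (A5 X M₀ L U c₀ R k k' m ρ) (50 * ε * R ^ 2) := by
  have ρp : (1 : ℝ) ≤ ρ := by exact_mod_cast ρ1
  have mp : (0 : ℝ) < m := by exact_mod_cast m1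
  have cg := card_grid ρ1 h2 c₀
  refine (ub_sum _ fun g _ => ub_sum _ fun i _ => ub_sum_ind _ _).mono
    (.of_forall fun _ => le_rfl) ?_
  refine (sum_le_card_nsmul _ _ (ρ ^ 2 * (2 * ε)) fun g hg => ?_).trans ?_
  · obtain ⟨y, hy, rfl⟩ := mem_image.1 hg
    have g1 := hS.loc ρ1 h1 h2 hy le_rfl
    refine (hthin ⟨L, gr ρ y, ρ, M₀⟩ U _ { g1 with hr := h3 } m m1).trans ?_
    have : CT * (ρ ^ 2 / m) ≤ ρ ^ 2 * ε := by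
      rw [mul_div_assoc', div_le_iff₀ mp]; nlinarith
    simp only
    nlinarith
  · rw [nsmul_eq_mul]; nlinarith

theorem engine (X : Law) {ε M₀ : ℝ} (hε : 0 < ε) (hM : 0 < M₀)
    (hFG : ∀ F : Fr, F.M₀ = M₀ → 1 ≤ F.r → X.pr (fun w => ¬ F.FG w) ≤ ε) :
    ∃ K', 0 ≤ K' ∧ ∃ J : ℕ, 1 ≤ J ∧ ∃ r₀ : ℕ, 1 ≤ r₀ ∧ ∀ L U c₀ R (r : ℕ → ℕ), Monotone r →
      r₀ ≤ r 0 → r J ≤ R → Setup X M₀ r₀ L U c₀ R → ∀ b, (∀ j < J, ∑ y ∈ box c₀ R,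
        X.pr (NB X L U K' y (r j) (r (j + 1))) ≤ b) →
      ∑ y ∈ box c₀ R, X.pr (PP L U y) ≤ 200 * ε * R ^ 2 + b := by
  have M1 := X.M₁_pos
  obtain ⟨ka, -, hka⟩ := ex_big (6 * X.M₁) X.η_pos
  obtain ⟨kb, hkb⟩ := exists_pow_lt_of_lt_one hε (show (1 / 2 : ℝ) < 1 by norm_num)
  obtain ⟨k, hk1, hk2⟩ : ∃ k, ka ≤ k ∧ kb ≤ k := ⟨max ka kb, by omega, by omega⟩
  have hk : (1 / 2 : ℝ) ^ k ≤ ε := (pow_le_pow_of_le_one (by norm_num) (by norm_num) hk2).trans hkb.le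
  obtain ⟨kc, -, hkc⟩ := ex_big (6 * X.M₁ + 2 * (2 * k : ℕ) * X.M₁) X.η_pos
  obtain ⟨C, C0, ra, hnear⟩ := near X hM
  obtain ⟨CT, CT0, rb, hthin⟩ := thin X hM (2 * k) k (2 * (kc + 2 * k)) (kc + 2 * k) (6 * X.M₁)
    (hka k hk1) (hkc _ (by omega))
  obtain ⟨m, m1, hm⟩ := ex_big CT hε
  obtain ⟨α, α1, hα⟩ := ex_big (m * (X.cb (2 * k) * C)) hε
  obtain ⟨K₁, K1, K2⟩ : ∃ K₁, X.M₁ ≤ K₁ ∧ α * 8 * (2646 * M₀) ≤ K₁ * ε :=
    ⟨max X.M₁ (α * 8 * (2646 * M₀) / ε), le_max_left _ _, by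
      rw [← div_le_iff₀ hε]; exact le_max_right _ _⟩
  obtain ⟨kd, -, hkd⟩ := ex_big (4 * K₁ + 2 * X.M₁) X.η_pos
  obtain ⟨k₁, hk3, hk4⟩ : ∃ k₁, kd ≤ k₁ ∧ k ≤ k₁ := ⟨max kd k, by omega, by omega⟩
  obtain ⟨J, J1, hJ⟩ := ex_big (m / α * (X.cb (2 * k₁) * C)) hε
  obtain ⟨rc, rc1, hrc⟩ := ex_big (4 * α + CT + 1) hε
  obtain ⟨r₀, q1, q2, q3, q4⟩ : ∃ r₀, ra ≤ r₀ ∧ rb ≤ r₀ ∧ rc ≤ r₀ ∧ 2 * k₁ ≤ r₀ :=
    ⟨ra + rb + rc + 2 * k₁, by omega, by omega, by omega, by omega⟩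
  refine ⟨2 * K₁ + 2 * X.M₁, by linarith, J, J1, r₀, by omega,
    fun L U c₀ R r mono h0 hJR hS b hb => ?_⟩
  have hr : ∀ j < J, r₀ ≤ r (j + 1) ∧ r (j + 1) ≤ R := fun j hj =>
    ⟨h0.trans (mono (by omega)), (mono (by omega)).trans hJR⟩
  have R0 : r₀ ≤ R := (hr 0 J1).1.trans (hr 0 J1).2
  have R1 : 1 ≤ R := by omega
  have g0 : Fr.Gd ⟨L, c₀, R, M₀⟩ X M₀ ra U X.M₁ :=
    { hS c₀ (self_mem_box _ _) R R0 le_rfl _ le_rfl with hr := (show ra ≤ R by omega) }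
  have Jp : (0 : ℝ) < J := by exact_mod_cast J1
  have αp : (0 : ℝ) < α := by exact_mod_cast α1
  have K0 : 0 < K₁ := M1.trans_le K1
  have R2 : (0 : ℝ) ≤ R ^ 2 := by positivity
  have u6 : ∀ (k : ℕ) ρ, 2 * k ≤ R → ρ < k * X.η →
      X.UB (A6 X M₀ L U c₀ R k ρ) (X.cb (2 * k) * C * R ^ 2) :=
    fun k ρ h1 h2 => (ub_sum _ fun i _ => ub_sum_ind _ _).mono (.of_forall fun _ => le_rfl)
      (hnear _ U _ g0 _ _ _ h1 h2)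
  have uB : ∀ j ∈ range J, X.UB (BB X M₀ L U c₀ R k (kc + 2 * k) k₁ m α K₁ (r j) (r (j + 1)))
      (146 * ε * R ^ 2 + b) := by
    intro j hj
    rw [mem_range] at hj
    obtain ⟨h1, h2⟩ := hr j hj
    have e1 := hrc (r (j + 1)) (by omega)
    have u2 : X.UB (A2 X L U c₀ R (2 * K₁ + 2 * X.M₁) (r j) (r (j + 1))) b :=
      (ub_sum_ind _ _).mono (.of_forall fun _ => le_rfl) (hb j hj)
    have u4 := A4_le (c₀ := c₀) hε (by omega) h2 K0 K2 (by linarith)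
    refine ((((((ub_A1 hε R1 hk (by omega) hk4).add u2).add
      (ub_A3 hε hFG hS (by omega) h1 h2 K1 (by linarith))).add (ub_const _)).add
      (ub_A5 hε hS (by omega) h1 h2 (by omega) m1 hthin (by linarith) (hm m le_rfl).le)).add
      ((u6 k _ (by omega) (hka k hk1)).mul (c := m / α) (by positivity))).mono
      (.of_forall fun _ => le_rfl) ?_
    have : m / α * (X.cb (2 * k) * C * R ^ 2) ≤ ε * R ^ 2 := by
      rw [← mul_assoc]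
      refine mul_le_mul_of_nonneg_right ?_ R2
      rw [div_mul_eq_mul_div, div_le_iff₀ αp]; linarith [hα α le_rfl]
    linarith
  refine UB.sum_le (m_PP L U) ((((ub_ind fun w => ¬ Fr.FG ⟨L, c₀, R, M₀⟩ w).mul (c := 9 * R ^ 2)
    (by positivity)).add (((ub_sum _ uB).add ((u6 k₁ _ (by omega) (hkd k₁ hk3)).mul (c := m / α)
      (by positivity))).mul (c := 1 / J) (by positivity))).mono ?_ ?_)
  · filter_upwards [ae_pos] with w hw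
    by_cases hf : Fr.FG ⟨L, c₀, R, M₀⟩ w
    · rw [ind_false (not_not.2 hf), mul_zero, zero_add, one_div_mul_eq_div, le_div_iff₀ Jp, mul_comm]
      exact multi_scale hS mono hr K1 α1 hw hf
    · rw [ind_true hf]
      refine le_add_of_le_of_nonneg (sum_box_le R1 zero_le_one fun y _ =>
        (ind_mono fun _ => trivial).trans (ind_true trivial).le) (mul_nonneg (by positivity)
        (add_nonneg (sum_nonneg fun j _ => BB_nonneg hM K0) (mul_nonneg (by positivity)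
          (sum_nonneg fun _ _ => sum_ind_nonneg _ _))))
  · rw [sum_const, card_range, nsmul_eq_mul, mul_add, ← mul_assoc, one_div_mul_cancel Jp.ne', one_mul]
    have b1 := mul_le_mul_of_nonneg_left (hFG ⟨L, c₀, R, M₀⟩ rfl R1)
      (show (0 : ℝ) ≤ 9 * R ^ 2 by positivity)
    have b2 : 1 / J * (m / α * (X.cb (2 * k₁) * C * R ^ 2)) ≤ ε * R ^ 2 := by
      rw [← mul_assoc (m / α : ℝ), ← mul_assoc]
      refine mul_le_mul_of_nonneg_right ?_ R2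
      rw [one_div_mul_eq_div, div_le_iff₀ Jp]; linarith [hJ J le_rfl]
    nlinarith

end Vale.Agent.P158
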