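import Vale.Agent.P158.Stage1

namespace Vale.Agent.P158
open SimpleGraph Finset MeasureTheory Law Fr ProbabilityTheory

theorem lemE2 (X : Law) (M₀ : ℝ) (r : ℕ) {ρ ε : ℝ} (hρ : 0 ≤ ρ) (hε : 0 < ε) :
    ∃ L₀ : ℕ, ∀ F : Fr, F.Ok → F.r = r → F.M₀ = M₀ → Mar F.L F.c L₀ →
      ∀ U : Set V, (∀ u ∈ U, u ∈ F.Λ ∧ u ∉ box F.c L₀) →
      X.pr (fun w => F.FG w ∧ F.EvE U X.M₁ ρ w) ≤ ε := by
  obtain ⟨R'', C, C0, hE⟩ := lemE X (M₀ := M₀) r hρ (half_pos hε)
  obtain ⟨L', hL⟩ := lemC X (show 0 < ε / 2 / ((C + 1) * (2 * R'' + 1) ^ 2) by positivity)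
  refine ⟨R'' + L', fun F h h1 h2 hm U hU => ?_⟩
  refine (hE F h h1 h2 (hm.mono (by omega)) U fun u hu =>
    ⟨(hU u hu).1, fun hh => (hU u hu).2 (by rw [mem_box] at *; omega)⟩).trans ?_
  have s1 : X.pr (F.Spl U R'') ≤ (2 * R'' + 1) ^ 2 * (ε / 2 / ((C + 1) * (2 * R'' + 1) ^ 2)) := by
    refine (pr_mono_ae (q := fun w => ∃ z ∈ box F.c R'', SS L' (shift z w)) ?_).trans
      ((pr_ex_le _ _ fun z _ => (pr_shift z (SS L')).trans hL).trans (by rw [card_box]; push_cast; rfl))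
    filter_upwards [ae_pos] with w hw
    rintro ⟨z, hz, u, hu, v₁, a1, v₂, a2, sp⟩
    refine ⟨z, hz, ?_⟩
    have m := met (F := F) hw
    have hu2 := (hU u hu).2
    unfold Mar at hm
    rw [mem_box] at hz hu2
    simp only [mem_ring, Prod.fst_zero, Prod.snd_zero] at a1 a2
    obtain ⟨u', b0, c0, d0⟩ := m.exit (n := L') sp.1.m (self_mem_box z _) sp.1.l (by unfold Ins; omega)
    obtain ⟨y₁, b1, c1, d1⟩ := m.exit (n := L') sp.1.m (self_mem_box z _) sp.1.r (by unfold Ins; omega)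
    obtain ⟨y₂, b2, c2, d2⟩ := m.exit (n := L') sp.1.m (self_mem_box z _) sp.2.1.r (by unfold Ins; omega)
    have sp' := split_sub (met_box hw z L') m (fun t ht => by
      rw [mem_coe, mem_box] at ht; rw [mem_Λ]; omega) sp (self_mem_box _ _) (ring_sub_box b0)
      (ring_sub_box b1) (ring_sub_box b2) c0.symm (by rwa [T_symm _ _ u', T_symm _ _ u']) c1 d1 c2 d2
    have := split_shift z sp'
    rw [sub_self] at this
    exact ⟨u' - z, by rw [← sub_self z]; exact mem_ring_sub.2 b0, y₁ - z,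
      by rw [← sub_self z]; exact mem_ring_sub.2 b1, y₂ - z,
      by rw [← sub_self z]; exact mem_ring_sub.2 b2, this⟩
  have s2 : C * ((2 * R'' + 1) ^ 2 * (ε / 2 / ((C + 1) * (2 * R'' + 1) ^ 2))) ≤ ε / 2 := by
    have : C * ((2 * R'' + 1) ^ 2 * (ε / 2 / ((C + 1) * (2 * R'' + 1) ^ 2))) = C / (C + 1) * (ε / 2) := by
      field_simp
    rw [this]
    exact mul_le_of_le_one_left (by positivity) ((div_le_one (by positivity)).2 (by linarith))
  linarith [mul_le_mul_of_nonneg_left s1 C0]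

lemma nb_side {F : Fr} (h : F.Ok) {w : W} (hw : Pos w) {r L₀ : ℕ} {K K' : ℝ} {u p v₁ v₂ : V}
    (hm : Mar F.L F.c r) (h1 : F.r ≤ r) (h2 : L₀ < r) (hu : u ∈ ring 0 F.L) (a1 : v₁ ∈ ring 0 F.L)
    (a2 : v₂ ∈ ring 0 F.L) (hp : p ∈ box F.c F.r) (b : Btw F.Λ w u p v₁)
    (o : Osc F.Λ w (box F.c r) v₁ v₂ K') (hn : ¬ Osc F.Λ w (box F.c F.r) v₁ v₂ K) :
    F.EvE {u | u ∈ F.Λ ∧ u ∉ box F.c L₀} K K' w := by
  have m := met (F := F) hw
  have pr : p ∈ box F.c r := by rw [mem_box] at *; omega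
  obtain ⟨u', b0, c0, -⟩ := m.exit b.m pr b.l (by
    unfold Mar at hm; simp only [mem_ring, Prod.fst_zero, Prod.snd_zero] at hu; unfold Ins; omega)
  have b' := m.t2 c0.symm b
  refine ⟨u', ⟨c0.m, by rw [mem_ring] at b0; rw [mem_box]; omega⟩, v₁, a1, v₂, a2, p,
    by rw [mem_box] at *; omega, b', ?_, h.not_close hw a1 a2 hn⟩
  linarith [o u' (ring_sub_box b0) p pr, b'.eq]

lemma nb2 (X : Law) {M₀ ε K : ℝ} (hε : 0 < ε) (hM : 0 < M₀) (hK : 0 ≤ K)
    (hFG : ∀ F : Fr, F.M₀ = M₀ → 1 ≤ F.r → X.pr (fun w => ¬ F.FG w) ≤ ε) (r' : ℕ) :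
    ∃ N : ℕ, ∀ L y r, 1 ≤ r' → r' + N ≤ r → Mar L y r →
      X.pr (NB X L (ring 0 L) K y r' r) ≤ 2 * ε := by
  obtain ⟨L₀, hE⟩ := lemE2 X M₀ r' hK hε
  refine ⟨L₀ + 4 * r' + 4, fun L y r h1 h2 hm => ?_⟩
  let F : Fr := ⟨L, y, r', M₀⟩
  have ok : F.Ok := ⟨h1, hM, hm.mono (by dsimp only [F]; omega)⟩
  refine (pr_mono_ae (q := fun w => ¬ F.FG w ∨
    (F.FG w ∧ F.EvE {u | u ∈ F.Λ ∧ u ∉ box F.c L₀} X.M₁ K w)) ?_).trans
    ((pr_or.trans (add_le_add (hFG F rfl h1) (hE F ok rfl rfl (hm.mono (by omega)) _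
      fun u hu => hu))).trans (le_of_eq (by ring)))
  filter_upwards [ae_pos] with w hw
  rintro ⟨u₁, e1, u₂, e2, v₁, a1, v₂, a2, p₁, b1, p₂, -, c1, -, o1, o2, hn⟩
  by_cases hf : F.FG w
  · refine .inr ⟨hf, ?_⟩
    rcases not_and_or.1 hn with k | k
    · exact nb_side ok hw hm (by dsimp only [F]; omega) (by omega) a1 e1 e2 b1 c1.symm o1 k
    · exact nb_side ok hw hm (by dsimp only [F]; omega) (by omega) e1 a1 a2 b1 c1 o2 k
  · exact .inl hf

lemma many2 (X : Law) {M₀ : ℝ} (hM : 0 < M₀) (r : ℕ) : ∃ N : ℕ, ∀ L g K r₀, 1 ≤ r → r₀ ≤ r →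
    X.M₁ ≤ K → Mar L g N → Fr.Gd ⟨L, g, r, M₀⟩ X M₀ r₀ (ring 0 L) K := by
  rcases Nat.eq_zero_or_pos r with rfl | r1
  · exact ⟨0, fun _ _ _ _ h => absurd h (by omega)⟩
  have η0 : (0 : ℝ) < 1 / (r : ℝ) ^ 3 / 2 := by positivity
  obtain ⟨Δ, Δ0, hd⟩ := ex_dm (X := X) (2 * r) η0
  obtain ⟨L₀, hE⟩ := lemE2 X M₀ r (show 0 ≤ 2 * Δ by positivity) η0
  refine ⟨L₀ + 4 * r + 4, fun L g K r₀ h1 h0 hK hm => ?_⟩
  let F : Fr := ⟨L, g, r, M₀⟩
  have ok : F.Ok := ⟨h1, hM, hm.mono (by dsimp only [F]; omega)⟩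
  refine ⟨ok, rfl, h0, fun u hu => ok.far_ring hu, hK, ?_⟩
  refine (pr_mono_ae (q := fun w => ¬ Dm L g (2 * r) Δ w ∨
    (F.FG w ∧ F.EvE (ring 0 L) X.M₁ (2 * Δ) w)) ?_).trans
    ((pr_or.trans (add_le_add (hd _ _ (hm.mono (by omega))) (hE F ok rfl rfl (hm.mono (by omega)) _
      fun u hu => ⟨ring_sub_box hu, ?_⟩))).trans (le_of_eq (by ring)))
  · filter_upwards [ae_pos] with w hw
    rintro ⟨hf, hmany⟩
    by_cases hD : Dm L g (2 * r) Δ w
    · have : F.ActBad K w := by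
        by_contra hc
        exact (not_lt.2 (ok.acts_main hw hc)) hmany
      obtain ⟨u, hu, v₁, a1, v₂, a2, x₁, b1, x₂, b2, c1, c2, hn⟩ := this
      exact .inr ⟨hf, eve_of_two (F := F) hw hu a1 a2 b1 b2 c1 c2
        (fun hh => hn (hh.mono subset_rfl hK)) hD⟩
    · exact .inl hD
  · unfold Mar at hm
    simp only [mem_coe, mem_ring, mem_box, Prod.fst_zero, Prod.snd_zero, F] at hu ⊢
    omega

def EvAll (w : W) : Prop := ∀ L, ∃ a ∈ ring 0 L, ∃ b ∈ ring 0 L, Btw (box 0 L) w a 0 b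

lemma evall_pp {L R : ℕ} {w : W} {y : V} (hw : Pos w) (hy : y ∈ box 0 R) (hR : R ≤ L) (h : EvAll w) :
    PP L (ring 0 L) y (shift (-y) w) := by
  obtain ⟨a, ha, b, hb, bt⟩ := h (L + R)
  have bt' := (btw_shift (-y)).2 bt
  have ha' := (mem_ring_sub (x := -y)).2 ha
  have hb' := (mem_ring_sub (x := -y)).2 hb
  rw [zero_sub, neg_neg] at bt' ha' hb'
  have hw' : Pos (shift (-y) w) := fun e => hw _
  have m := met_box hw' y (L + R)
  simp only [mem_box, Prod.fst_zero, Prod.snd_zero] at hy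
  have yL : y ∈ box 0 L := by simp only [mem_box, Prod.fst_zero, Prod.snd_zero]; omega
  obtain ⟨a', b0, c0, d0⟩ := m.exit bt'.m yL bt'.l (by
    rw [mem_ring] at ha'; simp only [Ins, Prod.fst_zero, Prod.snd_zero]; omega)
  obtain ⟨b', b1, c1, d1⟩ := m.exit bt'.m yL bt'.r (by
    rw [mem_ring] at hb'; simp only [Ins, Prod.fst_zero, Prod.snd_zero]; omega)
  exact ⟨a', b0, b', b1, (met_box hw' 0 L).btw_sub (fun t ht => by
      simp only [mem_coe, mem_box, Prod.fst_zero, Prod.snd_zero] at *; omega) (ring_sub_box b0) yL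
    (ring_sub_box b1) (m.t4 (m.t2 c0.symm bt') c1) (by rwa [T_symm _ _ a', T_symm _ _ a']) d1⟩

theorem pr_evall (X : Law) : X.pr EvAll = 0 := by
  refine le_antisymm (le_of_forall_pos_le_add fun δ hδ => ?_) pr_nonneg
  rw [zero_add]
  have hε : 0 < δ / 218 := by positivity
  set ε := δ / 218 with hεd
  obtain ⟨M₀, hM, hFG⟩ := ex_fg (X := X) hε
  obtain ⟨K', K0, J, J1, r₀, r1, hen⟩ := engine X hε hM hFG
  choose N hN using nb2 X hε hM K0 hFG
  choose Lm hLm using many2 X hM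
  let r : ℕ → ℕ := fun j => Nat.rec r₀ (fun _ a => a + N a) j
  have mono : Monotone r := monotone_nat_of_le_succ fun j => Nat.le_add_right _ _
  obtain ⟨R, hR⟩ : ∃ R, R = r J := ⟨_, rfl⟩
  have R0 : r₀ ≤ R := hR ▸ mono (Nat.zero_le J)
  obtain ⟨S, hS⟩ : ∃ S, ∀ ρ ≤ R, Lm ρ ≤ S :=
    ⟨(range (R + 1)).sup Lm, fun ρ h => le_sup (f := Lm) (mem_range.2 (by omega))⟩
  have Rp : (1 : ℝ) ≤ R := by exact_mod_cast r1.trans R0
  have s1 := hen (2 * R + S + 1) (ring 0 (2 * R + S + 1)) 0 R r mono le_rfl hR.ge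
    (fun g hg ρ h1 h2 K hK => hLm ρ _ g K r₀ (r1.trans h1) h1 hK (by
      have := hS ρ h2
      simp only [mem_box, Prod.fst_zero, Prod.snd_zero] at hg; unfold Mar; omega))
    (9 * R ^ 2 * (2 * ε)) fun j hj => sum_box_le (r1.trans R0) (by positivity) fun y hy =>
      hN (r j) _ y _ (r1.trans (mono (Nat.zero_le j))) le_rfl (by
        have := mono (show j + 1 ≤ J from hj)
        simp only [mem_box, Prod.fst_zero, Prod.snd_zero] at hy; unfold Mar; omega)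
  have s2 := card_nsmul_le_sum (box 0 R) (fun y => X.pr (PP (2 * R + S + 1) (ring 0 (2 * R + S + 1)) y))
    (X.pr EvAll) fun y hy => (pr_mono_ae (by
      filter_upwards [ae_pos] with w hw h using evall_pp hw hy (by omega) h)).trans (pr_shift (-y) _)
  rw [card_box, nsmul_eq_mul] at s2
  push_cast at s2
  have : δ = 218 * ε := by rw [hεd]; ring
  rw [this]
  refine le_of_mul_le_mul_left (a := (R : ℝ) ^ 2) ?_ (by positivity)
  nlinarith [mul_le_mul_of_nonneg_right (show (R : ℝ) ^ 2 ≤ (2 * R + 1) ^ 2 by nlinarith)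
    (pr_nonneg (X := X) (p := EvAll))]

lemma seq_walk (w : W) {v : ℤ → V} (h : ∀ i, G.Adj (v i) (v (i + 1))) {i j : ℤ} (hij : i ≤ j) :
    ∃ p : G.Walk (v i) (v j), cost w p = ∑ k ∈ Ico i j, w s(v k, v (k + 1)) := by
  induction j, hij using Int.leInduction with
  | base => exact ⟨.nil, by simp⟩
  | succ j hij ih =>
    obtain ⟨p, hp⟩ := ih
    refine ⟨p.append (h j).toWalk, ?_⟩
    have : Ico i (j + 1) = insert j (Ico i j) := by ext k; simp only [mem_Ico, mem_insert]; omega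
    rw [this, sum_insert (by simp), cost_append, hp, add_comm]
    simp [cost]

lemma big_evall {w : W} (hw : Pos w) {v : ℤ → V} (h : IsBigeodesic w v) : EvAll (shift (v 0) w) := by
  intro L
  have far : ∀ f : ℕ → ℤ, Function.Injective f → ∃ n, ¬ Ins (v 0) L (v (f n)) := fun f hf => by
    by_contra hc
    push Not at hc
    exact Set.infinite_of_injective_forall_mem (h.1.comp hf) (s := (box (v 0) L : Set V))
      (fun n => by have := hc n; unfold Ins at this; simp only [Function.comp, mem_coe, mem_box]; omega)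
      (finite_toSet _)
  obtain ⟨n, hn⟩ := far (fun n => (n : ℤ) + 1) fun a b e => by simpa using e
  obtain ⟨k, hk⟩ := far (fun n => -(n : ℤ) - 1) fun a b e => by simpa using e
  obtain ⟨p, hp⟩ := seq_walk w h.2.1 (show 0 ≤ (n : ℤ) + 1 by omega)
  obtain ⟨q, hq⟩ := seq_walk w h.2.1 (show -(k : ℤ) - 1 ≤ 0 by omega)
  obtain ⟨b, hb, p₁, p₂, rfl, ip⟩ := exit_walk p (self_mem_box _ L) hn
  obtain ⟨a, ha, q₁, q₂, e, iq⟩ := exit_walk q.reverse (self_mem_box _ L) hk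
  have m := met_box hw (v 0) L
  obtain ⟨γ, -, g⟩ := m.geo (ring_sub_box ha) (ring_sub_box hb)
  have e1 := h.2.2 (-(k : ℤ) - 1) (n + 1) (by omega)
  have e2 : Ico (-(k : ℤ) - 1) (n + 1) = Ico (-(k : ℤ) - 1) 0 ∪ Ico 0 (n + 1 : ℤ) := by
    ext t; simp only [mem_Ico, mem_union]; omega
  rw [e2, sum_union (disjoint_left.2 fun t t1 t2 => by simp only [mem_Ico] at t1 t2; omega),
    ← hp, ← hq, ← cost_reverse q, e, cost_append, cost_append] at e1
  have e3 : passageTime w (v (-(k : ℤ) - 1)) (v (n + 1)) ≤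
      cost w (q₂.reverse.append (γ.append p₂)) :=
    csInf_le ⟨0, by rintro _ ⟨t, rfl⟩; exact cost_nonneg hw t⟩ ⟨_, rfl⟩
  rw [cost_append, cost_append, cost_reverse, g.eq] at e3
  have bt := m.btw (ring_sub_box ha) (self_mem_box _ _) (ring_sub_box hb) (by
    linarith [T_le hw ip, T_le hw iq, T_symm (box (v 0) L) w a (v 0)])
  have := (btw_shift (v 0)).2 bt
  rw [sub_self] at this
  exact ⟨_, by rw [← sub_self (v 0)]; exact mem_ring_sub.2 ha, _,
    by rw [← sub_self (v 0)]; exact mem_ring_sub.2 hb, this⟩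

theorem no_big (X : Law) : ∀ᵐ w ∂X.P, ¬ ∃ v, IsBigeodesic w v := by
  have : ∀ y, ∀ᵐ w ∂X.P, ¬ EvAll (shift y w) := fun y => by
    have h := le_antisymm ((pr_shift (X := X) y EvAll).trans (pr_evall X).le) pr_nonneg
    rw [pr, measureReal_eq_zero_iff] at h
    exact measure_eq_zero_iff_ae_notMem.1 h
  filter_upwards [ae_all_iff.2 this, ae_pos] with w h hw
  rintro ⟨v, hv⟩
  exact h _ (big_evall hw hv)

lemma big_congr {w w' : W} (h : ∀ e ∈ G.edgeSet, w e = w' e) {v : ℤ → V} (hv : IsBigeodesic w v) :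
    IsBigeodesic w' v := by
  refine ⟨hv.1, hv.2.1, fun i j hij => ?_⟩
  have e : ∀ a b, passageTime w a b = passageTime w' a b := fun a b => by
    unfold passageTime
    congr 2
    funext p
    exact cost_congr p fun e he => h e (p.edges_subset_edgeSet he)
  rw [← e, ← hv.2.2 i j hij]
  exact sum_congr rfl fun k _ => (h _ (hv.2.1 k)).symm

theorem main {Ω : Type*} [MeasurableSpace Ω] (P : Measure Ω) [IsProbabilityMeasure P]
    (μ : Measure ℝ) [IsProbabilityMeasure μ] (hna : ∀ x, μ {x} = 0) (h0 : μ (Set.Iio 0) = 0)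
    (t : Sym2 V → Ω → ℝ) (hm : ∀ e ∈ G.edgeSet, AEMeasurable (t e) P)
    (hi : iIndepFun (fun e : G.edgeSet => t e) P) (hl : ∀ e ∈ G.edgeSet, P.map (t e) = μ) :
    ∀ᵐ ω ∂P, ¬ ∃ v, IsBigeodesic (fun e => t e ω) v := by
  classical
  have : NullSingletonClass μ := ⟨hna⟩
  obtain ⟨X, rfl⟩ := exists_law μ h0
  let glue : (G.edgeSet → ℝ) × W → W := fun p e => if h : e ∈ G.edgeSet then p.1 ⟨e, h⟩ else p.2 e
  have mg : Measurable glue := measurable_pi_lambda _ fun e => by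
    simp only [glue]; split_ifs <;> fun_prop
  let P₁ : Measure (G.edgeSet → ℝ) := Measure.infinitePi fun _ => X.μ
  have e1 : X.P.map G.edgeSet.domRestrict = P₁ := Measure.infinitePi_map_restrict' _
  have mr : Measurable (G.edgeSet.domRestrict : W → G.edgeSet → ℝ) :=
    measurable_pi_lambda _ fun e => measurable_pi_apply _
  have e2 : (P₁.prod X.P).map glue = X.P := by
    have a1 : P₁.prod X.P = (X.P.prod X.P).map (Prod.map G.edgeSet.domRestrict id) := by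
      rw [← Measure.map_prod_map _ _ mr measurable_id, e1, Measure.map_id]
    rw [a1, Measure.map_map mg (mr.prodMap measurable_id), ← Measure.prod_swap,
      Measure.map_map (mg.comp (mr.prodMap measurable_id)) measurable_swap]
    convert resample (X := X) G.edgeSet using 2
    funext p e
    simp only [glue, Function.comp, Prod.map, Prod.swap, id]
    split_ifs <;> rfl
  have h1 := no_big X
  rw [← e2] at h1
  have h2 := Measure.ae_ae_of_ae_prod (ae_of_ae_map mg.aemeasurable h1)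
  have e3 : P.map (fun ω (e : G.edgeSet) => t e ω) = P₁ := by
    rw [(iIndepFun_iff_map_fun_eq_infinitePi_map₀' fun e : G.edgeSet => hm e e.2).1 hi]
    congr 1
    funext e
    exact hl e e.2
  rw [← e3] at h2
  filter_upwards [ae_of_ae_map (aemeasurable_pi_iff.2 fun e : G.edgeSet => hm e e.2) h2] with ω hω
  obtain ⟨s, hs⟩ := hω.exists
  rintro ⟨v, hv⟩
  exact hs ⟨v, big_congr (fun e he => by simp only [glue, he, dif_pos]) hv⟩

end Vale.Agent.P158
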