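import Vale.Agent.P158.Low

namespace Vale.Agent.P158
open SimpleGraph Finset

def H2 : SimpleGraph V where
  Adj x y := x ≠ y ∧ y ∈ box x 2
  symm := ⟨fun x y h => ⟨h.1.symm, by have := h.2; rw [mem_box] at this ⊢; omega⟩⟩
  loopless := ⟨fun _ h => h.1 rfl⟩

instance {a b : V} : Countable (H2.Walk a b) :=
  (Walk.support_injective (G := H2) (u := a) (v := b)).countable

lemma supp_box2 {a b : V} (p : H2.Walk a b) : b ∈ box a (2 * p.length) := by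
  induction p with
  | nil => exact self_mem_box _ _
  | @cons u v w h p ih =>
    have := h.2
    simp only [mem_box, Walk.length_cons] at this ih ⊢
    omega

def Mar (L : ℕ) (c : V) (n : ℕ) : Prop :=
  -(L : ℤ) < c.1 - n ∧ c.1 + n < L ∧ -(L : ℤ) < c.2 - n ∧ c.2 + n < L

structure Fr where
  L : ℕ
  c : V
  r : ℕ
  M₀ : ℝ

def Osc (D : Set V) (w : W) (S : Set V) (v v' : V) (K : ℝ) : Prop :=
  ∀ a ∈ S, ∀ b ∈ S, T D w a v - T D w a v' ≤ T D w b v - T D w b v' + K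

section
variable {D S S' : Set V} {w : W} {v v' v'' : V} {K K' : ℝ}
lemma Osc.symm (h : Osc D w S v v' K) : Osc D w S v' v K :=
  fun a ha b hb => by linarith [h b hb a ha]
lemma Osc.trans (h : Osc D w S v v' K) (h' : Osc D w S v' v'' K') : Osc D w S v v'' (K + K') :=
  fun a ha b hb => by linarith [h a ha b hb, h' a ha b hb]
lemma Osc.mono (h : Osc D w S v v' K) (hS : S' ⊆ S) (hK : K ≤ K') : Osc D w S' v v' K' :=
  fun a ha b hb => by linarith [h a (hS ha) b (hS hb)]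
lemma Osc.refl (hK : 0 ≤ K) : Osc D w S v v K := fun a _ b _ => by linarith
end

namespace Fr
variable (F : Fr)

structure Ok : Prop where
  r1 : 1 ≤ F.r
  M0 : 0 < F.M₀
  mar : Mar F.L F.c (4 * F.r + 4)

def Λ : Set V := box 0 F.L

def bad (w : W) (x : V) : Prop :=
  x ∉ box F.c (2 * F.r) ∧ (F.M₀ < w s(x, (x.1 + 1, x.2)) ∨ F.M₀ < w s(x, (x.1, x.2 + 1)))

def Ch (w : W) (x : V) : Prop :=
  ∃ x₀ ∈ ring F.c (2 * F.r + 1), ∃ p : H2.Walk x₀ x, p.length ≤ F.r ∧ In {y | F.bad w y} p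

open Classical in
noncomputable def K (w : W) : Finset V := (box F.c (4 * F.r + 1)).filter (F.Ch w)

def FG (w : W) : Prop := (F.K w).card ≤ F.r

def D (w : W) : Set V := {x | x ∈ box F.c (2 * F.r) ∨ ∃ k ∈ F.K w, x ∈ box k 1}

def O (w : W) : Set V := {x | ∃ p : G.Walk (bd F.L 0) x, In {y | y ∈ F.Λ ∧ y ∉ F.D w} p}

open Classical in
noncomputable def Z (w : W) : Finset V :=
  (box F.c (4 * F.r + 3)).filter fun z => z ∈ F.O w ∧ ∃ d ∈ F.D w, d ∈ box z 1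

def DZ (w : W) : Set V := F.D w ∪ F.Z w

def Close (K : ℝ) (w : W) (v v' : V) : Prop := Osc (F.O w) w (F.Z w) v v' K

variable {F} {w w' : W} {x y z z' u v v' : V}

lemma mem_Λ : x ∈ F.Λ ↔ -(F.L : ℤ) ≤ x.1 ∧ x.1 ≤ F.L ∧ -(F.L : ℤ) ≤ x.2 ∧ x.2 ≤ F.L := by
  simp [Λ, mem_box]

lemma met (hw : Pos w) : Met F.Λ w := met_box hw _ _

lemma Ok.L1 (h : F.Ok) : 1 ≤ F.L := by have := h.mar; unfold Mar at this; omega

lemma Ok.box_sub (h : F.Ok) {n : ℕ} (hn : n ≤ 4 * F.r + 4) (hx : x ∈ box F.c n) : x ∈ F.Λ := by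
  have := h.mar
  rw [mem_Λ]; rw [mem_box] at hx; unfold Mar at this; omega

lemma mem_K : x ∈ F.K w ↔ F.Ch w x := by
  simp only [K, mem_filter, and_iff_right_iff_imp]
  rintro ⟨x₀, h0, p, hl, -⟩
  have := supp_box2 p
  rw [mem_ring] at h0
  rw [mem_box] at this ⊢
  omega

lemma K_box (h : x ∈ F.K w) : x ∈ box F.c (4 * F.r + 1) := by
  classical exact (mem_filter.1 h).1

lemma K_supp {x₀ : V} (h0 : x₀ ∈ ring F.c (2 * F.r + 1)) (p : H2.Walk x₀ x) (hl : p.length ≤ F.r)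
    (hp : In {y | F.bad w y} p) : In (F.K w : Set V) p := fun y hy =>
  mem_K.2 ⟨x₀, h0, p.takeUntil y hy, (p.length_takeUntil_le_length hy).trans hl,
    fun t ht => hp t (p.support_takeUntil_subset_support hy ht)⟩

lemma K_closed (hf : F.FG w) (hx : x ∈ F.K w) (hy : F.bad w y) (hxy : y ∈ box x 2) :
    y ∈ F.K w := by
  by_cases e : x = y
  · exact e ▸ hx
  obtain ⟨x₀, h0, p, hl, hp⟩ := mem_K.1 hx
  have h1 := path_len_lt p.bypass_isPath
    (K_supp h0 p.bypass (p.length_bypass_le_length.trans hl) hp.bypass)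
  have ha : H2.Adj x y := ⟨e, hxy⟩
  refine mem_K.2 ⟨x₀, h0, p.bypass.concat ha, ?_, ?_⟩
  · rw [Walk.length_concat]; exact h1.trans hf
  · intro t ht
    simp only [Walk.support_concat, List.mem_append, List.mem_singleton] at ht
    rcases ht with ht | rfl
    · exact hp.bypass t ht
    · exact hy

lemma D_box (h : x ∈ F.D w) : x ∈ box F.c (4 * F.r + 2) := by
  rcases h with h | ⟨k, hk, h⟩
  · rw [mem_box] at h ⊢; omega
  · have := K_box hk
    rw [mem_box] at h this ⊢; omega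

lemma O_Λ (h : x ∈ F.O w) : x ∈ F.Λ := h.choose_spec.stop.1
lemma O_D (h : x ∈ F.O w) : x ∉ F.D w := h.choose_spec.stop.2

lemma O_walk (h : x ∈ F.O w) (p : G.Walk x y) (hp : In {y | y ∈ F.Λ ∧ y ∉ F.D w} p) :
    y ∈ F.O w := ⟨h.choose.append p, in_append.2 ⟨h.choose_spec, hp⟩⟩

lemma O_step (h : x ∈ F.O w) (hy : y ∈ F.Λ) (hxy : G.Adj x y) (hD : y ∉ F.D w) : y ∈ F.O w :=
  O_walk h hxy.toWalk (by
    intro t ht
    simp only [Adj.support_toWalk, List.mem_cons, List.not_mem_nil, or_false] at ht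
    rcases ht with rfl | rfl
    · exact ⟨O_Λ h, O_D h⟩
    · exact ⟨hy, hD⟩)

lemma O_rect (h : x ∈ F.O w) (hy : ∀ t : V, min x.1 y.1 ≤ t.1 ∧ t.1 ≤ max x.1 y.1 ∧
    min x.2 y.2 ≤ t.2 ∧ t.2 ≤ max x.2 y.2 → t ∈ F.Λ ∧ t ∉ box F.c (4 * F.r + 2)) : y ∈ F.O w := by
  obtain ⟨p, -, hp⟩ := rect_walk x y
  exact O_walk h p fun t ht => ⟨(hy t (hp t ht)).1, fun hd => (hy t (hp t ht)).2 (D_box hd)⟩

lemma Ok.O_of_far (h : F.Ok) (hx : x ∈ F.Λ) (hf : x ∉ box F.c (4 * F.r + 2)) : x ∈ F.O w := by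
  have hm := h.mar
  unfold Mar at hm
  have b0 : bd F.L 0 = (-(F.L : ℤ), -(F.L : ℤ)) := by simp [bd]
  have h0 : ((-(F.L : ℤ), -(F.L : ℤ)) : V) ∈ F.O w := by
    rw [← b0]
    refine ⟨.nil, in_nil ⟨?_, fun hd => ?_⟩⟩
    · rw [b0, mem_Λ]; dsimp only; omega
    · have := D_box hd
      rw [b0, mem_box] at this; dsimp only at this; omega
  have h1 : (((F.L : ℤ), -(F.L : ℤ)) : V) ∈ F.O w :=
    O_rect h0 fun t ht => by rw [mem_Λ, mem_box]; dsimp only at ht; omega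
  have h2 : ((-(F.L : ℤ), (F.L : ℤ)) : V) ∈ F.O w :=
    O_rect h0 fun t ht => by rw [mem_Λ, mem_box]; dsimp only at ht; omega
  rw [mem_Λ] at hx
  rw [mem_box] at hf
  by_cases c1 : F.c.1 + (4 * F.r + 2 : ℕ) < x.1
  · exact O_rect (y := x) (O_rect (y := (x.1, -(F.L : ℤ))) h1
      fun t ht => by rw [mem_Λ, mem_box]; dsimp only at ht; omega)
      fun t ht => by rw [mem_Λ, mem_box]; dsimp only at ht; omega
  by_cases c2 : F.c.2 + (4 * F.r + 2 : ℕ) < x.2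
  · exact O_rect h2 fun t ht => by rw [mem_Λ, mem_box]; dsimp only at ht; omega
  exact O_rect h0 fun t ht => by rw [mem_Λ, mem_box]; dsimp only at ht; omega

lemma Ok.ring_far (h : F.Ok) (hx : x ∈ ring 0 F.L) : x ∉ box F.c (4 * F.r + 4) := by
  have hm := h.mar
  unfold Mar at hm
  simp only [mem_ring, mem_box, Prod.fst_zero, Prod.snd_zero] at hx ⊢
  omega

lemma Ok.ring_O (h : F.Ok) (hx : x ∈ ring 0 F.L) : x ∈ F.O w :=
  h.O_of_far (ring_sub_box hx) fun hb => h.ring_far hx (by rw [mem_box] at hb ⊢; omega)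

lemma metO (hw : Pos w) : Met (F.O w) w := by
  refine ⟨(finite_toSet _).subset fun x hx => O_Λ hx, ?_, hw⟩
  have : ∀ x ∈ F.O w, ∃ p : G.Walk (bd F.L 0) x, In (F.O w) p := by
    rintro x ⟨p, hp⟩
    exact ⟨p, fun y hy => ⟨p.takeUntil y hy,
      fun t ht => hp t (p.support_takeUntil_subset_support hy ht)⟩⟩
  intro a ha b hb
  obtain ⟨p, hp⟩ := this a ha
  obtain ⟨q, hq⟩ := this b hb
  exact ⟨p.reverse.append q, in_append.2 ⟨in_reverse.2 hp, hq⟩⟩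

lemma mem_Z : z ∈ F.Z w ↔ z ∈ F.O w ∧ ∃ d ∈ F.D w, d ∈ box z 1 := by
  simp only [Z, mem_filter, and_iff_right_iff_imp]
  rintro ⟨-, d, hd, h⟩
  have := D_box hd
  rw [mem_box] at h this ⊢
  omega

lemma Z_box (h : z ∈ F.Z w) : z ∈ box F.c (4 * F.r + 3) := by
  classical exact (mem_filter.1 h).1

lemma Z_O (h : z ∈ F.Z w) : z ∈ F.O w := (mem_Z.1 h).1

lemma DZ_box (h : z ∈ F.DZ w) : z ∈ box F.c (4 * F.r + 3) := by
  rcases h with h | h
  · have := D_box h; rw [mem_box] at this ⊢; omega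
  · exact Z_box h

lemma box_DZ (h : z ∈ box F.c (2 * F.r)) : z ∈ F.DZ w := .inl (.inl h)

lemma D_const {α : Type*} (φ : V → α) (h : ∀ x ∈ F.D w, ∀ y ∈ F.D w, G.Adj x y → φ x = φ y) :
    ∀ x ∈ F.D w, φ x = φ F.c := by
  have hb : ∀ (k : V) (n : ℕ), (∀ x ∈ box k n, x ∈ F.D w) → ∀ x ∈ box k n, φ x = φ k := by
    intro k n hk x hx
    obtain ⟨p, -, hp⟩ := box_walk hx (self_mem_box k n)
    exact const_walk φ p fun d hd => h _ (hk _ (hp _ (p.dart_fst_mem_support_of_mem_darts hd))) _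
      (hk _ (hp _ (p.dart_snd_mem_support_of_mem_darts hd))) d.adj
  have h0 := hb F.c (2 * F.r) fun x hx => .inl hx
  have h1 : ∀ k ∈ F.K w, ∀ x ∈ box k 1, φ x = φ k := fun k hk =>
    hb k 1 fun x hx => .inr ⟨k, hk, hx⟩
  have mid : ∀ (a b : V) (m n : ℕ), b ∈ box a (m + n) → ∃ t, t ∈ box a m ∧ t ∈ box b n := by
    intro a b m n hab
    refine ⟨(max (a.1 - m) (b.1 - n), max (a.2 - m) (b.2 - n)), ?_⟩
    simp only [mem_box] at hab ⊢
    omega
  have h2 : ∀ k ∈ F.K w, φ k = φ F.c := by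
    intro k hk
    obtain ⟨x₀, hx0, p, hl, hp⟩ := mem_K.1 hk
    have hK := K_supp hx0 p hl hp
    obtain ⟨t, t1, t2⟩ := mid F.c x₀ (2 * F.r) 1 (ring_sub_box hx0)
    rw [← h0 t t1, h1 _ hK.start t t2]
    refine (const_walk φ p fun d hd => ?_).symm
    obtain ⟨t, t1, t2⟩ := mid d.fst d.snd 1 1 d.adj.2
    rw [← h1 _ (hK _ (p.dart_fst_mem_support_of_mem_darts hd)) t t1,
      ← h1 _ (hK _ (p.dart_snd_mem_support_of_mem_darts hd)) t t2]
  rintro x (hx | ⟨k, hk, hx⟩)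
  · exact h0 x hx
  · rw [h1 k hk x hx, h2 k hk]

lemma Ok.Z_conn (h : F.Ok) (hz : z ∈ F.Z w) (hz' : z' ∈ F.Z w) :
    ∃ p : G.Walk z z', In (F.Z w : Set V) p := by
  classical
  let Z₁ : Set V := {t | ∃ p : G.Walk z t, In (F.Z w : Set V) p}
  have hZ : ∀ t ∈ Z₁, t ∈ F.Z w := fun t ⟨p, hp⟩ => hp.stop
  have hcl : ∀ t ∈ Z₁, ∀ t' ∈ F.Z w, G.Adj t t' → t' ∈ Z₁ := fun t ⟨p, hp⟩ t' ht' ha =>
    ⟨p.append ha.toWalk, in_append.2 ⟨hp, by
      intro s hs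
      simp only [Adj.support_toWalk, List.mem_cons, List.not_mem_nil, or_false] at hs
      rcases hs with rfl | rfl
      · exact hp.stop
      · exact ht'⟩⟩
  -- neighbours near D
  have nb : ∀ t ∈ F.Z w, ∀ t', G.Adj t t' → ∀ d ∈ F.D w, d ∈ box t' 1 →
      t' ∈ F.D w ∨ t' ∈ F.Z w := by
    intro t ht t' ha d hd hd'
    by_cases h1 : t' ∈ F.D w
    · exact .inl h1
    · refine .inr (mem_Z.2 ⟨O_step (Z_O ht) (h.box_sub (n := 4 * F.r + 3) (by omega) ?_) ha h1,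
        d, hd, hd'⟩)
      have := D_box hd
      rw [mem_box] at this hd' ⊢; omega
  let om : V → V → ZMod 2 := fun x y =>
    (if x ∈ Z₁ ∧ y ∈ F.D w then 1 else 0) + (if y ∈ Z₁ ∧ x ∈ F.D w then 1 else 0)
  let ι : V → ZMod 2 := fun x => if x ∈ Z₁ then 1 else 0
  have hom : ∀ x y, G.Adj x y → ∀ d ∈ F.D w, d ∈ box x 1 → d ∈ box y 1 → om x y = ι x + ι y := by
    intro x y ha d hd dx dy
    have a1 : x ∈ Z₁ → y ∈ F.D w ∨ y ∈ Z₁ := fun hx =>
      (nb x (hZ x hx) y ha d hd dy).imp id fun hy => hcl x hx y hy ha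
    have a2 : y ∈ Z₁ → x ∈ F.D w ∨ x ∈ Z₁ := fun hy =>
      (nb y (hZ y hy) x ha.symm d hd dx).imp id fun hx => hcl y hy x hx ha.symm
    have a3 : x ∈ Z₁ → x ∉ F.D w := fun hx => O_D (Z_O (hZ x hx))
    have a4 : y ∈ Z₁ → y ∉ F.D w := fun hx => O_D (Z_O (hZ y hx))
    simp only [om, ι]
    by_cases c1 : x ∈ Z₁ <;> by_cases c2 : y ∈ Z₁ <;> simp_all
    decide
  obtain ⟨φ, hφ⟩ := potential om (fun x y => add_comm _ _) (by
    intro x
    by_cases hd : ∃ d ∈ F.D w, d ∈ box x 1 ∧ d ∈ box (x.1 + 1, x.2) 1 ∧ d ∈ box (x.1, x.2 + 1) 1 ∧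
        d ∈ box (x.1 + 1, x.2 + 1) 1
    · obtain ⟨d, hd, d1, d2, d3, d4⟩ := hd
      rw [hom _ _ (by rw [adj_iff]; dsimp only; omega) d hd d1 d2,
        hom _ _ (by rw [adj_iff]; dsimp only; omega) d hd d2 d4,
        hom _ _ (by rw [adj_iff]; dsimp only; omega) d hd d1 d3,
        hom _ _ (by rw [adj_iff]; dsimp only; omega) d hd d3 d4]
      have : ∀ a b c d : ZMod 2, a + b + (b + d) = a + c + (c + d) := by decide
      exact this _ _ _ _
    · have n1 : x ∉ F.D w := fun hh => hd ⟨_, hh, by simp only [mem_box]; omega⟩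
      have n2 : (x.1 + 1, x.2) ∉ F.D w := fun hh => hd ⟨_, hh, by simp only [mem_box]; omega⟩
      have n3 : (x.1, x.2 + 1) ∉ F.D w := fun hh => hd ⟨_, hh, by simp only [mem_box]; omega⟩
      have n4 : (x.1 + 1, x.2 + 1) ∉ F.D w := fun hh => hd ⟨_, hh, by simp only [mem_box]; omega⟩
      simp [om, n1, n2, n3, n4])
  have cD := D_const (F := F) (w := w) φ fun x hx y hy ha => by
    have n1 : x ∉ Z₁ := fun hh => O_D (Z_O (hZ _ hh)) hx
    have n2 : y ∉ Z₁ := fun hh => O_D (Z_O (hZ _ hh)) hy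
    rw [hφ x y ha]; simp [om, n1, n2]
  have cO : ∀ x ∈ F.O w, φ (bd F.L 0) = φ x := by
    rintro x ⟨p, hp⟩
    refine const_walk φ p fun d hd => ?_
    have n1 := (hp _ (p.dart_fst_mem_support_of_mem_darts hd)).2
    have n2 := (hp _ (p.dart_snd_mem_support_of_mem_darts hd)).2
    rw [hφ _ _ d.adj]; simp [om, n1, n2]
  have key : ∀ t ∈ F.Z w, ι t = φ F.c + φ (bd F.L 0) := by
    have k1 : ∀ t ∈ F.Z w, ∀ d ∈ F.D w, G.Adj t d → ι t = φ F.c + φ (bd F.L 0) := by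
      intro t ht d hd ha
      have n1 : d ∉ Z₁ := fun hh => O_D (Z_O (hZ _ hh)) hd
      have e := hφ t d ha
      rw [hom t d ha d hd (adj_mem_box ha) (self_mem_box _ _), cD d hd, ← cO t (Z_O ht)] at e
      simp only [ι, n1, if_false, add_zero] at e ⊢
      have : ∀ a b c : ZMod 2, a = b + c → c = a + b := by decide
      exact this _ _ _ e
    intro t ht
    obtain ⟨hO, d, hd, hdt⟩ := mem_Z.1 ht
    by_cases ha : G.Adj t d
    · exact k1 t ht d hd ha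
    have hne : t ≠ d := fun e => O_D hO (e ▸ hd)
    rw [ne_iff] at hne
    have a1 : G.Adj t (d.1, t.2) := by
      rw [adj_iff] at ha ⊢; rw [mem_box] at hdt; dsimp only; omega
    have a2 : G.Adj (d.1, t.2) d := by
      rw [adj_iff] at ha ⊢; rw [mem_box] at hdt; dsimp only; omega
    rcases nb t ht _ a1 d hd (adj_mem_box a2) with h1 | h1
    · exact k1 t ht _ h1 a1
    · rw [← k1 _ h1 d hd a2]
      simp only [ι]
      congr 1
      exact propext ⟨fun hh => hcl _ hh _ h1 a1, fun hh => hcl _ hh _ ht a1.symm⟩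
  have e := (key z' hz').trans (key z hz).symm
  have h1 : z ∈ Z₁ := ⟨.nil, in_nil hz⟩
  by_contra hc
  have h2 : z' ∉ Z₁ := hc
  simp [ι, h1, h2] at e

lemma Z_cases (hz : z ∈ F.Z w) : z ∈ ring F.c (2 * F.r + 1) ∨ ∃ k ∈ F.K w, z ∈ box k 2 := by
  obtain ⟨hO, d, hd | ⟨k, hk, hd⟩, hdz⟩ := mem_Z.1 hz
  · have : z ∉ box F.c (2 * F.r) := fun hh => O_D hO (.inl hh)
    left
    rw [mem_box] at hd hdz this; rw [mem_ring]; omega
  · exact .inr ⟨k, hk, by rw [mem_box] at hd hdz ⊢; omega⟩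

lemma Z_good (hf : F.FG w) (hz : z ∈ F.Z w) : ¬ F.bad w z := fun hb => by
  refine O_D (Z_O hz) (.inr ⟨z, ?_, self_mem_box _ _⟩)
  rcases Z_cases hz with h | ⟨k, hk, h⟩
  · exact mem_K.2 ⟨z, h, .nil, by simp, in_nil hb⟩
  · exact K_closed hf hk hb h

lemma Z_light (hf : F.FG w) (hz : z ∈ F.Z w) (hz' : z' ∈ F.Z w) (ha : G.Adj z z') :
    w s(z, z') ≤ F.M₀ := by
  have g : ∀ t ∈ F.Z w, w s(t, (t.1 + 1, t.2)) ≤ F.M₀ ∧ w s(t, (t.1, t.2 + 1)) ≤ F.M₀ := by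
    intro t ht
    have := Z_good hf ht
    simp only [bad, not_and, not_or, not_lt] at this
    exact this fun hh => O_D (Z_O ht) (.inl hh)
  obtain ⟨x1, x2⟩ := z
  obtain ⟨y1, y2⟩ := z'
  simp only [adj_iff] at ha
  rcases ha with ⟨rfl, rfl | rfl⟩ | ⟨rfl, rfl | rfl⟩
  · rw [Sym2.eq_swap]; exact (g _ hz').2
  · exact (g _ hz).2
  · rw [Sym2.eq_swap]; exact (g _ hz').1
  · exact (g _ hz).1

lemma Ok.Z_card (h : F.Ok) (hf : F.FG w) : (F.Z w).card ≤ 49 * F.r := by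
  classical
  have : F.Z w ⊆ ring F.c (2 * F.r + 1) ∪ (F.K w).biUnion fun k => box k 2 := by
    intro z hz
    simpa using Z_cases hz
  have h1 := card_le_card this
  have h2 := card_union_le (ring F.c (2 * F.r + 1)) ((F.K w).biUnion fun k => box k 2)
  have h3 := card_biUnion_le_card_mul (F.K w) (fun k => box k 2) 25 fun k _ => by
    rw [card_box]; norm_num
  rw [card_ring] at h2
  have := h.r1
  unfold FG at hf
  omega

lemma Ok.Z_diam (h : F.Ok) (hw : Pos w) (hf : F.FG w) (hz : z ∈ F.Z w) (hz' : z' ∈ F.Z w) :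
    T (F.O w) w z z' ≤ 49 * F.r * F.M₀ := by
  obtain ⟨p, hp⟩ := h.Z_conn hz hz'
  have h1 := path_len_lt p.bypass_isPath hp.bypass
  have h2 := h.Z_card hf
  refine (T_le hw (hp.bypass.mono fun t ht => Z_O ht)).trans
    ((cost_le_len (H := F.M₀) _ fun e he => ?_).trans ?_)
  · obtain ⟨d, hd, rfl⟩ := List.mem_map.1 he
    exact Z_light hf (hp.bypass _ (Walk.dart_fst_mem_support_of_mem_darts _ hd))
      (hp.bypass _ (Walk.dart_snd_mem_support_of_mem_darts _ hd)) d.adj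
  · have : (p.bypass.length : ℝ) ≤ 49 * F.r := by exact_mod_cast (by omega)
    exact mul_le_mul_of_nonneg_right this h.M0.le

lemma entry (p : G.Walk v y) (hv : v ∈ F.O w) (hp : In F.Λ p) (hy : y ∈ F.DZ w) :
    ∃ z ∈ F.Z w, ∃ (p₁ : G.Walk v z) (p₂ : G.Walk z y), p = p₁.append p₂ ∧ In (F.O w) p₁ := by
  obtain ⟨z, hz, p₁, p₂, rfl, hd⟩ := first_visit (F.DZ w) p hy
  have hin : In (F.O w) p₁ := stay _ p₁ hv fun d hd' hx =>
    O_step hx ((in_append.1 hp).1 _ (p₁.dart_snd_mem_support_of_mem_darts hd')) d.adj fun hD =>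
      hd d hd' (.inr (mem_Z.2 ⟨hx, _, hD, adj_mem_box d.adj⟩))
  exact ⟨z, hz.resolve_left (O_D hin.stop), p₁, p₂, rfl, hin⟩

lemma Ok.DZ_Λ (h : F.Ok) (hy : y ∈ F.DZ w) : y ∈ F.Λ := h.box_sub (by omega) (DZ_box hy)

lemma Ok.C1 (h : F.Ok) (hw : Pos w) (hv : v ∈ F.O w) (hy : y ∈ F.DZ w) :
    ∃ z ∈ F.Z w, T F.Λ w y v = T F.Λ w y z + T (F.O w) w z v := by
  obtain ⟨p, -, g⟩ := (met hw).geo (O_Λ hv) (h.DZ_Λ hy)
  obtain ⟨z, hz, p₁, p₂, rfl, hin⟩ := entry p hv g.inD hy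
  obtain ⟨g1, -, g3⟩ := (met hw).geo_split g
  refine ⟨z, hz, ?_⟩
  have h1 := T_le hw hin
  have h2 := (metO hw).mono (fun t ht => O_Λ ht) hv (Z_O hz)
  rw [T_symm _ _ y v, T_symm _ _ y z, T_symm _ _ z v]
  linarith [g1.eq, g3.eq]

lemma C1' (hw : Pos w) (hv : v ∈ F.O w) (hy : y ∈ F.Λ) (hz : z ∈ F.O w) :
    T F.Λ w y v ≤ T F.Λ w y z + T (F.O w) w z v := by
  linarith [(met hw).tri hy (O_Λ hz) (O_Λ hv), (metO hw).mono (fun t ht => O_Λ ht) hz hv]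

lemma Ok.C2 (h : F.Ok) (hw : Pos w) {K : ℝ} (hv : v ∈ F.O w) (hv' : v' ∈ F.O w)
    (hc : F.Close K w v v') : Osc F.Λ w (F.DZ w) v v' K := by
  intro a ha b hb
  obtain ⟨z', hz', e'⟩ := h.C1 hw hv' ha
  obtain ⟨z, hz, e⟩ := h.C1 hw hv hb
  linarith [hc z' hz' z hz, C1' hw hv (h.DZ_Λ ha) (Z_O hz'), C1' hw hv' (h.DZ_Λ hb) (Z_O hz)]

/-! invariance -/

def Same (F : Fr) (w w' : W) : Prop := ∀ a b, a ∉ box F.c (2 * F.r) → w' s(a, b) = w s(a, b)

lemma Same.K (h : F.Same w w') : F.K w' = F.K w := by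
  have : F.bad w' = F.bad w := by
    funext x
    unfold bad
    by_cases hx : x ∈ box F.c (2 * F.r)
    · simp [hx]
    · rw [h _ _ hx, h _ _ hx]
  ext x
  simp only [mem_K, Ch, this]

lemma Same.FG (h : F.Same w w') : F.FG w' ↔ F.FG w := by unfold Fr.FG; rw [h.K]
lemma Same.D (h : F.Same w w') : F.D w' = F.D w := by unfold Fr.D; rw [h.K]
lemma Same.O (h : F.Same w w') : F.O w' = F.O w := by unfold Fr.O; rw [h.D]
lemma Same.Z (h : F.Same w w') : F.Z w' = F.Z w := by ext z; rw [mem_Z, mem_Z, h.O, h.D]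
lemma Same.Close (h : F.Same w w') (K : ℝ) : F.Close K w' = F.Close K w := by
  funext v v'
  unfold Fr.Close Osc
  rw [h.O, h.Z, T_congr (D := F.O w) (w := w') (w' := w)
    fun a ha b _ => h a b fun hh => O_D ha (.inl hh)]

end Fr
end Vale.Agent.P158
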