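import Vale.Agent.P158.Defs

namespace Vale.Agent.P158
open SimpleGraph Finset

abbrev V := ℤ × ℤ

lemma adj_iff {x y : V} : G.Adj x y ↔
    (x.1 = y.1 ∧ (x.2 = y.2 + 1 ∨ y.2 = x.2 + 1)) ∨ (x.2 = y.2 ∧ (x.1 = y.1 + 1 ∨ y.1 = x.1 + 1)) := by
  show |x.1 - y.1| + |x.2 - y.2| = 1 ↔ _
  rcases abs_cases (x.1 - y.1) with h | h <;> rcases abs_cases (x.2 - y.2) with h' | h' <;> omega

noncomputable def box (c : V) (n : ℕ) : Finset V := Icc (c.1 - n) (c.1 + n) ×ˢ Icc (c.2 - n) (c.2 + n)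

lemma mem_box {c x : V} {n : ℕ} :
    x ∈ box c n ↔ c.1 - n ≤ x.1 ∧ x.1 ≤ c.1 + n ∧ c.2 - n ≤ x.2 ∧ x.2 ≤ c.2 + n := by
  simp [box, and_assoc]

lemma card_box (c : V) (n : ℕ) : (box c n).card = (2 * n + 1) ^ 2 := by
  simp only [box, card_product, Int.card_Icc]
  have h1 : (c.1 + n + 1 - (c.1 - n)).toNat = 2 * n + 1 := by omega
  have h2 : (c.2 + n + 1 - (c.2 - n)).toNat = 2 * n + 1 := by omega
  rw [h1, h2, sq]

noncomputable def ring (c : V) (n : ℕ) : Finset V :=
  (box c n).filter fun x => x.1 = c.1 - n ∨ x.1 = c.1 + n ∨ x.2 = c.2 - n ∨ x.2 = c.2 + n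

lemma mem_ring {c x : V} {n : ℕ} :
    x ∈ ring c n ↔ (c.1 - n ≤ x.1 ∧ x.1 ≤ c.1 + n ∧ c.2 - n ≤ x.2 ∧ x.2 ≤ c.2 + n) ∧
      (x.1 = c.1 - n ∨ x.1 = c.1 + n ∨ x.2 = c.2 - n ∨ x.2 = c.2 + n) := by
  simp [ring, mem_box]

lemma card_ring (c : V) (n : ℕ) : (ring c (n + 1)).card = 8 * (n + 1) := by
  have : ring c (n + 1) = box c (n + 1) \ box c n := by
    ext x; simp only [mem_ring, mem_sdiff, mem_box]; omega
  have hs : box c n ⊆ box c (n + 1) := by
    intro x; simp only [mem_box]; omega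
  rw [this, card_sdiff_of_subset hs, card_box, card_box]
  have : (2 * (n + 1) + 1) ^ 2 = (2 * n + 1) ^ 2 + 8 * (n + 1) := by ring
  omega

lemma ring_sub_box {c : V} {n : ℕ} : ring c n ⊆ box c n := filter_subset _ _

lemma self_mem_box (c : V) (n : ℕ) : c ∈ box c n := by simp only [mem_box]; omega

lemma adj_mem_box {x y : V} (h : G.Adj x y) : y ∈ box x 1 := by
  rw [adj_iff] at h; simp only [mem_box]; omega

noncomputable instance : G.LocallyFinite := fun x =>
  (((box x 1).finite_toSet).subset (fun _ hy => adj_mem_box hy)).fintype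

instance {a b : V} : Countable (G.Walk a b) :=
  (Walk.support_injective (G := G) (u := a) (v := b)).countable

/-- support inside a set -/
def In {H : SimpleGraph V} (D : Set V) {a b : V} (p : H.Walk a b) : Prop := ∀ x ∈ p.support, x ∈ D

section InLemmas
variable {H : SimpleGraph V} {D D' : Set V} {a b c : V}

lemma In.mono {p : H.Walk a b} (h : In D p) (hD : D ⊆ D') : In D' p := fun x hx => hD (h x hx)

lemma in_append {p : H.Walk a b} {q : H.Walk b c} : In D (p.append q) ↔ In D p ∧ In D q := by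
  simp only [In, Walk.mem_support_append_iff]
  exact ⟨fun h => ⟨fun x hx => h x (.inl hx), fun x hx => h x (.inr hx)⟩,
    fun h x hx => hx.elim (h.1 x) (h.2 x)⟩

lemma in_reverse {p : H.Walk a b} : In D p.reverse ↔ In D p := by simp [In]

lemma In.start {p : H.Walk a b} (h : In D p) : a ∈ D := h _ p.start_mem_support
lemma In.stop {p : H.Walk a b} (h : In D p) : b ∈ D := h _ p.end_mem_support

lemma in_nil (h : a ∈ D) : In D (Walk.nil : H.Walk a a) := by simpa [In] using h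

lemma In.bypass {p : H.Walk a b} (h : In D p) : In D p.bypass :=
  fun x hx => h x (p.support_bypass_subset_support hx)

lemma first_visit (S : Set V) (p : H.Walk a b) (hb : b ∈ S) :
    ∃ z ∈ S, ∃ (p₁ : H.Walk a z) (p₂ : H.Walk z b), p = p₁.append p₂ ∧
      ∀ d ∈ p₁.darts, d.fst ∉ S := by
  induction p with
  | nil => exact ⟨_, hb, .nil, .nil, rfl, by simp⟩
  | @cons u v w h p ih =>
    by_cases hu : u ∈ S
    · exact ⟨u, hu, .nil, .cons h p, rfl, by simp⟩
    · obtain ⟨z, hz, p₁, p₂, e, hd⟩ := ih hb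
      refine ⟨z, hz, .cons h p₁, p₂, by simp [e], ?_⟩
      intro d hd'
      simp only [Walk.darts_cons, List.mem_cons] at hd'
      rcases hd' with rfl | hd'
      · exact hu
      · exact hd d hd'

lemma stay (A : Set V) (p : H.Walk a b) (ha : a ∈ A)
    (h : ∀ d ∈ p.darts, d.fst ∈ A → d.snd ∈ A) : In A p := by
  induction p with
  | nil => exact in_nil ha
  | @cons u v w hh p ih =>
    intro x hx
    simp only [Walk.support_cons, List.mem_cons] at hx
    rcases hx with rfl | hx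
    · exact ha
    · exact ih (h ⟨(u, v), hh⟩ (by simp) ha) (fun d hd => h d (by simp [hd])) x hx

lemma const_walk {α : Type*} (f : V → α) (p : H.Walk a b)
    (h : ∀ d ∈ p.darts, f d.fst = f d.snd) : f a = f b := by
  induction p with
  | nil => rfl
  | @cons u v w hh p ih =>
    exact (h ⟨(u, v), hh⟩ (by simp)).trans (ih fun d hd => h d (by simp [hd]))

lemma telescope (f : V → ℤ) (g : V → V → ℤ) (p : H.Walk a b)
    (h : ∀ d ∈ p.darts, g d.fst d.snd = f d.snd - f d.fst) :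
    (p.darts.map fun d => g d.fst d.snd).sum = f b - f a := by
  induction p with
  | nil => simp
  | @cons u v w hh p ih =>
    have h1 := h ⟨(u, v), hh⟩ (by simp)
    have h2 := ih fun d hd => h d (by simp [hd])
    simp only [Walk.darts_cons, List.map_cons, List.sum_cons] at h1 ⊢
    rw [h1, h2]; ring

end InLemmas

lemma supp_box {a b : V} (p : G.Walk a b) : In (box a p.length : Set V) p := by
  induction p with
  | nil => exact in_nil (self_mem_box _ _)
  | @cons u v w h p ih =>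
    intro x hx
    simp only [Walk.support_cons, List.mem_cons] at hx
    rw [adj_iff] at h
    rcases hx with rfl | hx
    · exact self_mem_box _ _
    · have := ih x hx
      simp only [mem_coe, mem_box, Walk.length_cons] at this ⊢
      omega

lemma rect_walk (a b : V) : ∃ p : G.Walk a b,
    p.length ≤ (a.1 - b.1).natAbs + (a.2 - b.2).natAbs ∧
    ∀ x ∈ p.support, min a.1 b.1 ≤ x.1 ∧ x.1 ≤ max a.1 b.1 ∧ min a.2 b.2 ≤ x.2 ∧ x.2 ≤ max a.2 b.2 := by
  generalize hn : (a.1 - b.1).natAbs + (a.2 - b.2).natAbs = n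
  induction n generalizing a with
  | zero =>
    have : a = b := Prod.ext (by omega) (by omega)
    subst this
    exact ⟨.nil, by simp, by simp⟩
  | succ n ih =>
    have : ∃ a', G.Adj a a' ∧ (a'.1 - b.1).natAbs + (a'.2 - b.2).natAbs = n ∧
        min a.1 b.1 ≤ a'.1 ∧ a'.1 ≤ max a.1 b.1 ∧ min a.2 b.2 ≤ a'.2 ∧ a'.2 ≤ max a.2 b.2 := by
      rcases lt_trichotomy a.1 b.1 with h | h | h
      · exact ⟨(a.1 + 1, a.2), by rw [adj_iff]; dsimp only; omega, by dsimp only; omega⟩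
      · rcases lt_trichotomy a.2 b.2 with h' | h' | h'
        · exact ⟨(a.1, a.2 + 1), by rw [adj_iff]; dsimp only; omega, by dsimp only; omega⟩
        · omega
        · exact ⟨(a.1, a.2 - 1), by rw [adj_iff]; dsimp only; omega, by dsimp only; omega⟩
      · exact ⟨(a.1 - 1, a.2), by rw [adj_iff]; dsimp only; omega, by dsimp only; omega⟩
    obtain ⟨a', h1, h2, h3⟩ := this
    obtain ⟨p, hp, hs⟩ := ih a' h2
    refine ⟨.cons h1 p, by simp; omega, ?_⟩
    intro x hx
    simp only [Walk.support_cons, List.mem_cons] at hx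
    rcases hx with rfl | hx
    · omega
    · have := hs x hx; omega

lemma box_walk {c a b : V} {n : ℕ} (ha : a ∈ box c n) (hb : b ∈ box c n) :
    ∃ p : G.Walk a b, p.length ≤ 4 * n ∧ In (box c n : Set V) p := by
  obtain ⟨p, h1, h2⟩ := rect_walk a b
  rw [mem_box] at ha hb
  refine ⟨p, by omega, fun x hx => ?_⟩
  have := h2 x hx
  simp only [mem_coe, mem_box]; omega

/-- boundary parametrisation -/
def bd (L : ℕ) (i : ℕ) : V :=
  if i ≤ 2 * L then (-L + i, -L) else if i ≤ 4 * L then (L, -L + (i - 2 * L))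
  else if i ≤ 6 * L then (L - (i - 4 * L), L) else (-L, L - (i - 6 * L))

def posZ (L : ℕ) (v : V) : ℤ :=
  if v.2 = -L then v.1 + L else if v.1 = L then 2 * L + (v.2 + L)
  else if v.2 = L then 4 * L + (L - v.1) else 6 * L + (L - v.2)

def pos (L : ℕ) (v : V) : ℕ := (posZ L v).toNat

lemma pos_lt {L : ℕ} {v : V} (hL : 1 ≤ L) (h : v ∈ ring 0 L) : pos L v < 8 * L := by
  simp only [mem_ring, Prod.fst_zero, Prod.snd_zero] at h
  unfold pos posZ; split_ifs <;> omega

lemma bd_pos {L : ℕ} {v : V} (h : v ∈ ring 0 L) : bd L (pos L v) = v := by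
  simp only [mem_ring, Prod.fst_zero, Prod.snd_zero] at h
  unfold pos posZ bd
  split_ifs <;> refine Prod.ext ?_ ?_ <;> simp only <;> omega

lemma bd_mem {L i : ℕ} (h : i < 8 * L) : bd L i ∈ ring 0 L := by
  simp only [mem_ring, Prod.fst_zero, Prod.snd_zero]
  unfold bd; split_ifs <;> simp only <;> omega

lemma pos_bd {L i : ℕ} (h : i < 8 * L) : pos L (bd L i) = i := by
  unfold bd
  split_ifs <;> simp only [pos, posZ] <;> split_ifs <;> omega

/-! ### crossing lemma -/

def cr (x s t : V) : ℤ :=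
  if x.1 < s.1 ∧ s.2 = x.2 ∧ t.2 = x.2 + 1 then 1
  else if x.1 < s.1 ∧ t.2 = x.2 ∧ s.2 = x.2 + 1 then -1 else 0

def psi (x y t : V) : ℤ :=
  if x.1 = y.1 then (if y.1 < t.1 ∧ t.2 ≤ y.2 then 1 else 0) - (if x.1 < t.1 ∧ t.2 ≤ x.2 then 1 else 0)
  else 0

def crA (L : ℕ) (q x : V) : ℤ :=
  if q.1 = L then (if q.2 ≤ x.2 then 1 else 0)
  else if q.2 = L then (if x.1 < q.1 ∧ x.2 = L then 1 else 0) else 0

def chi (L : ℕ) (q t : V) : ℤ :=
  if q.1 = L ∨ q.2 = L then 0 else if q.2 = -L then (if t.2 = -L ∧ q.1 < t.1 then -1 else 0)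
  else (if q.2 < t.2 then 1 else 0)

lemma ne_iff {x y : V} : x ≠ y ↔ x.1 ≠ y.1 ∨ x.2 ≠ y.2 := by
  rw [Ne, Prod.ext_iff, not_and_or]

lemma cr_step {x y s t : V} (hxy : G.Adj x y) (hst : G.Adj s t) (h1 : s ≠ x) (h2 : s ≠ y)
    (h3 : t ≠ x) (h4 : t ≠ y) : cr x s t - cr y s t = psi x y t - psi x y s := by
  obtain ⟨x1, x2⟩ := x; obtain ⟨y1, y2⟩ := y; obtain ⟨s1, s2⟩ := s; obtain ⟨t1, t2⟩ := t
  rw [adj_iff] at hxy hst
  rw [ne_iff] at h1 h2 h3 h4
  unfold cr psi
  dsimp only at *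
  rcases hxy with ⟨rfl, h | h⟩ | ⟨rfl, h | h⟩
  · simp only [if_true]
    rcases hst with ⟨rfl, h' | h'⟩ | ⟨rfl, h' | h'⟩ <;> split_ifs <;> omega
  · simp only [if_true]
    rcases hst with ⟨rfl, h' | h'⟩ | ⟨rfl, h' | h'⟩ <;> split_ifs <;> omega
  · rw [if_neg (show ¬ x1 = y1 by omega), if_neg (show ¬ x1 = y1 by omega)]
    rcases hst with ⟨rfl, h' | h'⟩ | ⟨rfl, h' | h'⟩ <;> split_ifs <;> omega
  · rw [if_neg (show ¬ x1 = y1 by omega), if_neg (show ¬ x1 = y1 by omega)]
    rcases hst with ⟨rfl, h' | h'⟩ | ⟨rfl, h' | h'⟩ <;> split_ifs <;> omega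

lemma psi_ring {L : ℕ} {x y q : V} (hxy : G.Adj x y) (hx : x ∈ box 0 L) (hy : y ∈ box 0 L)
    (hq : q ∈ ring 0 L) (h1 : q ≠ x) (h2 : q ≠ y) : psi x y q = crA L q y - crA L q x := by
  rw [adj_iff] at hxy
  rw [ne_iff] at h1 h2
  simp only [mem_ring, mem_box, Prod.fst_zero, Prod.snd_zero] at hx hy hq
  unfold psi crA
  split_ifs <;> omega

lemma cr_ring {L : ℕ} {s t q : V} (hst : G.Adj s t) (hs : s ∈ box 0 L) (ht : t ∈ box 0 L)
    (hq : q ∈ ring 0 L) (h1 : s ≠ q) (h2 : t ≠ q) : cr q s t = chi L q t - chi L q s := by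
  rw [adj_iff] at hst
  rw [ne_iff] at h1 h2
  simp only [mem_ring, mem_box, Prod.fst_zero, Prod.snd_zero] at hs ht hq
  unfold cr chi
  split_ifs <;> omega

lemma chi_crA {L : ℕ} (hL : 1 ≤ L) {p q : V} (hp : p ∈ ring 0 L) (hq : q ∈ ring 0 L) (h : p ≠ q) :
    chi L q p + crA L p q =
      (if pos L p < pos L q then 1 else 0) - (if p.2 = -L ∧ p.1 < L then 1 else 0) := by
  rw [ne_iff] at h
  simp only [mem_ring, Prod.fst_zero, Prod.snd_zero] at hp hq
  unfold chi crA pos posZ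
  split_ifs <;> omega

theorem crossing {L : ℕ} (hL : 1 ≤ L) {p₁ p₂ p₃ p₄ : V} (h1 : p₁ ∈ ring 0 L) (h2 : p₂ ∈ ring 0 L)
    (h3 : p₃ ∈ ring 0 L) (h4 : p₄ ∈ ring 0 L) (h12 : pos L p₁ < pos L p₂)
    (h23 : pos L p₂ < pos L p₃) (h34 : pos L p₃ < pos L p₄)
    (P : G.Walk p₁ p₃) (Q : G.Walk p₂ p₄) (hP : In (box 0 L : Set V) P)
    (hQ : In (box 0 L : Set V) Q) : ∃ x ∈ P.support, x ∈ Q.support := by
  by_contra hc
  push Not at hc
  have hne : ∀ s ∈ P.support, ∀ x ∈ Q.support, s ≠ x := fun s hs x hx e => hc s hs (e ▸ hx)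
  let φ : V → ℤ := fun x => (P.darts.map fun d => cr x d.fst d.snd).sum
  have hinv : φ p₂ + crA L p₃ p₂ - crA L p₁ p₂ = φ p₄ + crA L p₃ p₄ - crA L p₁ p₄ := by
    refine const_walk (fun x => φ x + crA L p₃ x - crA L p₁ x) Q fun d hd => ?_
    have hx := Q.dart_fst_mem_support_of_mem_darts hd
    have hy := Q.dart_snd_mem_support_of_mem_darts hd
    have e1 := telescope (psi d.fst d.snd) (fun s t => cr d.fst s t - cr d.snd s t) P fun e he =>
      cr_step d.adj e.adj (hne _ (P.dart_fst_mem_support_of_mem_darts he) _ hx)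
        (hne _ (P.dart_fst_mem_support_of_mem_darts he) _ hy)
        (hne _ (P.dart_snd_mem_support_of_mem_darts he) _ hx)
        (hne _ (P.dart_snd_mem_support_of_mem_darts he) _ hy)
    have e2 : (P.darts.map fun e => cr d.fst e.fst e.snd - cr d.snd e.fst e.snd).sum =
        φ d.fst - φ d.snd := by
      simp only [φ]
      induction P.darts with
      | nil => simp
      | cons a l ih => simp only [List.map_cons, List.sum_cons, ih]; ring
    have e3 := psi_ring d.adj (hQ _ hx) (hQ _ hy) h1 (hne _ P.start_mem_support _ hx)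
      (hne _ P.start_mem_support _ hy)
    have e4 := psi_ring d.adj (hQ _ hx) (hQ _ hy) h3 (hne _ P.end_mem_support _ hx)
      (hne _ P.end_mem_support _ hy)
    linarith
  have hb : ∀ q ∈ Q.support, q ∈ ring 0 L → φ q = chi L q p₃ - chi L q p₁ := fun q hq hr =>
    telescope (chi L q) (cr q) P fun e he =>
      cr_ring e.adj (hP _ (P.dart_fst_mem_support_of_mem_darts he))
        (hP _ (P.dart_snd_mem_support_of_mem_darts he)) hr
        (hne _ (P.dart_fst_mem_support_of_mem_darts he) _ hq)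
        (hne _ (P.dart_snd_mem_support_of_mem_darts he) _ hq)
  have b2 := hb _ Q.start_mem_support h2
  have b4 := hb _ Q.end_mem_support h4
  have c12 := chi_crA hL h1 h2 (hne _ P.start_mem_support _ Q.start_mem_support)
  have c32 := chi_crA hL h3 h2 (hne _ P.end_mem_support _ Q.start_mem_support)
  have c14 := chi_crA hL h1 h4 (hne _ P.start_mem_support _ Q.end_mem_support)
  have c34 := chi_crA hL h3 h4 (hne _ P.end_mem_support _ Q.end_mem_support)
  rw [if_pos h12] at c12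
  rw [if_neg (by omega)] at c32
  rw [if_pos (by omega)] at c14
  rw [if_pos h34] at c34
  linarith

/-! ### potentials -/

lemma antider {A : Type*} [AddCommGroup A] (f : ℤ → A) (c : A) :
    ∃ F : ℤ → A, F 0 = c ∧ ∀ n, F (n + 1) = F n + f n := by
  refine ⟨fun n => c + ∑ k ∈ range n.toNat, f k - ∑ k ∈ range (-n).toNat, f (-k - 1), by simp, ?_⟩
  intro n
  rcases le_or_gt 0 n with h | h
  · obtain ⟨m, rfl⟩ := Int.eq_ofNat_of_zero_le h
    have h1 : ((m : ℤ) + 1).toNat = m + 1 := by omega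
    have h2 : (-((m : ℤ) + 1)).toNat = 0 := by omega
    have h3 : (-(m : ℤ)).toNat = 0 := by omega
    simp only [h1, h2, h3, Int.toNat_natCast, sum_range_succ, range_zero, sum_empty]
    abel
  · obtain ⟨m, rfl⟩ : ∃ m : ℕ, n = -m - 1 := ⟨(-n - 1).toNat, by omega⟩
    have h1 : (-(m : ℤ) - 1 + 1).toNat = 0 := by omega
    have h2 : (-(-(m : ℤ) - 1 + 1)).toNat = m := by omega
    have h3 : (-(m : ℤ) - 1).toNat = 0 := by omega
    have h4 : (-(-(m : ℤ) - 1)).toNat = m + 1 := by omega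
    simp only [h1, h2, h3, h4, sum_range_succ, range_zero, sum_empty]
    abel

lemma potential (om : V → V → ZMod 2) (hs : ∀ x y, om x y = om y x)
    (hc : ∀ x : V, om x (x.1 + 1, x.2) + om (x.1 + 1, x.2) (x.1 + 1, x.2 + 1) =
      om x (x.1, x.2 + 1) + om (x.1, x.2 + 1) (x.1 + 1, x.2 + 1)) :
    ∃ φ : V → ZMod 2, ∀ x y, G.Adj x y → φ y = φ x + om x y := by
  obtain ⟨F, -, hF⟩ := antider (fun n => om (n, 0) (n + 1, 0)) 0
  choose Φ h0 hΦ using fun n : ℤ => antider (fun m => om (n, m) (n, m + 1)) (F n)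
  have hh : ∀ n m : ℤ, Φ (n + 1) m = Φ n m + om (n, m) (n + 1, m) := by
    intro n m
    induction m using Int.induction_on with
    | zero => rw [h0, h0, hF]
    | succ m ih =>
      have := hc (n, m)
      simp only at this
      rw [hΦ, hΦ, ih, add_assoc, this, add_assoc]
    | pred m ih =>
      have := hc (n, -m - 1)
      have e1 := hΦ (n + 1) (-m - 1)
      have e2 := hΦ n (-m - 1)
      simp only [sub_add_cancel] at this e1 e2
      rw [e1, e2, add_assoc, ← this, ← add_assoc] at ih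
      exact add_right_cancel ih
  have h2 : ∀ a b c : ZMod 2, a = b + c → b = a + c := by decide
  refine ⟨fun x => Φ x.1 x.2, ?_⟩
  rintro ⟨x1, x2⟩ ⟨y1, y2⟩ h
  simp only [adj_iff] at h
  rcases h with ⟨rfl, rfl | rfl⟩ | ⟨rfl, rfl | rfl⟩
  · exact h2 _ _ _ (by rw [hs]; exact hΦ _ _)
  · exact hΦ _ _
  · exact h2 _ _ _ (by rw [hs]; exact hh _ _)
  · exact hh _ _

end Vale.Agent.P158
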