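import Vale.Agent.P158.Metric

namespace Vale.Agent.P158
open SimpleGraph Finset MeasureTheory

structure Law where
  μ : Measure ℝ
  prob : IsProbabilityMeasure μ
  na : NullSingletonClass μ
  pos : μ (Set.Iic 0) = 0
  a : ℝ
  a₁ : ℝ
  M₁ : ℝ
  ha : 0 < a
  ha₁ : a < a₁
  hM : a₁ < M₁
  g : μ (Set.Ioc 0 a) ≠ 0
  med : μ.real (Set.Ioc a₁ M₁)ᶜ ≤ 1 / 648

def Law.η (X : Law) : ℝ := X.a₁ - X.a

lemma Law.η_pos (X : Law) : 0 < X.η := sub_pos.2 X.ha₁
lemma Law.a₁_pos (X : Law) : 0 < X.a₁ := X.ha.trans X.ha₁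
lemma Law.M₁_pos (X : Law) : 0 < X.M₁ := X.a₁_pos.trans X.hM

variable {D D' : Set V} {w w' s : W} {a b c x y z u v : V} {π : Finset (Sym2 V)} {X : Law}

structure Low (π : Finset (Sym2 V)) (w w' : W) : Prop where
  le : ∀ e, w' e ≤ w e
  eq : ∀ e ∉ π, w' e = w e

lemma Low.mono {π' : Finset (Sym2 V)} (h : Low π w w') (hπ : π ⊆ π') : Low π' w w' :=
  ⟨h.le, fun e he => h.eq e fun h' => he (hπ h')⟩

lemma Low.cost_le (h : Low π w w') {p : G.Walk a b} (hp : p.IsPath) :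
    cost w p ≤ cost w' p + ∑ e ∈ π, (w e - w' e) := by
  classical
  rw [cost_toFinset hp, cost_toFinset hp, ← sub_le_iff_le_add', ← sum_sub_distrib]
  rw [← sum_filter_ne_zero]
  refine sum_le_sum_of_subset_of_nonneg (fun e he => ?_) fun e _ _ => by linarith [h.le e]
  by_contra hc
  exact (mem_filter.1 he).2 (by rw [h.eq e hc, sub_self])

lemma cost_gain (hle : ∀ e, w' e ≤ w e) {p : G.Walk a b} (hp : p.IsPath)
    (hπ : ∀ e ∈ π, e ∈ p.edges) : cost w' p + ∑ e ∈ π, (w e - w' e) ≤ cost w p := by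
  classical
  rw [cost_toFinset hp, cost_toFinset hp, ← le_sub_iff_add_le', ← sum_sub_distrib]
  exact sum_le_sum_of_subset_of_nonneg (fun e he => List.mem_toFinset.2 (hπ e he))
    fun e _ _ => by linarith [hle e]

lemma Met.T_low (h : Met D w) (hw : Pos w') (hle : ∀ e, w' e ≤ w e) (ha : a ∈ D) (hb : b ∈ D) :
    T D w' a b ≤ T D w a b := by
  obtain ⟨p, hp, g⟩ := h.geo ha hb
  have := cost_gain (π := ∅) hle hp (by simp)
  rw [sum_empty, add_zero, g.eq] at this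
  exact (T_le hw g.inD).trans this

lemma Low.T_ge (l : Low π w w') (h : Met D w') (hw : Pos w) (ha : a ∈ D) (hb : b ∈ D) :
    T D w a b ≤ T D w' a b + ∑ e ∈ π, (w e - w' e) := by
  obtain ⟨p, hp, g⟩ := h.geo ha hb
  rw [← g.eq]
  exact (T_le hw g.inD).trans (l.cost_le hp)

lemma Low.geo (l : Low π w w') (h : Met D w') (hw : Pos w) {p : G.Walk a b} (hp : p.IsPath)
    (g : Geo D w p) (hπ : ∀ e ∈ π, e ∈ p.edges) : Geo D w' p := by
  refine ⟨g.inD, le_antisymm ?_ (T_le h.pos g.inD)⟩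
  linarith [cost_gain l.le hp hπ, l.T_ge h hw g.inD.start g.inD.stop, g.eq]

lemma Low.first (l : Low π w w') (h : Met D w') (hw : Pos w) (S : Set V)
    (hS : ∀ e ∈ π, ∀ x ∈ e, x ∈ S) (ha : a ∈ D) (hb : b ∈ D) :
    ∃ q, (q ∈ S ∨ q = b) ∧ Btw D w' a q b ∧ T D w a q ≤ T D w' a q := by
  obtain ⟨p, -, g⟩ := h.geo ha hb
  obtain ⟨q, hq, p₁, p₂, rfl, hd⟩ := first_visit {x | x ∈ S ∨ x = b} p (.inr rfl)
  obtain ⟨g1, -, g3⟩ := h.geo_split g
  refine ⟨q, hq, g3, ?_⟩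
  rw [← g1.eq, cost_congr (w := w') (w' := w)]
  · exact T_le hw g1.inD
  · intro e he
    obtain ⟨d, hd', rfl⟩ := List.mem_map.1 he
    exact l.eq _ fun hc => hd d hd' (.inl (hS _ hc _ (by simp [Dart.edge])))

lemma Low.hit (l : Low π w w') (h : Met D w') (hw : Pos w) (S : Set V)
    (hS : ∀ e ∈ π, ∀ x ∈ e, x ∈ S) (ha : a ∈ D) (hb : b ∈ D) (hlt : T D w' a b < T D w a b) :
    ∃ q ∈ S, Btw D w' a q b := by
  obtain ⟨q, h1 | rfl, h2, h3⟩ := l.first h hw S hS ha hb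
  · exact ⟨q, h1, h2⟩
  · linarith

lemma Low.last (l : Low π w w') (h : Met D w') (hw : Pos w) (S A : Set V)
    (hS : ∀ e ∈ π, ∀ x ∈ e, x ∈ S) (hc : c ∈ D) (hv : v ∈ D) (hcA : c ∈ A)
    (hA : ∀ x ∈ A, ∀ y ∈ D, G.Adj x y → y ∉ S → y ∈ A)
    (hl : ∀ s ∈ S, Btw D w' c s v → s = c) : T A w c v ≤ T D w' c v := by
  obtain ⟨p, -, g⟩ := h.geo hc hv
  have hs : ∀ x ∈ p.support, x ∈ S → x = c := fun x hx hxS => hl x hxS (h.btw_of_mem g hx)
  have hin : In A p := stay A p hcA fun d hd hx => by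
    have hy := p.dart_snd_mem_support_of_mem_darts hd
    by_cases hyS : d.snd ∈ S
    · rw [hs _ hy hyS]; exact hcA
    · exact hA _ hx _ (g.inD _ hy) d.adj hyS
  rw [← g.eq, cost_congr (w := w') (w' := w)]
  · exact T_le hw hin
  · intro e he
    obtain ⟨d, hd', rfl⟩ := List.mem_map.1 he
    refine l.eq _ fun hc => d.adj.ne ?_
    rw [hs _ (p.dart_fst_mem_support_of_mem_darts hd') (hS _ hc _ (by simp [Dart.edge])),
      hs _ (p.dart_snd_mem_support_of_mem_darts hd') (hS _ hc _ (by simp [Dart.edge]))]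

noncomputable def low (π : Finset (Sym2 V)) (s w : W) : W := fun e => if e ∈ π then s e else w e

structure Mod (X : Law) (π : Finset (Sym2 V)) (s w : W) : Prop where
  pos : Pos w
  hw : ∀ e ∈ π, w e ∈ Set.Ioc X.a₁ X.M₁
  hs : ∀ e ∈ π, s e ∈ Set.Ioc 0 X.a

lemma Mod.mono {π' : Finset (Sym2 V)} (m : Mod X π s w) (h : π' ⊆ π) : Mod X π' s w :=
  ⟨m.pos, fun e he => m.hw e (h he), fun e he => m.hs e (h he)⟩

lemma Mod.pos' (m : Mod X π s w) : Pos (low π s w) := fun e => by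
  unfold low; split_ifs with h
  · exact (m.hs e h).1
  · exact m.pos e

lemma Mod.low2 {π' : Finset (Sym2 V)} (m : Mod X π s w) (h : π' ⊆ π) :
    Low (π \ π') (low π' s w) (low π s w) := by
  refine ⟨fun e => ?_, fun e he => ?_⟩
  · unfold low
    by_cases h1 : e ∈ π' 
    · simp [h1, h h1]
    · by_cases h2 : e ∈ π
      · simp only [h1, h2, if_true, if_false]
        linarith [(m.hs e h2).2, (m.hw e h2).1, X.ha₁]
      · simp [h1, h2]
  · unfold low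
    rw [mem_sdiff, not_and, not_not] at he
    by_cases h2 : e ∈ π
    · simp [h2, he h2]
    · simp [h2, show e ∉ π' from fun h' => h2 (h h')]

lemma low_empty : low ∅ s w = w := by funext e; simp [low]

lemma Mod.low (m : Mod X π s w) : Low π w (low π s w) := by
  simpa [low_empty] using m.low2 (empty_subset _)

lemma Mod.gain_le {π' : Finset (Sym2 V)} (m : Mod X π s w) :
    ∑ e ∈ π \ π', (P158.low π' s w e - P158.low π s w e) ≤ (π \ π').card * X.M₁ := by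
  rw [← nsmul_eq_mul]
  refine sum_le_card_nsmul _ _ _ fun e he => ?_
  rw [mem_sdiff] at he
  simp only [P158.low, he.1, he.2, if_true, if_false]
  linarith [(m.hs e he.1).1, (m.hw e he.1).2]

lemma Mod.T_ge (m : Mod X π s w) (h : Met D w) (ha : a ∈ D) (hb : b ∈ D) :
    T D w a b ≤ T D (P158.low π s w) a b + π.card * X.M₁ := by
  have h1 := m.low.T_ge (h.change m.pos') m.pos ha hb
  have h2 := m.gain_le (π' := ∅)
  rw [low_empty, sdiff_empty] at h2
  linarith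

lemma Mod.cost_gain {π' : Finset (Sym2 V)} (m : Mod X π s w) (h : π' ⊆ π) {p : G.Walk a b}
    (hp : p.IsPath) (hπ : ∀ e ∈ π', e ∈ p.edges) :
    cost (P158.low π s w) p + π'.card * X.η ≤ cost w p := by
  refine le_trans ?_ (P158.cost_gain m.low.le hp hπ)
  rw [← nsmul_eq_mul]
  refine add_le_add_right (card_nsmul_le_sum _ _ _ fun e he => ?_) _
  simp only [P158.low, h he, if_true, Law.η]
  linarith [(m.hs e (h he)).2, (m.hw e (h he)).1]

open Classical in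
noncomputable def medE (X : Law) (w : W) (l : List (Sym2 V)) : Finset (Sym2 V) :=
  l.toFinset.filter fun e => w e ∈ Set.Ioc X.a₁ X.M₁

def Med (X : Law) (w : W) (y : V) (ℓ θ : ℕ) : Prop :=
  ∀ v (q : G.Walk y v), q.IsPath → q.length = ℓ → θ ≤ (medE X w q.edges).card

lemma Med.change {ℓ θ : ℕ} (h : Med X w y ℓ θ) (he : ∀ e ∉ π, w' e = w e) :
    Med X w' y ℓ (θ - π.card) := fun v q hq hl => by
  classical
  have h1 := h v q hq hl
  have : medE X w q.edges \ π ⊆ medE X w' q.edges := by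
    intro e
    simp only [medE, mem_sdiff, mem_filter]
    exact fun h => ⟨h.1.1, by rw [he e h.2]; exact h.1.2⟩
  have h2 := card_le_card this
  have h3 := le_card_sdiff π (medE X w q.edges)
  omega

lemma Med.mono {ℓ θ θ' : ℕ} (h : Med X w y ℓ θ) (h' : θ' ≤ θ) : Med X w y ℓ θ' :=
  fun v q hq hl => h'.trans (h v q hq hl)

lemma Med.split {ℓ θ : ℕ} (h : Med X w y ℓ θ) {p : G.Walk y v} (hp : p.IsPath)
    (hl : ℓ ≤ p.length) : ∃ m, ∃ (p₁ : G.Walk y m) (p₂ : G.Walk m v) (π : Finset (Sym2 V)),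
      p = p₁.append p₂ ∧ In (box y ℓ : Set V) p₁ ∧
      (∀ e ∈ π, e ∈ p₁.edges ∧ w e ∈ Set.Ioc X.a₁ X.M₁) ∧ θ ≤ π.card ∧ π.card ≤ ℓ := by
  have hlen : (p.take ℓ).length = ℓ := by rw [Walk.take_length]; omega
  refine ⟨_, p.take ℓ, p.drop ℓ, medE X w (p.take ℓ).edges, (p.append_take_drop_eq ℓ).symm,
    ?_, ?_, h _ _ (hp.take ℓ) hlen, ?_⟩
  · have := supp_box (p.take ℓ)
    rwa [hlen] at this
  · intro e he
    simpa [medE] using he
  · refine (card_filter_le _ _).trans ((List.toFinset_card_le _).trans ?_)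
    rw [Walk.length_edges, hlen]

lemma Med.cost {ℓ θ : ℕ} (h : Med X w y ℓ θ) (hw : Pos w) {p : G.Walk y v} (hp : p.IsPath)
    (hc : cost w p < θ * X.a₁) : p.length < ℓ := by
  classical
  by_contra hl
  obtain ⟨m, p₁, p₂, π, rfl, -, h1, h2, -⟩ := h.split hp (not_lt.1 hl)
  have e1 : ∑ e ∈ π, w e ≤ P158.cost w (p₁.append p₂) := by
    rw [cost_toFinset hp]
    exact sum_le_sum_of_subset_of_nonneg (fun e he => by simp [(h1 e he).1])
      fun e _ _ => (hw e).le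
  have e2 := card_nsmul_le_sum π w X.a₁ fun e he => (h1 e he).2.1.le
  rw [nsmul_eq_mul] at e2
  have : (θ : ℝ) * X.a₁ ≤ π.card * X.a₁ :=
    mul_le_mul_of_nonneg_right (by exact_mod_cast h2) X.a₁_pos.le
  linarith

lemma len_ge {ℓ : ℕ} (p : G.Walk y v) (h : ¬ Ins y ℓ v) : ℓ ≤ p.length := by
  have := (supp_box p).stop
  simp only [mem_coe, mem_box, Ins] at this h
  omega

/-- a cheap road along a geodesic -/
lemma highway {ℓ θ : ℕ} (h : Met D w) (hy : y ∈ D) (hv : v ∈ D) (far : ¬ Ins y ℓ v)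
    (hm : Med X w y ℓ θ) : ∃ m, ∃ (p₁ : G.Walk y m) (p₂ : G.Walk m v) (π : Finset (Sym2 V)),
      (p₁.append p₂).IsPath ∧ Geo D w (p₁.append p₂) ∧ In (box y ℓ : Set V) p₁ ∧
      (∀ e ∈ π, e ∈ p₁.edges ∧ w e ∈ Set.Ioc X.a₁ X.M₁) ∧ θ ≤ π.card ∧ π.card ≤ ℓ := by
  obtain ⟨p, hp, g⟩ := h.geo hy hv
  obtain ⟨m, p₁, p₂, π, rfl, h1⟩ := hm.split hp (len_ge p far)
  exact ⟨m, p₁, p₂, π, hp, g, h1⟩

end Vale.Agent.P158
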