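import Vale.Agent.P158.Grid

namespace Vale.Agent.P158
open SimpleGraph Finset
open scoped ENNReal

abbrev W := Sym2 V → ℝ

def Pos (w : W) : Prop := ∀ e, 0 < w e

def Gen (w : W) : Prop :=
  ∀ l₁ l₂ : List (Sym2 V), (l₁.map w).sum = (l₂.map w).sum → ∀ e ∈ l₁, e ∈ l₂

noncomputable def Te (D : Set V) (w : W) (a b : V) : ℝ≥0∞ :=
  ⨅ p : G.Walk a b, ⨅ _ : In D p, ENNReal.ofReal (cost w p)

noncomputable def T (D : Set V) (w : W) (a b : V) : ℝ := (Te D w a b).toReal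

structure Met (D : Set V) (w : W) : Prop where
  fin : D.Finite
  conn : ∀ a ∈ D, ∀ b ∈ D, ∃ p : G.Walk a b, In D p
  pos : Pos w

variable {D B : Set V} {w w' : W} {a b c x y z u v : V}

@[simp] lemma cost_nil : cost w (Walk.nil : G.Walk a a) = 0 := by simp [cost]

lemma cost_cons (h : G.Adj a b) (p : G.Walk b c) : cost w (.cons h p) = w s(a, b) + cost w p := by
  simp [cost]

lemma cost_append (p : G.Walk a b) (q : G.Walk b c) :
    cost w (p.append q) = cost w p + cost w q := by simp [cost]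

lemma cost_reverse (p : G.Walk a b) : cost w p.reverse = cost w p := by
  simp [cost, List.sum_reverse]

lemma cost_nonneg (hw : Pos w) (p : G.Walk a b) : 0 ≤ cost w p :=
  List.sum_nonneg (by simp only [List.mem_map]; rintro _ ⟨e, -, rfl⟩; exact (hw e).le)

lemma cost_pos (hw : Pos w) (p : G.Walk a b) (h : a ≠ b) : 0 < cost w p := by
  cases p with
  | nil => exact absurd rfl h
  | cons h' q => rw [cost_cons]; exact add_pos_of_pos_of_nonneg (hw _) (cost_nonneg hw q)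

lemma cost_bypass (hw : Pos w) (p : G.Walk a b) : cost w p.bypass ≤ cost w p :=
  ((p.edges_bypass_sublist_edges).map w).sum_le_sum
    (by simp only [List.mem_map]; rintro _ ⟨e, -, rfl⟩; exact (hw e).le)

lemma cost_congr (p : G.Walk a b) (h : ∀ e ∈ p.edges, w e = w' e) : cost w p = cost w' p := by
  unfold cost; rw [List.map_congr_left h]

lemma cost_le_len {H : ℝ} (p : G.Walk a b) (h : ∀ e ∈ p.edges, w e ≤ H) :
    cost w p ≤ p.length * H := by
  have := List.sum_le_card_nsmul (p.edges.map w) H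
    (by simp only [List.mem_map]; rintro _ ⟨e, he, rfl⟩; exact h e he)
  simpa [cost] using this

lemma cost_toFinset {p : G.Walk a b} (hp : p.IsPath) : cost w p = ∑ e ∈ p.edges.toFinset, w e :=
  (List.sum_toFinset _ hp.isTrail.edges_nodup).symm

lemma T_nonneg : 0 ≤ T D w a b := ENNReal.toReal_nonneg

lemma T_le (hw : Pos w) {p : G.Walk a b} (hp : In D p) : T D w a b ≤ cost w p := by
  have : Te D w a b ≤ ENNReal.ofReal (cost w p) := iInf₂_le p hp
  exact ENNReal.toReal_le_of_le_ofReal (cost_nonneg hw p) this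

lemma T_symm (D : Set V) (w : W) (a b : V) : T D w a b = T D w b a := by
  have : ∀ a b, Te D w a b ≤ Te D w b a := fun a b =>
    le_iInf₂ fun p hp => (iInf₂_le p.reverse (in_reverse.2 hp)).trans (by rw [cost_reverse])
  unfold T; rw [le_antisymm (this a b) (this b a)]

lemma T_congr (h : ∀ a ∈ D, ∀ b ∈ D, w s(a, b) = w' s(a, b)) : T D w = T D w' := by
  funext a b
  unfold T Te
  congr 1
  refine iInf_congr fun p => iInf_congr fun hp => ?_
  rw [cost_congr p]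
  intro e he
  induction e using Sym2.ind with
  | _ x y => exact h x (hp _ (p.fst_mem_support_of_mem_edges he)) y
              (hp _ (p.snd_mem_support_of_mem_edges he))

lemma path_len_lt {H : SimpleGraph V} {p : H.Walk a b} (hp : p.IsPath) {S : Finset V}
    (h : In (S : Set V) p) : p.length + 1 ≤ S.card := by
  rw [← p.length_support, ← List.toFinset_card_of_nodup hp.support_nodup]
  exact card_le_card fun x hx => h x (List.mem_toFinset.1 hx)

structure Geo (D : Set V) (w : W) {a b : V} (p : G.Walk a b) : Prop where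
  inD : In D p
  eq : cost w p = T D w a b

lemma Met.geo (h : Met D w) (ha : a ∈ D) (hb : b ∈ D) :
    ∃ p : G.Walk a b, p.IsPath ∧ Geo D w p := by
  classical
  let S := (G.finsetWalkLengthLT h.fin.toFinset.card a b).filter fun p => p.IsPath ∧ In D p
  have hS : ∀ p : G.Walk a b, In D p → p.bypass ∈ S := fun p hp => by
    simp only [S, mem_filter, mem_finsetWalkLengthLT_iff]
    refine ⟨?_, p.bypass_isPath, hp.bypass⟩
    exact path_len_lt p.bypass_isPath (by simpa using hp.bypass)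
  obtain ⟨q, hq⟩ := h.conn a ha b hb
  obtain ⟨p, hp, hmin⟩ := S.exists_min_image (cost w) ⟨_, hS q hq⟩
  have hp' := (mem_filter.1 hp).2
  refine ⟨p, hp'.1, hp'.2, ?_⟩
  have : Te D w a b = ENNReal.ofReal (cost w p) := by
    refine le_antisymm (iInf₂_le p hp'.2) (le_iInf₂ fun q hq => ENNReal.ofReal_le_ofReal ?_)
    exact (hmin _ (hS q hq)).trans (cost_bypass h.pos q)
  rw [T, this, ENNReal.toReal_ofReal (cost_nonneg h.pos p)]

lemma Met.self (h : Met D w) (ha : a ∈ D) : T D w a a = 0 :=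
  le_antisymm (by simpa using T_le h.pos (in_nil (H := G) ha)) T_nonneg

lemma Met.tri (h : Met D w) (ha : a ∈ D) (hb : b ∈ D) (hc : c ∈ D) :
    T D w a c ≤ T D w a b + T D w b c := by
  obtain ⟨p, -, hp⟩ := h.geo ha hb
  obtain ⟨q, -, hq⟩ := h.geo hb hc
  rw [← hp.eq, ← hq.eq, ← cost_append]
  exact T_le h.pos (in_append.2 ⟨hp.inD, hq.inD⟩)

lemma Met.tpos (h : Met D w) (ha : a ∈ D) (hb : b ∈ D) (hab : a ≠ b) : 0 < T D w a b := by
  obtain ⟨p, -, hp⟩ := h.geo ha hb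
  rw [← hp.eq]; exact cost_pos h.pos p hab

lemma Met.eq_of_le (h : Met D w) (ha : a ∈ D) (hb : b ∈ D) (hab : T D w a b ≤ 0) : a = b := by
  by_contra hne
  linarith [h.tpos ha hb hne]

lemma Met.mono (h : Met B w) (hB : B ⊆ D) (ha : a ∈ B) (hb : b ∈ B) : T D w a b ≤ T B w a b := by
  obtain ⟨p, -, hp⟩ := h.geo ha hb
  rw [← hp.eq]; exact T_le h.pos (hp.inD.mono hB)

lemma Met.change (h : Met D w) (hw : Pos w') : Met D w' := ⟨h.fin, h.conn, hw⟩

lemma met_box (hw : Pos w) (c : V) (n : ℕ) : Met (box c n : Set V) w :=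
  ⟨finite_toSet _, fun _ ha _ hb => (box_walk ha hb).imp fun _ h => h.2, hw⟩

lemma Geo.reverse {p : G.Walk a b} (h : Geo D w p) : Geo D w p.reverse :=
  ⟨in_reverse.2 h.inD, by rw [cost_reverse, h.eq, T_symm]⟩

def Btw (D : Set V) (w : W) (x z y : V) : Prop :=
  x ∈ D ∧ z ∈ D ∧ y ∈ D ∧ T D w x z + T D w z y = T D w x y

lemma Btw.symm (h : Btw D w x z y) : Btw D w y z x :=
  ⟨h.2.2.1, h.2.1, h.1, by rw [T_symm D w y z, T_symm D w z x, T_symm D w y x, add_comm]; exact h.2.2.2⟩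

lemma Btw.eq (h : Btw D w x z y) : T D w x z + T D w z y = T D w x y := h.2.2.2
lemma Btw.l (h : Btw D w x z y) : x ∈ D := h.1
lemma Btw.m (h : Btw D w x z y) : z ∈ D := h.2.1
lemma Btw.r (h : Btw D w x z y) : y ∈ D := h.2.2.1

lemma Met.btw (h : Met D w) (hx : x ∈ D) (hz : z ∈ D) (hy : y ∈ D)
    (hle : T D w x z + T D w z y ≤ T D w x y) : Btw D w x z y :=
  ⟨hx, hz, hy, le_antisymm hle (h.tri hx hz hy)⟩

lemma Met.btw_left (h : Met D w) (hx : x ∈ D) (hy : y ∈ D) : Btw D w x x y :=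
  ⟨hx, hx, hy, by rw [h.self hx, zero_add]⟩

lemma Met.btw_right (h : Met D w) (hx : x ∈ D) (hy : y ∈ D) : Btw D w x y y :=
  (h.btw_left hy hx).symm

/-- from x-a-b and x-b-y -/
lemma Met.t1 (h : Met D w) (h1 : Btw D w x a b) (h2 : Btw D w x b y) : Btw D w x a y :=
  h.btw h1.l h1.m h2.r (by linarith [h1.eq, h2.eq, h.tri h1.m h1.r h2.r])

lemma Met.t2 (h : Met D w) (h1 : Btw D w x a b) (h2 : Btw D w x b y) : Btw D w a b y :=
  h.btw h1.m h1.r h2.r (by linarith [h1.eq, h2.eq, h.tri h1.l h1.m h2.r])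

/-- from x-a-y and a-b-y -/
lemma Met.t3 (h : Met D w) (h1 : Btw D w x a y) (h2 : Btw D w a b y) : Btw D w x b y :=
  (h.t1 h2.symm h1.symm).symm

lemma Met.t4 (h : Met D w) (h1 : Btw D w x a y) (h2 : Btw D w a b y) : Btw D w x a b :=
  (h.t2 h2.symm h1.symm).symm

lemma Met.geo_split (h : Met D w) {p : G.Walk a b} {q : G.Walk b c} (hg : Geo D w (p.append q)) :
    Geo D w p ∧ Geo D w q ∧ Btw D w a b c := by
  obtain ⟨h1, h2⟩ := in_append.1 hg.inD
  have e := hg.eq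
  rw [cost_append] at e
  have i1 := T_le h.pos h1
  have i2 := T_le h.pos h2
  have i3 := h.tri h1.start h1.stop h2.stop
  exact ⟨⟨h1, by linarith⟩, ⟨h2, by linarith⟩, h1.start, h1.stop, h2.stop, by linarith⟩

lemma Met.btw_of_mem (h : Met D w) {p : G.Walk a b} (hg : Geo D w p) (hz : z ∈ p.support) :
    Btw D w a z b := by
  obtain ⟨q, r, rfl⟩ := Walk.mem_support_iff_exists_append.1 hz
  exact (h.geo_split hg).2.2

lemma Gen.mem_support (hg : Gen w) {p q : G.Walk a b} (e : cost w p = cost w q)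
    (hz : z ∈ p.support) : z ∈ q.support := by
  rw [Walk.mem_support_iff_exists_mem_edges] at hz ⊢
  exact hz.imp id fun ⟨e', he, hz⟩ => ⟨e', hg _ _ e e' he, hz⟩

lemma Met.mem_of_btw (h : Met D w) (hg : Gen w) {p : G.Walk a b} (hp : Geo D w p)
    (hz : Btw D w a z b) : z ∈ p.support := by
  obtain ⟨q, -, hq⟩ := h.geo hz.l hz.m
  obtain ⟨r, -, hr⟩ := h.geo hz.m hz.r
  refine hg.mem_support (p := q.append r) ?_ (by simp)
  rw [cost_append, hq.eq, hr.eq, hz.eq, hp.eq]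

lemma Met.total (h : Met D w) (hg : Gen w) (h1 : Btw D w x a y) (h2 : Btw D w x b y) :
    Btw D w x a b ∨ Btw D w x b a := by
  obtain ⟨p, -, hp⟩ := h.geo h1.l h1.r
  obtain ⟨q, r, rfl⟩ := Walk.mem_support_iff_exists_append.1 (h.mem_of_btw hg hp h1)
  obtain ⟨hq, hr, -⟩ := h.geo_split hp
  rcases (Walk.mem_support_append_iff _ _).1 (h.mem_of_btw hg hp h2) with hb | hb
  · exact .inr (h.btw_of_mem hq hb)
  · exact .inl (h.t4 h1 (h.btw_of_mem hr hb))

/-! ### sub-domains -/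

lemma Met.btw_sub (hB : Met B w) (hBD : B ⊆ D) (hx : x ∈ B) (hz : z ∈ B) (hy : y ∈ B)
    (h : Btw D w x z y) (h1 : T B w x z ≤ T D w x z) (h2 : T B w z y ≤ T D w z y) :
    Btw B w x z y :=
  hB.btw hx hz hy (by linarith [h.eq, hB.mono hBD hx hy])

lemma Met.btw_up (hB : Met B w) (hD : Met D w) (hBD : B ⊆ D) (h : Btw B w x z y)
    (h1 : T B w x y ≤ T D w x y) : Btw D w x z y :=
  hD.btw (hBD h.l) (hBD h.m) (hBD h.r)
    (by linarith [h.eq, hB.mono hBD h.l h.m, hB.mono hBD h.m h.r])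

def Ins (c : V) (n : ℕ) (x : V) : Prop :=
  c.1 - n < x.1 ∧ x.1 < c.1 + n ∧ c.2 - n < x.2 ∧ x.2 < c.2 + n

lemma exit_walk {n : ℕ} (p : G.Walk z v) (hz : z ∈ box c n) (hv : ¬ Ins c n v) :
    ∃ v' ∈ ring c n, ∃ (p₁ : G.Walk z v') (p₂ : G.Walk v' v), p = p₁.append p₂ ∧
      In (box c n : Set V) p₁ := by
  obtain ⟨v', h1, p₁, p₂, e, hd⟩ := first_visit {x | ¬ Ins c n x} p hv
  have hin : In (box c n : Set V) p₁ := stay _ p₁ hz fun d hd' _ => by
    have h2 := hd d hd'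
    have h3 := adj_iff.1 d.adj
    simp only [Set.mem_ofPred_eq, not_not, Ins] at h2
    simp only [mem_coe, mem_box]; omega
  refine ⟨v', ?_, p₁, p₂, e, hin⟩
  have := hin.stop
  simp only [mem_coe, mem_box, Set.mem_ofPred_eq, Ins] at this h1
  rw [mem_ring]; omega

lemma Met.exit (h : Met D w) {n : ℕ} (hzD : z ∈ D) (hz : z ∈ box c n) (hvD : v ∈ D)
    (hv : ¬ Ins c n v) :
    ∃ v' ∈ ring c n, Btw D w z v' v ∧ T (box c n) w z v' ≤ T D w z v' := by
  obtain ⟨p, -, hp⟩ := h.geo hzD hvD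
  obtain ⟨v', h1, p₁, p₂, rfl, hin⟩ := exit_walk p hz hv
  obtain ⟨g1, -, g3⟩ := h.geo_split hp
  exact ⟨v', h1, g3, g1.eq ▸ T_le h.pos hin⟩

def SplitAt (D : Set V) (w : W) (z u v₁ v₂ : V) : Prop :=
  Btw D w u z v₁ ∧ Btw D w u z v₂ ∧ ∀ s, Btw D w z s v₁ → Btw D w z s v₂ → s = z

lemma split_sub (hB : Met B w) (hD : Met D w) (hBD : B ⊆ D) {u' v₁ v₂ v₁' v₂' : V}
    (h : SplitAt D w z u v₁ v₂) (hz : z ∈ B) (hu : u' ∈ B) (h1 : v₁' ∈ B) (h2 : v₂' ∈ B)
    (bu : Btw D w u u' z) (tu : T B w u' z ≤ T D w u' z)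
    (b1 : Btw D w z v₁' v₁) (t1 : T B w z v₁' ≤ T D w z v₁')
    (b2 : Btw D w z v₂' v₂) (t2 : T B w z v₂' ≤ T D w z v₂') : SplitAt B w z u' v₁' v₂' :=
  ⟨hB.btw_sub hBD hu hz h1 (hD.t4 (hD.t2 bu h.1) b1) tu t1,
    hB.btw_sub hBD hu hz h2 (hD.t4 (hD.t2 bu h.2.1) b2) tu t2,
    fun s s1 s2 => h.2.2 s (hD.t1 (hB.btw_up hD hBD s1 t1) b1) (hD.t1 (hB.btw_up hD hBD s2 t2) b2)⟩

lemma split_count (h : Met D w) (hg : Gen w) (Zs Ls : Finset V) (hd : ∀ z ∈ Zs, z ∉ Ls)
    (hs : ∀ z ∈ Zs, ∃ y₁ ∈ Ls, ∃ y₂ ∈ Ls, SplitAt D w z u y₁ y₂) : Zs.card ≤ Ls.card := by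
  classical
  let f : V → ℕ := Encodable.encode
  have hf : Function.Injective f := Encodable.encode_injective
  have key : ∀ z ∈ Zs, ∃ m ∈ Ls, ∃ y ∈ Ls, SplitAt D w z u y m ∧
      (∀ m' ∈ Ls, Btw D w u z m' → f m ≤ f m') ∧ ∀ y' ∈ Ls, SplitAt D w z u y' m → f y ≤ f y' := by
    intro z hz
    obtain ⟨y₁, h1, y₂, h2, hsp⟩ := hs z hz
    obtain ⟨m, hm, hmin⟩ := (Ls.filter fun m => Btw D w u z m).exists_min_image f
      ⟨y₁, mem_filter.2 ⟨h1, hsp.1⟩⟩
    rw [mem_filter] at hm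
    have hne : (Ls.filter fun y => SplitAt D w z u y m).Nonempty := by
      by_contra hc
      have c1 : ¬ SplitAt D w z u y₁ m := fun hh => hc ⟨y₁, mem_filter.2 ⟨h1, hh⟩⟩
      have c2 : ¬ SplitAt D w z u y₂ m := fun hh => hc ⟨y₂, mem_filter.2 ⟨h2, hh⟩⟩
      simp only [SplitAt, not_and, not_forall] at c1 c2
      obtain ⟨s₁, a1, b1, n1⟩ := c1 hsp.1 hm.2
      obtain ⟨s₂, a2, b2, n2⟩ := c2 hsp.2.1 hm.2
      rcases h.total hg b1 b2 with t | t
      · exact n1 (hsp.2.2 _ a1 (h.t1 t a2))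
      · exact n2 (hsp.2.2 _ (h.t1 t a1) a2)
    obtain ⟨y, hy, hymin⟩ := Finset.exists_min_image _ f hne
    rw [mem_filter] at hy
    exact ⟨m, hm.1, y, hy.1, hy.2, fun m' h1 h2 => hmin m' (mem_filter.2 ⟨h1, h2⟩),
      fun y' h1 h2 => hymin y' (mem_filter.2 ⟨h1, h2⟩)⟩
  choose! m hm φ hφ hsp hmin hφmin using key
  have main : ∀ z ∈ Zs, ∀ z' ∈ Zs, φ z = φ z' → Btw D w u z z' → z' = z := by
    intro z hz z' hz' e hb
    by_contra hne
    have s := hsp z hz
    have s' := hsp z' hz'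
    have hzz : Btw D w z z' (φ z) := h.t2 hb (e ▸ s'.1)
    have hm' : Btw D w z z' (m z') := h.t2 hb s'.2.1
    have sp : SplitAt D w z u (m z') (m z) := by
      refine ⟨h.t1 hb s'.2.1, s.2.1, fun t t1 t2 => ?_⟩
      rcases h.total hg t1 hm' with k | k
      · exact s.2.2 _ (h.t1 k hzz) t2
      · exact absurd (s.2.2 _ hzz (h.t1 k t2)) hne
    have i1 := hφmin z hz _ (hm z' hz') sp
    have i2 := hmin z' hz' _ (hφ z' hz') s'.1
    have e2 : φ z' = m z' := hf (by rw [e] at i1; omega)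
    have := s'.2.2 (φ z') (h.btw_right s'.1.m s'.1.r) (e2 ▸ h.btw_right s'.1.m s'.1.r)
    exact hd z' hz' (this ▸ hφ z' hz')
  refine card_le_card_of_injOn φ hφ fun z hz z' hz' e => ?_
  rcases h.total hg (hsp z hz).1 (e ▸ (hsp z' hz').1) with k | k
  · exact (main z hz z' hz' e k).symm
  · exact main z' hz' z hz e.symm k

/-! ### translations -/

def shift (x : V) (w : W) : W := fun e => w (e.map (· + x))

def tr (x : V) : G →g G where
  toFun := (· + x)
  map_rel' := fun {a b} h => by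
    rw [adj_iff] at h ⊢
    simp only [Prod.fst_add, Prod.snd_add]; omega

lemma Te_shift_le {D' : Set V} (x : V) (hD : ∀ y ∈ D, y + x ∈ D')
    (hw : ∀ e, w' (e.map (· + x)) = w e) {a' b' : V} (ha : a' = a + x) (hb : b' = b + x) :
    Te D' w' a' b' ≤ Te D w a b := by
  obtain rfl : a' = tr x a := ha
  obtain rfl : b' = tr x b := hb
  refine le_iInf₂ fun p hp => (iInf₂_le (p.map (tr x)) ?_).trans (le_of_eq ?_)
  · intro y hy
    rw [Walk.support_map, List.mem_map] at hy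
    obtain ⟨y, hy, rfl⟩ := hy
    exact hD y (hp y hy)
  · congr 1
    unfold cost
    rw [Walk.edges_map, List.map_map]
    congr 1
    exact List.map_congr_left fun e _ => hw e

lemma T_shift (x c : V) (n : ℕ) (w : W) (a b : V) :
    T (box (c - x) n) (shift x w) (a - x) (b - x) = T (box c n) w a b := by
  unfold T
  congr 1
  refine le_antisymm (Te_shift_le (-x) ?_ ?_ (by abel) (by abel))
    (Te_shift_le x ?_ (fun e => rfl) (by abel) (by abel))
  · intro y hy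
    simp only [mem_coe, mem_box, Prod.fst_add, Prod.snd_add, Prod.fst_sub, Prod.snd_sub,
      Prod.fst_neg, Prod.snd_neg] at hy ⊢
    omega
  · intro e
    simp only [shift, Sym2.map_map]
    congr 1
    induction e using Sym2.ind with
    | _ x y => simp
  · intro y hy
    simp only [mem_coe, mem_box, Prod.fst_add, Prod.snd_add, Prod.fst_sub, Prod.snd_sub] at hy ⊢
    omega

lemma mem_box_sub {n : ℕ} : a - x ∈ box (c - x) n ↔ a ∈ box c n := by
  simp only [mem_box, Prod.fst_sub, Prod.snd_sub]; omega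

lemma mem_ring_sub {n : ℕ} : a - x ∈ ring (c - x) n ↔ a ∈ ring c n := by
  simp only [mem_ring, Prod.fst_sub, Prod.snd_sub]; omega

lemma btw_shift (x : V) {n : ℕ} :
    Btw (box (c - x) n) (shift x w) (a - x) (z - x) (b - x) ↔ Btw (box c n) w a z b := by
  simp only [Btw, T_shift, mem_coe, mem_box_sub]

lemma split_shift (x : V) {n : ℕ} {v₁ v₂ : V} (h : SplitAt (box c n) w z u v₁ v₂) :
    SplitAt (box (c - x) n) (shift x w) (z - x) (u - x) (v₁ - x) (v₂ - x) := by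
  refine ⟨(btw_shift x).2 h.1, (btw_shift x).2 h.2.1, fun s h1 h2 => ?_⟩
  have e : s = (s + x) - x := by abel
  rw [e] at h1 h2 ⊢
  rw [h.2.2 _ ((btw_shift x).1 h1) ((btw_shift x).1 h2)]

end Vale.Agent.P158
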