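import Vale.Agent.P158.Tails

namespace Vale.Agent.P158
open SimpleGraph Finset MeasureTheory Law

lemma dc1 {A B : Finset V} {n : ℕ} (h : ∀ y ∈ A, box y n ⊆ B) {f : V → ℝ} (hf : ∀ x, 0 ≤ f x) :
    ∑ y ∈ A, ∑ x ∈ box y n, f x ≤ (2 * n + 1) ^ 2 * ∑ x ∈ B, f x := by
  rw [sum_comm' (t' := B) (s' := fun x => A.filter (· ∈ box x n)), mul_sum]
  · refine sum_le_sum fun x _ => ?_
    rw [sum_const, nsmul_eq_mul]
    refine mul_le_mul_of_nonneg_right ?_ (hf x)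
    have := card_le_card (show A.filter (· ∈ box x n) ⊆ box x n from fun y hy => (mem_filter.1 hy).2)
    rw [card_box] at this
    exact_mod_cast this
  · intro y x
    have : x ∈ box y n ↔ y ∈ box x n := by simp only [mem_box]; omega
    rw [mem_filter, ← this]
    exact ⟨fun hh => ⟨hh, h y hh.1 hh.2⟩, fun hh => hh.1⟩

lemma dc2 {A B : Finset V} {n : ℕ} (h : ∀ y ∈ A, box y n ⊆ B) {f : V → ℝ} (hf : ∀ x, 0 ≤ f x) :
    (2 * n + 1) ^ 2 * ∑ y ∈ A, f y ≤ ∑ c ∈ B, ∑ y ∈ box c n, f y := by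
  calc (2 * n + 1) ^ 2 * ∑ y ∈ A, f y = ∑ y ∈ A, ∑ c ∈ box y n, f y := by
        rw [mul_sum]; refine sum_congr rfl fun y _ => ?_
        rw [sum_const, card_box, nsmul_eq_mul]; push_cast; rfl
    _ = ∑ c ∈ B, ∑ y ∈ A.filter (· ∈ box c n), f y := by
        refine sum_comm' fun y x => ?_
        have : x ∈ box y n ↔ y ∈ box x n := by simp only [mem_box]; omega
        rw [mem_filter, ← this]
        exact ⟨fun hh => ⟨hh, h y hh.1 hh.2⟩, fun hh => hh.1⟩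
    _ ≤ _ := sum_le_sum fun c _ =>
        sum_le_sum_of_subset_of_nonneg (fun y hy => (mem_filter.1 hy).2) fun y _ _ => hf y

lemma m_ind {p : W → Prop} (hp : Measurable p) : Measurable fun w => ind (p w) :=
  .ite hp.setOf measurable_const measurable_const

def nb (n : ℕ) : ℕ := ((2 * n + 1) ^ 2 + 1).choose 2

lemma card_sym2_box (c : V) (n : ℕ) : (box c n).sym2.card = nb n := by rw [card_sym2, card_box, nb]

noncomputable def Law.cb (X : Law) (ℓ : ℕ) : ℝ := X.cf (nb ℓ) * (2 * ℓ + 1) ^ 2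

lemma Law.cb_pos (X : Law) (ℓ : ℕ) : 0 < X.cb ℓ := mul_pos (cf_pos _) (by positivity)

namespace Fr
variable (F : Fr)

noncomputable def II : Finset (V × V) := box 0 F.L ×ˢ box 0 F.L

def Ev (X : Law) (U : Set V) (K : ℝ) (ℓ θ : ℕ) (ρ : ℝ) (i : V × V) (y : V) (w : W) : Prop :=
  F.FG w ∧ F.Act U K w i ∧ F.Nr w i y ρ ∧ Med X w y ℓ θ

def Fat (X : Law) (m ℓ θ : ℕ) (ρ : ℝ) (i : V × V) (w : W) : Prop :=
  (m * F.r : ℝ) < ∑ p ∈ box F.c F.r, ind (F.Nr w i p ρ ∧ Med X w p ℓ θ)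

def Many (U : Set V) (K : ℝ) (w : W) : Prop := 8 * F.kmax K w + 4 < (F.Acts U K w).card

structure Gd (X : Law) (M₀ : ℝ) (r₀ : ℕ) (U : Set V) (K : ℝ) : Prop where
  ok : F.Ok
  hM : F.M₀ = M₀
  hr : r₀ ≤ F.r
  far : ∀ u ∈ U, F.Far u
  hK : X.M₁ ≤ K
  ha : X.pr (fun w => F.FG w ∧ F.Many U K w) ≤ 1 / (F.r : ℝ) ^ 3

variable {F} {X : Law} {U : Set V} {K : ℝ}

lemma Ok.n0 (h : F.Ok) (hU : ∀ u ∈ U, F.Far u) {ℓ θ : ℕ} {ρ : ℝ} (hl : ℓ ≤ F.r) (hρ : ρ < θ * X.η)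
    {Q Q' : W → Prop}
    (hQ : ∀ w π s, Mod X π s w → π.card ≤ ℓ → F.Same w (low π s w) → Q w → Q' (low π s w))
    (i : V × V) {y : V} (hy : y ∈ box F.c F.r) :
    X.pr (fun w => F.Ev X U K ℓ θ ρ i y w ∧ Q w) ≤ X.cf (nb ℓ) *
      ∑ x ∈ box y ℓ, X.pr (fun w => F.FG w ∧ F.Act U K w i ∧ F.Nr w i x 0 ∧ Q' w) := by
  refine le_trans ?_ (mul_le_mul_of_nonneg_left (pr_ex _ _) (cf_pos _).le)
  refine (pr_mono_ae (q := fun w => Pos w ∧ F.Ev X U K ℓ θ ρ i y w ∧ Q w) (by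
    filter_upwards [ae_pos] with w hw h using ⟨hw, h⟩)).trans ?_
  rw [← card_sym2_box y ℓ]
  refine fe _ ?_
  rintro w ⟨hw, ⟨hf, ha, hn, hm⟩, hq⟩ s hs
  have m := met (F := F) hw
  obtain ⟨f1, f2⟩ := ha.far h hU
  have yΛ := h.box_sub (by omega) hy
  have i2Λ : i.2 ∈ F.Λ := ring_sub_box f2
  obtain ⟨mm, p₁, p₂, π, ip, gp, n, e, c, c'⟩ := highway (X := X) m yΛ i2Λ (by
    have := h.ring_far f2
    rw [mem_box] at this hy; unfold Ins; omega) hm
  have ends : ∀ e ∈ π, ∀ t ∈ e, t ∈ (box y ℓ : Set V) := fun e' he t ht =>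
    n t (Walk.mem_support_of_mem_edges (e e' he).1 ht)
  have sub : π ⊆ (box y ℓ).sym2 := fun e' he => mem_sym2_iff.2 (ends e' he)
  have b2 : ∀ t ∈ box y ℓ, t ∈ box F.c (2 * F.r) := fun t ht => by rw [mem_box] at *; omega
  have md : Mod X π s w := ⟨hw, fun e' he => (e e' he).2, fun e' he => hs e' (sub he)⟩
  have sm : F.Same w (low π s w) := fun a b ha =>
    md.low.eq _ fun hh => ha (b2 _ (ends _ hh a (Sym2.mem_mk_left _ _)))
  have M' := m.change md.pos'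
  obtain ⟨x, hx, hmin⟩ := (box y ℓ).exists_min_image (F.Fv (low π s w) i) ⟨y, self_mem_box _ _⟩
  refine ⟨π, sub, x, hx, sm.FG.2 hf, ?_, ?_, hQ w π s md c' sm hq⟩
  · obtain ⟨u, hu, v, hv, t, ht, b, e1, e2⟩ := ha
    rw [← sm.rep] at e1 e2
    rcases lt_or_ge (T F.Λ (low π s w) u v) (T F.Λ w u v) with k | k
    · obtain ⟨q, hq, bq⟩ := md.low.hit M' hw _ ends b.l b.r k
      exact ⟨u, hu, v, hv, q, b2 q hq, bq, e1, e2⟩
    · refine ⟨u, hu, v, hv, t, ht, M'.btw b.l b.m b.r ?_, e1, e2⟩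
      linarith [b.eq, m.T_low md.pos' md.low.le b.l b.m, m.T_low md.pos' md.low.le b.m b.r]
  · intro z hz
    rw [sm.Z] at hz
    have zΛ := O_Λ (Z_O hz)
    by_contra hc
    have a1 := hmin y (self_mem_box _ _)
    have a2 := hn z hz
    have a3 := md.cost_gain subset_rfl ip fun e' he => by simp [(e e' he).1]
    have a4 : (θ : ℝ) * X.η ≤ π.card * X.η :=
      mul_le_mul_of_nonneg_right (by exact_mod_cast c) X.η_pos.le
    have a5 := T_le md.pos' gp.inD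
    have a6 := m.T_low md.pos' md.low.le yΛ f1.Λ
    have : T F.Λ (low π s w) z i.1 < T F.Λ w z i.1 ∨ T F.Λ (low π s w) z i.2 < T F.Λ w z i.2 := by
      by_contra hh
      push Not at hh
      unfold Fv at *
      linarith [gp.eq, hh.1, hh.2]
    rcases this with k | k
    · obtain ⟨q, hq, bq⟩ := md.low.hit M' hw _ ends zΛ f1.Λ k
      have := hmin q hq
      unfold Fv at *
      linarith [bq.eq, M'.tri bq.m zΛ i2Λ, T_symm F.Λ (low π s w) z q]
    · obtain ⟨q, hq, bq⟩ := md.low.hit M' hw _ ends zΛ i2Λ k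
      have := hmin q hq
      unfold Fv at *
      linarith [bq.eq, M'.tri bq.m zΛ f1.Λ, T_symm F.Λ (low π s w) z q]

lemma acts_card (w : W) : ((F.Acts U K w).card : ℝ) = ∑ i ∈ F.II, ind (F.Act U K w i) := by
  classical
  unfold Acts II
  convert card_ind _ _

lemma Ok.kmax_le' (h : F.Ok) (hK : X.M₁ ≤ K) {w : W} (hw : Pos w) (hf : F.FG w) :
    (F.kmax K w : ℝ) ≤ 2646 * F.M₀ / X.M₁ * F.r := by
  have := h.kmax_le (K := K) hw hf
  rw [div_mul_eq_mul_div, le_div_iff₀ X.M₁_pos]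
  nlinarith [mul_le_mul_of_nonneg_left hK (Nat.cast_nonneg (α := ℝ) (F.kmax K w))]

lemma Ok.triv (h : F.Ok) (hU : ∀ u ∈ U, F.Far u) (hK : X.M₁ ≤ K) {w : W} (hw : Pos w) (hf : F.FG w) :
    ((F.Acts U K w).card : ℝ) ≤ (2646 * F.M₀ / X.M₁ + 2) ^ 2 * F.r ^ 2 := by
  have h1 : ((F.Acts U K w).card : ℝ) ≤ (F.kmax K w + 2) ^ 2 := by exact_mod_cast h.acts_triv hU
  have h2 := h.kmax_le' hK hw hf
  have h3 : (1 : ℝ) ≤ F.r := by exact_mod_cast h.r1
  rw [← mul_pow]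
  exact h1.trans (pow_le_pow_left₀ (by positivity) (by linarith) 2)

end Fr

open Fr

lemma n1 (X : Law) {M₀ : ℝ} (hM : 0 < M₀) : ∃ C, 0 ≤ C ∧ ∃ r₀ : ℕ, ∀ (F : Fr) U K, F.Gd X M₀ r₀ U K →
    ∀ (ℓ θ : ℕ) (ρ : ℝ), ℓ ≤ F.r → ρ < θ * X.η → ∀ (Q Q' : V × V → W → Prop),
    (∀ i, Measurable (Q' i)) →
    (∀ i w π s, Mod X π s w → π.card ≤ ℓ → F.Same w (low π s w) → F.Act U K w i → Q i w →
      Q' i (low π s w)) →
    ∀ b, 0 ≤ b → X.UB (fun w => ∑ i ∈ F.II, ind (F.FG w ∧ F.Act U K w i ∧ Q' i w)) b →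
    ∑ i ∈ F.II, ∑ y ∈ box F.c F.r, X.pr (fun w => F.Ev X U K ℓ θ ρ i y w ∧ Q i w) ≤
      X.cb ℓ * (C * F.r * (b + 1)) := by
  classical
  obtain ⟨kc, hkc⟩ := exists_nat_gt (49 * M₀ / X.a₁)
  have kc1 : 1 ≤ kc := by
    have : (0 : ℝ) < kc := lt_trans (div_pos (by linarith) X.a₁_pos) hkc
    exact_mod_cast this
  rw [div_lt_iff₀ X.a₁_pos] at hkc
  obtain ⟨r₀, hr₀⟩ := Filter.eventually_atTop.1 ((tendsto_pow_const_div_const_pow_of_one_lt 5
    (show (1 : ℝ) < 2 by norm_num)).eventually (gt_mem_nhds (show (0 : ℝ) < 1 / 225 by norm_num)))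
  set c₁ := (2646 * M₀ / X.M₁ + 2) ^ 2 with hc₁
  have c0 : 0 ≤ c₁ := by positivity
  refine ⟨4 * kc + 25 * c₁, by positivity, r₀, fun F U K g ℓ θ ρ hl hρ Q Q' mQ hQ b b0 ub => ?_⟩
  have h := g.ok
  have r1 : (1 : ℝ) ≤ F.r := by exact_mod_cast h.r1
  let tg : V × V → V → W → Prop := fun i x w => F.FG w ∧ F.Act U K w i ∧ F.Nr w i x 0 ∧ Q' i w
  have s1 : ∑ i ∈ F.II, ∑ y ∈ box F.c F.r, X.pr (fun w => F.Ev X U K ℓ θ ρ i y w ∧ Q i w) ≤
      X.cb ℓ * ∑ i ∈ F.II, ∑ x ∈ box F.c (2 * F.r), X.pr (tg i x) := by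
    rw [mul_sum]
    refine sum_le_sum fun i _ => ?_
    refine (sum_le_sum fun y hy => (pr_mono fun w hw => ?_).trans (h.n0 (K := K) g.far hl hρ
      (Q := fun w => F.Act U K w i ∧ Q i w) (Q' := Q' i)
      (fun w π s a1 a2 a3 a4 => hQ i w π s a1 a2 a3 a4.1 a4.2) i hy)).trans ?_
    · exact ⟨hw.1, hw.1.2.1, hw.2⟩
    · rw [← mul_sum, Law.cb, mul_assoc]
      exact mul_le_mul_of_nonneg_left (dc1 (fun y hy t ht => by rw [mem_box] at *; omega)
        fun _ => pr_nonneg) (cf_pos _).le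
  refine s1.trans (mul_le_mul_of_nonneg_left ?_ (X.cb_pos ℓ).le)
  rw [← sum_product']
  refine UB.sum_le (p := fun t : (V × V) × V => tg t.1 t.2)
    (fun t => .and F.m_FG (.and (F.m_Act ..) (.and (F.m_Nr ..) (mQ _)))) ?_
  refine ((ub.mul (c := 4 * (kc * F.r : ℕ)) (by positivity)).add
    ((ub_ind fun w => ¬ MB X F.c (4 * F.r + 3) (kc * F.r) w).mul (c := c₁ * F.r ^ 2 * (25 * F.r ^ 2))
      (by positivity))).mono ?_ ?_
  · filter_upwards [ae_pos, ae_gen] with w hw hg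
    rw [sum_product]
    have nn : 0 ≤ ∑ i ∈ F.II, ind (F.FG w ∧ F.Act U K w i ∧ Q' i w) :=
      sum_nonneg fun _ _ => ind_nonneg _
    by_cases hf : F.FG w
    swap
    · have : ∀ i x, ind (tg i x w) = 0 := fun i x => ind_false fun hh => hf hh.1
      simp only [this, sum_const_zero]
      have := ind_nonneg (¬ MB X F.c (4 * F.r + 3) (kc * F.r) w)
      positivity
    by_cases hm : MB X F.c (4 * F.r + 3) (kc * F.r) w
    · rw [ind_false (not_not.2 hm), mul_zero, add_zero, mul_sum]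
      refine sum_le_sum fun i _ => ?_
      by_cases hi : F.FG w ∧ F.Act U K w i ∧ Q' i w
      · rw [ind_true hi, mul_one]
        obtain ⟨f1, f2⟩ := hi.2.1.far h g.far
        have := h.opt_count hw hg hf hm (by
          push_cast; rw [g.hM]; nlinarith) (h.far_O f1) (h.ring_O f2)
        refine le_trans (sum_le_sum fun x _ => ind_mono fun hh => hh.2.2.1) ?_
        rw [← card_ind]
        exact_mod_cast this
      · rw [ind_false hi, mul_zero]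
        exact le_of_eq (sum_eq_zero fun x _ => ind_false fun hh => hi ⟨hh.1, hh.2.1, hh.2.2.2⟩)
    · rw [ind_true hm, mul_one]
      refine le_add_of_nonneg_of_le (by positivity) ?_
      have t := h.triv (X := X) (K := K) g.far g.hK hw hf
      rw [acts_card, g.hM] at t
      refine le_trans ?_ (mul_le_mul_of_nonneg_right t (by positivity))
      rw [sum_mul]
      refine sum_le_sum fun i _ => (sum_le_card_nsmul _ _ (ind (F.Act U K w i))
        fun x _ => ind_mono fun hh => hh.2.1).trans ?_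
      rw [card_box, nsmul_eq_mul, mul_comm]
      refine mul_le_mul_of_nonneg_left ?_ (ind_nonneg _)
      push_cast; nlinarith
  · have p1 := pr_mb (X := X) F.c (4 * F.r + 3) (kc * F.r)
    have p2 : ((1 : ℝ) / 2) ^ (kc * F.r) ≤ (1 / 2) ^ F.r :=
      pow_le_pow_of_le_one (by norm_num) (by norm_num) (Nat.le_mul_of_pos_left _ kc1)
    have p3 := hr₀ F.r g.hr
    have p4 : (F.r : ℝ) ^ 3 * X.pr (fun w => ¬ MB X F.c (4 * F.r + 3) (kc * F.r) w) ≤ 1 := by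
      have : (2 * ((4 * F.r + 3 : ℕ) : ℝ) + 1) ^ 2 ≤ 225 * F.r ^ 2 := by push_cast; nlinarith
      have p5 := p1.trans (mul_le_mul this p2 (by positivity) (by positivity))
      refine (mul_le_mul_of_nonneg_left p5 (by positivity)).trans ?_
      rw [one_div_pow]
      rw [div_lt_iff₀ (by positivity)] at p3
      rw [mul_one_div, mul_div_assoc', div_le_one (by positivity)]
      nlinarith
    have p6 : c₁ * F.r * (F.r ^ 3 * X.pr (fun w => ¬ MB X F.c (4 * F.r + 3) (kc * F.r) w)) ≤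
        c₁ * F.r * 1 := mul_le_mul_of_nonneg_left p4 (by positivity)
    have : (0 : ℝ) ≤ kc := by positivity
    push_cast
    nlinarith [mul_nonneg (mul_nonneg c0 b0) (zero_le_one.trans r1), mul_nonneg this (zero_le_one.trans r1)]

theorem near (X : Law) {M₀ : ℝ} (hM : 0 < M₀) : ∃ C, 0 ≤ C ∧ ∃ r₀ : ℕ, ∀ (F : Fr) U K,
    F.Gd X M₀ r₀ U K → ∀ (ℓ θ : ℕ) (ρ : ℝ), ℓ ≤ F.r → ρ < θ * X.η →
    ∑ i ∈ F.II, ∑ y ∈ box F.c F.r, X.pr (F.Ev X U K ℓ θ ρ i y) ≤ X.cb ℓ * C * F.r ^ 2 := by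
  obtain ⟨C, C0, r₀, h⟩ := n1 X hM
  set c₀ := 2646 * M₀ / X.M₁ with hc₀
  have c0 : 0 ≤ c₀ := div_nonneg (by linarith) X.M₁_pos.le
  refine ⟨C * (8 * c₀ + 4 + (c₀ + 2) ^ 2 + 1), by positivity, r₀, fun F U K g ℓ θ ρ hl hρ => ?_⟩
  have r1 : (1 : ℝ) ≤ F.r := by exact_mod_cast g.ok.r1
  have := h F U K g ℓ θ ρ hl hρ (fun _ _ => True) (fun _ _ => True) (fun _ => measurable_const)
    (fun _ _ _ _ _ _ _ _ _ => trivial) ((8 * c₀ + 4 + (c₀ + 2) ^ 2) * F.r) (by positivity) ?_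
  · simp only [and_true] at this
    refine this.trans ?_
    rw [mul_assoc (X.cb ℓ)]
    refine mul_le_mul_of_nonneg_left ?_ (X.cb_pos ℓ).le
    nlinarith [mul_nonneg C0 (mul_nonneg (zero_le_one.trans r1) (sub_nonneg.2 r1))]
  · refine ((ub_const ((8 * c₀ + 4) * F.r)).add ((ub_ind fun w => F.FG w ∧ F.Many U K w).mul
      (c := (c₀ + 2) ^ 2 * F.r ^ 2) (by positivity))).mono ?_ ?_
    · filter_upwards [ae_pos] with w hw
      by_cases hf : F.FG w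
      swap
      · rw [sum_eq_zero fun i _ => ind_false fun hh => hf hh.1, ind_false fun hh => hf hh.1]
        positivity
      refine (sum_le_sum fun i _ => ind_mono fun hh => hh.2.1).trans ?_
      rw [← acts_card]
      by_cases hm : F.Many U K w
      · rw [ind_true ⟨hf, hm⟩, mul_one]
        have := g.ok.triv (X := X) (K := K) g.far g.hK hw hf
        rw [g.hM] at this
        exact le_add_of_nonneg_of_le (by positivity) this
      · rw [ind_false fun hh => hm hh.2, mul_zero, add_zero]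
        have h1 : ((F.Acts U K w).card : ℝ) ≤ 8 * F.kmax K w + 4 := by exact_mod_cast not_lt.1 hm
        have h2 := g.ok.kmax_le' g.hK hw hf
        rw [g.hM] at h2
        nlinarith
    · have h1 := mul_le_mul_of_nonneg_left g.ha (show 0 ≤ (c₀ + 2) ^ 2 * F.r ^ 2 by positivity)
      have h2 : (F.r : ℝ) ^ 2 * (1 / F.r ^ 3) ≤ F.r := by
        rw [mul_one_div, div_le_iff₀ (by positivity)]
        nlinarith [pow_le_pow_right₀ r1 (show 2 ≤ 4 by norm_num)]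
      nlinarith [mul_le_mul_of_nonneg_left h2 (show 0 ≤ (c₀ + 2) ^ 2 by positivity)]

theorem thin (X : Law) {M₀ : ℝ} (hM : 0 < M₀) (ℓ θ ℓ' θ' : ℕ) (ρ : ℝ) (hρ : ρ < θ * X.η)
    (hρ' : ρ + 2 * ℓ * X.M₁ < (θ' - ℓ : ℕ) * X.η) : ∃ C, 0 ≤ C ∧ ∃ r₀ : ℕ, ∀ (F : Fr) U K,
    F.Gd X M₀ r₀ U K → ∀ m : ℕ, 1 ≤ m →
    ∑ i ∈ F.II, ∑ y ∈ box F.c F.r, X.pr (fun w => F.Ev X U K ℓ θ ρ i y w ∧ F.Fat X m ℓ' θ' ρ i w) ≤
      C * (F.r ^ 2 / m + F.r) := by
  obtain ⟨C, C0, r₀, h⟩ := n1 X hM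
  obtain ⟨C', C0', r₀', h'⟩ := near X hM
  have cb1 := (X.cb_pos ℓ).le
  have cb2 := (X.cb_pos ℓ').le
  refine ⟨X.cb ℓ * C * (X.cb ℓ' * C' + 1), by positivity, max (max r₀ r₀') (max ℓ ℓ'),
    fun F U K g m hm => ?_⟩
  have hr := g.hr
  have r1 : (1 : ℝ) ≤ F.r := by exact_mod_cast g.ok.r1
  have m1 : (1 : ℝ) ≤ m := by exact_mod_cast hm
  have g1 : F.Gd X M₀ r₀ U K := { g with hr := by omega }
  have g2 : F.Gd X M₀ r₀' U K := { g with hr := by omega }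
  have := h F U K g1 ℓ θ ρ (by omega) hρ (F.Fat X m ℓ' θ' ρ)
    (F.Fat X m ℓ' (θ' - ℓ) (ρ + 2 * ℓ * X.M₁))
    (fun i => measurable_const.lt (Finset.measurable_sum _ fun p _ =>
      m_ind (.and (F.m_Nr ..) (m_med ..))))
    (fun i w π s md c sm ha hq => ?_) (X.cb ℓ' * C' * F.r / m) (by positivity) ?_
  · refine this.trans ?_
    have e : X.cb ℓ * (C * F.r * (X.cb ℓ' * C' * F.r / m + 1)) =
        X.cb ℓ * C * (X.cb ℓ' * C' * (F.r ^ 2 / m) + F.r) := by ring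
    rw [e, mul_assoc (X.cb ℓ * C)]
    refine mul_le_mul_of_nonneg_left ?_ (by positivity)
    have : (0 : ℝ) ≤ F.r ^ 2 / m := by positivity
    nlinarith [mul_nonneg (mul_nonneg cb2 C0') (zero_le_one.trans r1)]
  · refine lt_of_lt_of_le hq (sum_le_sum fun p hp => ind_mono fun hh => ⟨fun z hz => ?_,
      (hh.2.change md.low.eq).mono (by omega)⟩)
    rw [sm.Z] at hz
    obtain ⟨f1, f2⟩ := ha.far g.ok g.far
    have m := met (F := F) md.pos
    have pΛ := g.ok.box_sub (by omega) hp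
    have zΛ := O_Λ (Z_O hz)
    have i2Λ : i.2 ∈ F.Λ := ring_sub_box f2
    have := hh.1 z hz
    have c' : (π.card : ℝ) * X.M₁ ≤ ℓ * X.M₁ :=
      mul_le_mul_of_nonneg_right (by exact_mod_cast c) X.M₁_pos.le
    unfold Fv at *
    linarith [m.T_low md.pos' md.low.le pΛ f1.Λ, m.T_low md.pos' md.low.le pΛ i2Λ,
      md.T_ge m zΛ f1.Λ, md.T_ge m zΛ i2Λ]
  · have u := ub_sum F.II fun i _ => ub_sum_ind (X := X) (box F.c F.r)
      (F.Ev X U K ℓ' (θ' - ℓ) (ρ + 2 * ℓ * X.M₁) i)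
    refine (u.mul (c := 1 / (m * F.r)) (by positivity)).mono (.of_forall fun w => ?_) ?_
    · rw [mul_sum]
      refine sum_le_sum fun i _ => ?_
      by_cases hi : F.FG w ∧ F.Act U K w i ∧ F.Fat X m ℓ' (θ' - ℓ) (ρ + 2 * ℓ * X.M₁) i w
      · rw [ind_true hi, one_div_mul_eq_div, le_div_iff₀ (by positivity), one_mul]
        exact hi.2.2.le.trans (sum_le_sum fun p _ => ind_mono fun hh => ⟨hi.1, hi.2.1, hh⟩)
      · rw [ind_false hi]
        exact mul_nonneg (by positivity) (sum_nonneg fun _ _ => ind_nonneg _)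
    · refine (mul_le_mul_of_nonneg_left (h' F U K g2 _ _ _ (by omega) hρ') (by positivity)).trans
        (le_of_eq ?_)
      field_simp

end Vale.Agent.P158
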