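import Vale.Agent.P158.Split

namespace Vale.Agent.P158
open SimpleGraph Finset MeasureTheory ProbabilityTheory

attribute [instance] Law.prob Law.na

open Classical in
noncomputable def ind (p : Prop) : ℝ := if p then 1 else 0

lemma ind_nonneg (p : Prop) : 0 ≤ ind p := by unfold ind; split_ifs <;> norm_num
lemma ind_true {p : Prop} (h : p) : ind p = 1 := if_pos h
lemma ind_false {p : Prop} (h : ¬ p) : ind p = 0 := if_neg h
lemma ind_mono {p q : Prop} (h : p → q) : ind p ≤ ind q := by
  by_cases hp : p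
  · rw [ind_true hp, ind_true (h hp)]
  · rw [ind_false hp]; exact ind_nonneg _

lemma card_ind {ι : Type*} (I : Finset ι) (p : ι → Prop) [DecidablePred p] :
    ((I.filter p).card : ℝ) = ∑ t ∈ I, ind (p t) := by
  rw [card_filter]; push_cast
  exact sum_congr rfl fun t _ => by unfold ind; congr

namespace Law
variable (X : Law)

noncomputable def P : Measure W := Measure.infinitePi fun _ => X.μ

instance : IsProbabilityMeasure X.P := by unfold P; infer_instance

noncomputable def pr (p : W → Prop) : ℝ := X.P.real {w | p w}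

variable {X} {p q : W → Prop}

lemma pr_nonneg : 0 ≤ X.pr p := measureReal_nonneg
lemma pr_le_one : X.pr p ≤ 1 := measureReal_le_one

lemma pr_mono_ae (h : ∀ᵐ w ∂X.P, p w → q w) : X.pr p ≤ X.pr q :=
  ENNReal.toReal_mono (measure_ne_top _ _) (measure_mono_ae h)

lemma pr_mono (h : ∀ w, p w → q w) : X.pr p ≤ X.pr q := pr_mono_ae (.of_forall h)

lemma pr_or : X.pr (fun w => p w ∨ q w) ≤ X.pr p + X.pr q := measureReal_union_le _ _

lemma pr_ex {ι : Type*} (I : Finset ι) (p : ι → W → Prop) :
    X.pr (fun w => ∃ t ∈ I, p t w) ≤ ∑ t ∈ I, X.pr (p t) := by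
  refine le_trans (le_of_eq ?_) (measureReal_biUnion_finset_le I fun t => {w | p t w})
  unfold pr; congr 1; ext w; simp

lemma pr_ex_le {ι : Type*} (I : Finset ι) (p : ι → W → Prop) {b : ℝ} (h : ∀ t ∈ I, X.pr (p t) ≤ b) :
    X.pr (fun w => ∃ t ∈ I, p t w) ≤ I.card * b :=
  (pr_ex I p).trans (by simpa using sum_le_card_nsmul _ _ _ h)

open Classical in
lemma resample (π : Set (Sym2 V)) :
    (X.P.prod X.P).map (fun p : W × W => fun e => if e ∈ π then p.2 e else p.1 e) = X.P := by
  have hm : Measurable fun p : W × W => fun e => if e ∈ π then p.2 e else p.1 e := by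
    refine measurable_pi_lambda _ fun e => ?_
    split_ifs <;> fun_prop
  refine Measure.eq_infinitePi _ fun s t ht => ?_
  rw [Measure.map_apply hm (.pi s.countable_toSet fun _ _ => ht _)]
  have : (fun p : W × W => fun e => if e ∈ π then p.2 e else p.1 e) ⁻¹' (Set.pi s t) =
      Set.pi (s.filter (· ∉ π) : Finset _) t ×ˢ Set.pi (s.filter (· ∈ π) : Finset _) t := by
    ext ⟨a, b⟩
    simp only [Set.mem_preimage, Set.mem_pi, mem_coe, Set.mem_prod, mem_filter]
    constructor
    · intro h
      exact ⟨fun e he => by simpa [he.2] using h e he.1, fun e he => by simpa [he.2] using h e he.1⟩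
    · intro h e he
      split_ifs with h'
      · exact h.2 e ⟨he, h'⟩
      · exact h.1 e ⟨he, h'⟩
  rw [this, Measure.prod_prod, P, Measure.infinitePi_pi _ fun _ _ => ht _,
    Measure.infinitePi_pi _ fun _ _ => ht _, mul_comm, prod_filter_mul_prod_filter_not]

lemma measurable_low (π : Finset (Sym2 V)) : Measurable fun p : W × W => low π p.2 p.1 := by
  refine measurable_pi_lambda _ fun e => ?_
  unfold low
  split_ifs <;> fun_prop

lemma map_low (π : Finset (Sym2 V)) : (X.P.prod X.P).map (fun p : W × W => low π p.2 p.1) = X.P := by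
  convert resample (X := X) (π : Set (Sym2 V)) using 2
  funext p e
  simp [low]

lemma pr_all (E : Finset (Sym2 V)) {B : Set ℝ} (hB : MeasurableSet B) :
    X.pr (fun w => ∀ e ∈ E, w e ∈ B) = X.μ.real B ^ E.card := by
  have := Measure.infinitePi_pi (fun _ : Sym2 V => X.μ) (s := E) (t := fun _ => B) fun _ _ => hB
  rw [prod_const] at this
  unfold pr Measure.real
  rw [← ENNReal.toReal_pow, ← this]
  rfl

noncomputable def cf (X : Law) (n : ℕ) : ℝ := (2 / X.μ.real (Set.Ioc 0 X.a)) ^ n

lemma g_pos (X : Law) : 0 < X.μ.real (Set.Ioc 0 X.a) := ENNReal.toReal_pos X.g (measure_ne_top _ _)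

lemma cf_pos (n : ℕ) : 0 < X.cf n := pow_pos (div_pos two_pos X.g_pos) n

theorem fe (N : Finset (Sym2 V))
    (h : ∀ w, p w → ∀ s : W, (∀ e ∈ N, s e ∈ Set.Ioc 0 X.a) → ∃ π ⊆ N, q (low π s w)) :
    X.pr p ≤ X.cf N.card * X.pr q := by
  have h1 : (X.P.prod X.P).real ({w | p w} ×ˢ {s | ∀ e ∈ N, s e ∈ Set.Ioc 0 X.a}) ≤
      ∑ π ∈ N.powerset, (X.P.prod X.P).real ((fun p : W × W => low π p.2 p.1) ⁻¹' {w | q w}) := by
    refine le_trans (measureReal_mono ?_ (measure_ne_top _ _)) (measureReal_biUnion_finset_le _ _)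
    rintro ⟨w, s⟩ ⟨hw, hs⟩
    obtain ⟨π, h1, h2⟩ := h w hw s hs
    simp only [Set.mem_iUnion]
    exact ⟨π, mem_powerset.2 h1, h2⟩
  have h2 : ∀ π ∈ N.powerset,
      (X.P.prod X.P).real ((fun p : W × W => low π p.2 p.1) ⁻¹' {w | q w}) ≤ X.pr q := fun π _ => by
    refine ENNReal.toReal_mono (measure_ne_top _ _) ?_
    have := Measure.le_map_apply (μ := X.P.prod X.P) (measurable_low π).aemeasurable {w | q w}
    rwa [map_low] at this
  have h3 := h1.trans (sum_le_card_nsmul _ _ _ h2)
  rw [measureReal_prod_prod, card_powerset, nsmul_eq_mul] at h3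
  have h4 := pr_all (X := X) N (measurableSet_Ioc (a := 0) (b := X.a))
  unfold pr at h4
  rw [h4] at h3
  rw [cf, div_pow, div_mul_eq_mul_div, le_div_iff₀ (pow_pos X.g_pos _)]
  exact_mod_cast h3

lemma pr_eval (e : Sym2 V) (B : Set ℝ) : X.P {w | w e ∈ B} ≤ X.μ B := by
  have := Measure.le_map_apply (μ := X.P) (f := fun w : W => w e)
    (measurable_pi_apply e).aemeasurable B
  rwa [P, Measure.infinitePi_map_eval] at this

lemma ae_pos : ∀ᵐ w ∂X.P, Pos w := by
  refine ae_all_iff.2 fun e => ?_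
  refine le_antisymm (le_trans (le_of_eq ?_) ((pr_eval e (Set.Iic 0)).trans X.pos.le)) bot_le
  congr 1; ext w; simp

lemma m_sum (l : List (Sym2 V)) : Measurable fun w : W => (l.map w).sum := by
  induction l with
  | nil => simp
  | cons a l ih => simp only [List.map_cons, List.sum_cons]; fun_prop

lemma ae_gen : ∀ᵐ w ∂X.P, Gen w := by
  refine ae_all_iff.2 fun l₁ => ae_all_iff.2 fun l₂ => ?_
  have : ∀ e, ∀ᵐ w ∂X.P, (l₁.map w).sum = (l₂.map w).sum → e ∈ l₁ → e ∈ l₂ := by
    intro e
    by_cases h1 : e ∈ l₁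
    swap
    · simp [h1]
    by_cases h2 : e ∈ l₂
    · simp [h2]
    have hm : MeasurableSet {w : W | (l₁.map w).sum = (l₂.map w).sum} :=
      measurableSet_eq_fun (m_sum l₁) (m_sum l₂)
    have : X.P {w : W | (l₁.map w).sum = (l₂.map w).sum} = 0 := by
      rw [← map_low {e}, Measure.map_apply (measurable_low _) hm,
        Measure.measure_prod_null ((measurable_low _) hm)]
      refine .of_forall fun w => ?_
      let B : Set ℝ := {x | (l₁.map (low {e} (fun _ => x) w)).sum = (l₂.map w).sum}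
      have hB : B.Subsingleton := by
        have : StrictMono fun x => (l₁.map (low {e} (fun _ => x) w)).sum := fun x y hxy =>
          List.sum_lt_sum _ _ (fun i _ => by unfold low; split_ifs <;> linarith)
            ⟨e, h1, by simpa [low] using hxy⟩
        exact fun x hx y hy => this.injective (hx.trans hy.symm)
      refine le_antisymm (le_trans (measure_mono ?_) ((pr_eval e B).trans (hB.measure_zero _).le)) bot_le
      intro s hs
      simp only [Set.mem_preimage, Set.mem_ofPred_eq, B] at hs ⊢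
      have e1 : low {e} (fun _ => s e) w = low {e} s w := by
        funext t; unfold low; split_ifs with ht
        · rw [mem_singleton.1 ht]
        · rfl
      rw [e1, hs]
      congr 1
      exact List.map_congr_left fun t ht => if_neg fun hh => h2 (by rw [← mem_singleton.1 hh]; exact ht)
    filter_upwards [measure_eq_zero_iff_ae_notMem.1 this] with w hw h using absurd h hw
  filter_upwards [ae_all_iff.2 this] with w hw h e using hw e h

lemma pr_many (E : Finset (Sym2 V)) {B : Set ℝ} (hB : MeasurableSet B) (k : ℕ)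
    [∀ w : W, DecidablePred fun e => w e ∈ B] :
    X.pr (fun w => k ≤ (E.filter fun e => w e ∈ B).card) ≤ 2 ^ E.card * X.μ.real B ^ k := by
  refine (pr_mono (q := fun w => ∃ s ∈ E.powersetCard k, ∀ e ∈ s, w e ∈ B) fun w hw => ?_).trans
    ((pr_ex_le _ _ (b := X.μ.real B ^ k) fun s hs => ?_).trans ?_)
  · obtain ⟨s, h1, h2⟩ := exists_subset_card_eq hw
    exact ⟨s, mem_powersetCard.2 ⟨h1.trans (filter_subset _ _), h2⟩, fun e he => (mem_filter.1 (h1 he)).2⟩
  · rw [pr_all s hB, (mem_powersetCard.1 hs).2]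
  · refine mul_le_mul_of_nonneg_right ?_ (pow_nonneg measureReal_nonneg _)
    rw [card_powersetCard]
    exact_mod_cast Nat.choose_le_two_pow _ _

lemma pr_shift (x : V) (p : W → Prop) : X.pr (fun w => p (shift x w)) ≤ X.pr p := by
  refine ENNReal.toReal_mono (measure_ne_top _ _) ?_
  have := Measure.le_map_apply (μ := X.P) (f := shift x)
    (Measurable.aemeasurable (measurable_pi_lambda _ fun e => by unfold shift; fun_prop)) {w | p w}
  have e : X.P.map (shift x) = X.P :=
    Measure.map_infinitePi_infinitePi_of_inj (P := fun _ : Sym2 V => X.μ)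
      (f := Sym2.map (· + x)) (Sym2.map.injective (add_left_injective x))
  rwa [e] at this

/-! upper bounds for expectations -/

def UB (X : Law) (f : W → ℝ) (b : ℝ) : Prop :=
  ∃ g, Integrable g X.P ∧ (∀ᵐ w ∂X.P, f w ≤ g w) ∧ ∫ w, g w ∂X.P ≤ b

variable {f f' : W → ℝ} {b b' : ℝ}

lemma UB.mono (h : X.UB f b) (hf : ∀ᵐ w ∂X.P, f' w ≤ f w) (hb : b ≤ b') : X.UB f' b' := by
  obtain ⟨g, h1, h2, h3⟩ := h
  exact ⟨g, h1, by filter_upwards [hf, h2] with w a b using a.trans b, h3.trans hb⟩

lemma UB.add (h : X.UB f b) (h' : X.UB f' b') : X.UB (fun w => f w + f' w) (b + b') := by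
  obtain ⟨g, h1, h2, h3⟩ := h
  obtain ⟨g', h1', h2', h3'⟩ := h'
  exact ⟨fun w => g w + g' w, h1.add h1',
    by filter_upwards [h2, h2'] with w a b using add_le_add a b,
    by rw [integral_add h1 h1']; exact add_le_add h3 h3'⟩

lemma UB.mul (h : X.UB f b) {c : ℝ} (hc : 0 ≤ c) : X.UB (fun w => c * f w) (c * b) := by
  obtain ⟨g, h1, h2, h3⟩ := h
  exact ⟨fun w => c * g w, h1.const_mul c,
    by filter_upwards [h2] with w a using mul_le_mul_of_nonneg_left a hc,
    by rw [integral_const_mul]; exact mul_le_mul_of_nonneg_left h3 hc⟩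

lemma ub_const (c : ℝ) : X.UB (fun _ => c) c := ⟨fun _ => c, integrable_const _, by simp, by simp⟩

lemma ub_sum {ι : Type*} (I : Finset ι) {f : ι → W → ℝ} {b : ι → ℝ} (h : ∀ t ∈ I, X.UB (f t) (b t)) :
    X.UB (fun w => ∑ t ∈ I, f t w) (∑ t ∈ I, b t) := by
  classical
  induction I using Finset.induction_on with
  | empty => simpa using ub_const 0
  | insert a I ha ih =>
    simp only [sum_insert ha]
    exact (h a (mem_insert_self _ _)).add (ih fun t ht => h t (mem_insert_of_mem ht))

lemma ub_ind (p : W → Prop) : X.UB (fun w => ind (p w)) (X.pr p) := by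
  refine ⟨(toMeasurable X.P {w | p w}).indicator 1, (integrable_const 1).indicator
    (measurableSet_toMeasurable _ _), .of_forall fun w => ?_, ?_⟩
  · beta_reduce
    by_cases h : p w
    · rw [ind_true h, Set.indicator_of_mem (subset_toMeasurable X.P {w | p w} h)]; rfl
    · rw [ind_false h]; exact Set.indicator_nonneg (fun _ _ => zero_le_one) _
  · rw [integral_indicator_one (measurableSet_toMeasurable _ _), pr, Measure.real, Measure.real,
      measure_toMeasurable]

lemma ub_sum_ind {ι : Type*} (I : Finset ι) (p : ι → W → Prop) :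
    X.UB (fun w => ∑ t ∈ I, ind (p t w)) (∑ t ∈ I, X.pr (p t)) := ub_sum I fun t _ => ub_ind (p t)

lemma UB.sum_le {ι : Type*} {I : Finset ι} {p : ι → W → Prop} (hm : ∀ t, Measurable (p t))
    (h : X.UB (fun w => ∑ t ∈ I, ind (p t w)) b) : ∑ t ∈ I, X.pr (p t) ≤ b := by
  obtain ⟨g, h1, h2, h3⟩ := h
  have e : ∀ t, (fun w => ind (p t w)) = Set.indicator {w | p t w} 1 := fun t => by
    funext w
    by_cases h : p t w
    · rw [ind_true h, Set.indicator_of_mem (show w ∈ {w | p t w} from h)]; rfl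
    · rw [ind_false h, Set.indicator_of_notMem (show w ∉ {w | p t w} from h)]
  have i : ∀ t ∈ I, Integrable (fun w => ind (p t w)) X.P := fun t _ => by
    rw [e]; exact (integrable_const 1).indicator (hm t).setOf
  refine le_trans (le_of_eq ?_) ((integral_mono_ae (integrable_finsetSum _ i) h1 h2).trans h3)
  rw [integral_finsetSum _ i]
  exact sum_congr rfl fun t _ => by rw [e, integral_indicator_one (hm t).setOf]; rfl

lemma UB.pr_le {c : ℝ} (hc : 0 ≤ c) (h : X.UB (fun w => c * ind (p w)) b) : c * X.pr p ≤ b := by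
  obtain ⟨g, h1, h2, h3⟩ := h
  have h0 : 0 ≤ᵐ[X.P] g := by
    filter_upwards [h2] with w hw using (mul_nonneg hc (ind_nonneg _)).trans hw
  refine le_trans (mul_le_mul_of_nonneg_left (pr_mono_ae (q := fun w => c ≤ g w) ?_) hc)
    ((mul_meas_ge_le_integral_of_nonneg h0 h1 c).trans h3)
  filter_upwards [h2] with w hw hp
  rwa [ind_true hp, mul_one] at hw

lemma tail (μ : Measure ℝ) [IsProbabilityMeasure μ] {ε : ℝ} (hε : 0 < ε) :
    ∃ H, 0 < H ∧ μ.real (Set.Ioi H) ≤ ε := by
  obtain ⟨H, h1, h2⟩ := (((tendsto_cdf_atTop μ).eventually (lt_mem_nhds (show 1 - ε < 1 by linarith))).and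
    (Filter.eventually_gt_atTop 0)).exists
  refine ⟨H, h2, ?_⟩
  rw [← Set.compl_Iic, probReal_compl_eq_one_sub measurableSet_Iic, ← cdf_eq_real]
  linarith

end Law

theorem exists_law (μ : Measure ℝ) [hp : IsProbabilityMeasure μ] [hn : NullSingletonClass μ]
    (h0 : μ (Set.Iio 0) = 0) : ∃ X : Law, X.μ = μ := by
  have hz : ∀ s, μ (Set.Iio s) = 0 → μ (Set.Iic s) = 0 := fun s hs => by
    rw [← measure_congr Iio_ae_eq_Iic]; exact hs
  let S : Set ℝ := {t | μ (Set.Iic t) ≠ 0}
  obtain ⟨H, H0, hH⟩ := Law.tail μ (show (0 : ℝ) < 1 / 1296 by norm_num)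
  have hne : S.Nonempty := ⟨H, fun hh => by
    rw [← Set.compl_Iic, probReal_compl_eq_one_sub measurableSet_Iic, Measure.real, hh] at hH
    norm_num at hH⟩
  have hlb : ∀ t ∈ S, 0 ≤ t := fun t ht => by
    by_contra hc
    exact ht (measure_mono_null (Set.Iic_subset_Iio.2 (not_le.1 hc)) h0)
  have hs : μ (Set.Iic (sInf S)) = 0 := hz _ (measure_null_of_locally_null _ fun x hx =>
    ⟨Set.Iic ((x + sInf S) / 2), mem_nhdsWithin_of_mem_nhds (Iic_mem_nhds (by
      have : x < sInf S := hx
      linarith)), by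
      by_contra hc
      have : x < sInf S := hx
      linarith [csInf_le ⟨0, hlb⟩ (show (x + sInf S) / 2 ∈ S from hc)]⟩)
  have hc : cdf μ (sInf S) < 1 / 1296 := by rw [cdf_eq_real, Measure.real, hs]; norm_num
  obtain ⟨a₁, h1, h2⟩ := ((((cdf μ).right_continuous (sInf S)).mono Set.Ioi_subset_Ici_self).eventually
    (gt_mem_nhds hc) |>.and self_mem_nhdsWithin).exists
  have h2 : sInf S < a₁ := h2
  have s0 : 0 ≤ sInf S := le_csInf hne hlb
  refine ⟨⟨μ, hp, hn, hz 0 h0, (sInf S + a₁) / 2, a₁, max H (a₁ + 1), by linarith, by linarith,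
    lt_max_of_lt_right (by linarith), fun hh => ?_, ?_⟩, rfl⟩
  · obtain ⟨t, ht, ht'⟩ := exists_lt_of_csInf_lt hne (show sInf S < (sInf S + a₁) / 2 by linarith)
    refine ht (measure_mono_null (t := Set.Iic 0 ∪ Set.Ioc 0 ((sInf S + a₁) / 2)) (fun x hx => ?_)
      (measure_union_null (hz 0 h0) hh))
    rcases le_or_gt x 0 with c | c
    · exact .inl c
    · exact .inr ⟨c, (le_trans hx ht'.le)⟩
  · refine (measureReal_mono (s₂ := Set.Iic a₁ ∪ Set.Ioi H) (fun x hx => ?_) (measure_ne_top _ _)).trans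
      ((measureReal_union_le _ _).trans ?_)
    · simp only [Set.mem_compl_iff, Set.mem_Ioc, not_and_or, not_lt, not_le, max_lt_iff] at hx
      exact hx.imp id fun k => k.1
    · rw [← cdf_eq_real]; linarith

end Vale.Agent.P158
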