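import Vale.Agent.P158.Near

namespace Vale.Agent.P158
open SimpleGraph Finset MeasureTheory Law Fr

def PP (L : ℕ) (U : Set V) (y : V) (w : W) : Prop :=
  ∃ u ∈ U, ∃ v ∈ ring 0 L, Btw (box 0 L) w u y v

def NB (X : Law) (L : ℕ) (U : Set V) (K : ℝ) (y : V) (r' r : ℕ) (w : W) : Prop :=
  ∃ u₁ ∈ U, ∃ u₂ ∈ U, ∃ v₁ ∈ ring 0 L, ∃ v₂ ∈ ring 0 L, ∃ p₁ ∈ box y r', ∃ p₂ ∈ box y r',
    Btw (box 0 L) w u₁ p₁ v₁ ∧ Btw (box 0 L) w u₂ p₂ v₂ ∧ Osc (box 0 L) w (box y r) u₁ u₂ K ∧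
    Osc (box 0 L) w (box y r) v₁ v₂ K ∧
    ¬ (Osc (box 0 L) w (box y r') u₁ u₂ X.M₁ ∧ Osc (box 0 L) w (box y r') v₁ v₂ X.M₁)

noncomputable def ch (L : ℕ) (U : Set V) (w : W) (y : V) : V × V :=
  Classical.epsilon fun i => i.1 ∈ U ∧ i.2 ∈ ring 0 L ∧ Btw (box 0 L) w i.1 y i.2

lemma ch_spec {L : ℕ} {U : Set V} {w : W} {y : V} (h : PP L U y w) :
    (ch L U w y).1 ∈ U ∧ (ch L U w y).2 ∈ ring 0 L ∧
      Btw (box 0 L) w (ch L U w y).1 y (ch L U w y).2 := by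
  obtain ⟨u, hu, v, hv, b⟩ := h
  exact Classical.epsilon_spec (p := fun i : V × V => i.1 ∈ U ∧ i.2 ∈ ring 0 L ∧
    Btw (box 0 L) w i.1 y i.2) ⟨(u, v), hu, hv, b⟩

noncomputable def Fw (D : Set V) (w : W) (i : V × V) (y : V) : ℝ := T D w y i.1 + T D w y i.2

lemma xfer {D S : Set V} {w : W} {a b : V} {i j : V × V} {K₁ K₂ ρ : ℝ}
    (h1 : Osc D w S i.1 j.1 K₁) (h2 : Osc D w S i.2 j.2 K₂) (ha : a ∈ S) (hb : b ∈ S)
    (h : Fw D w i a ≤ Fw D w i b + ρ) : Fw D w j a ≤ Fw D w j b + (ρ + K₁ + K₂) := by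
  unfold Fw at *
  linarith [h1 b hb a ha, h2 b hb a ha]

lemma fw_opt {D : Set V} {w : W} {i : V × V} {y z : V} (m : Met D w) (b : Btw D w i.1 y i.2)
    (hz : z ∈ D) : Fw D w i y ≤ Fw D w i z := by
  unfold Fw
  linarith [b.eq, m.tri b.l hz b.r, T_symm D w y i.1, T_symm D w z i.1]

noncomputable def Fr.rc (F : Fr) (U : Set V) (K : ℝ) (w : W) (y : V) : V × V :=
  (F.rep K w (ch F.L U w y).1, F.rep K w (ch F.L U w y).2)

lemma Fr.Ok.rc_osc {F : Fr} {U : Set V} {K : ℝ} {w : W} {y : V} (h : F.Ok) (hU : ∀ u ∈ U, F.Far u)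
    (hK : 0 ≤ K) (hw : Pos w) (hy : PP F.L U y w) :
    Osc (box 0 F.L) w (F.DZ w) (ch F.L U w y).1 (F.rc U K w y).1 K ∧
    Osc (box 0 F.L) w (F.DZ w) (ch F.L U w y).2 (F.rc U K w y).2 K :=
  ⟨h.rep_osc hw hK (hU _ (ch_spec hy).1), h.rep_osc hw hK (h.far_ring (ch_spec hy).2.1)⟩

lemma Fr.Ok.rc_same {F : Fr} {U : Set V} {K : ℝ} {w : W} {y y' : V} (h : F.Ok)
    (hU : ∀ u ∈ U, F.Far u) (hK : 0 ≤ K) (hw : Pos w) (hy : PP F.L U y w) (hy' : PP F.L U y' w)
    (e : F.rc U K w y = F.rc U K w y') :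
    Osc (box 0 F.L) w (box F.c (2 * F.r)) (ch F.L U w y).1 (ch F.L U w y').1 (K + K) ∧
    Osc (box 0 F.L) w (box F.c (2 * F.r)) (ch F.L U w y).2 (ch F.L U w y').2 (K + K) := by
  have a := h.rc_osc hU hK hw hy
  have b := h.rc_osc hU hK hw hy'
  rw [e] at a
  exact ⟨(a.1.trans b.1.symm).mono (fun t ht => box_DZ ht) le_rfl,
    (a.2.trans b.2.symm).mono (fun t ht => box_DZ ht) le_rfl⟩

lemma Fr.rc_act {F : Fr} {U : Set V} {K : ℝ} {w : W} {y : V} (hy : PP F.L U y w)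
    (hb : y ∈ box F.c (2 * F.r)) : F.Act U K w (F.rc U K w y) :=
  ⟨_, (ch_spec hy).1, _, (ch_spec hy).2.1, y, hb, (ch_spec hy).2.2, rfl, rfl⟩

lemma Fr.Ok.rc_nr {F : Fr} {U : Set V} {K ρ ρ' : ℝ} {w : W} {y p : V} (h : F.Ok)
    (hU : ∀ u ∈ U, F.Far u) (hK : 0 ≤ K) (hw : Pos w) (hy : PP F.L U y w)
    (hp : p ∈ box F.c (2 * F.r))
    (hn : Fw (box 0 F.L) w (ch F.L U w y) p ≤ Fw (box 0 F.L) w (ch F.L U w y) y + ρ)
    (hρ : ρ + K + K ≤ ρ') : F.Nr w (F.rc U K w y) p ρ' := fun z hz => by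
  have a := h.rc_osc hU hK hw hy
  have := xfer a.1 a.2 (box_DZ hp) (.inr hz)
    (hn.trans (add_le_add_left (fw_opt (met_box hw _ _) (ch_spec hy).2.2 (O_Λ (Z_O hz))) ρ))
  exact this.trans (add_le_add_right hρ _)

def gr (r : ℕ) (y : V) : V := (r * (y.1 / r), r * (y.2 / r))

lemma gr_bd {r : ℕ} (hr : 1 ≤ r) (y : V) : (gr r y).1 ≤ y.1 ∧ y.1 < (gr r y).1 + r ∧
    (gr r y).2 ≤ y.2 ∧ y.2 < (gr r y).2 + r := by
  have h : ∀ a : ℤ, r * (a / r) ≤ a ∧ a < r * (a / r) + r := fun a => by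
    have h1 := Int.mul_ediv_add_emod a r
    have h2 := Int.emod_nonneg a (show (r : ℤ) ≠ 0 by omega)
    have h3 := Int.emod_lt_of_pos a (show (0 : ℤ) < r by omega)
    constructor <;> linarith
  exact ⟨(h _).1, (h _).2, (h _).1, (h _).2⟩

lemma card_grid {r R : ℕ} (hr : 1 ≤ r) (hR : r ≤ R) (c : V) :
    (((box c R).image (gr r)).card : ℝ) * r ^ 2 ≤ 25 * R ^ 2 := by
  have h : ∀ q o : ℤ, 0 ≤ o → o < r → (r * q + o) / r = q := fun q o h1 h2 => by
    rw [add_comm, Int.add_mul_ediv_left _ _ (by omega), Int.ediv_eq_zero_of_lt h1 h2, zero_add]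
  have := card_le_card_of_injOn (s := (box c R).image (gr r) ×ˢ (Ico (0 : ℤ) r ×ˢ Ico (0 : ℤ) r))
    (t := box c (2 * R)) (fun t => t.1 + t.2) ?_ ?_
  · simp only [card_product, Int.card_Ico, sub_zero, Int.toNat_natCast, card_box] at this
    have h2 : (((box c R).image (gr r)).card : ℝ) * (r * r) ≤ (2 * (2 * R) + 1) ^ 2 := by
      exact_mod_cast this
    have : (1 : ℝ) ≤ R := by exact_mod_cast hr.trans hR
    nlinarith
  · rintro ⟨g, o⟩ ht
    simp only [coe_product, Set.mem_prod, mem_coe, mem_image, mem_Ico] at ht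
    obtain ⟨⟨y, hy, rfl⟩, ho⟩ := ht
    have := gr_bd hr y
    simp only [mem_coe, mem_box, Prod.fst_add, Prod.snd_add] at hy ⊢
    omega
  · rintro ⟨g, o⟩ ht ⟨g', o'⟩ ht' e
    simp only [coe_product, Set.mem_prod, mem_coe, mem_image, mem_Ico] at ht ht'
    obtain ⟨⟨y, -, rfl⟩, ho⟩ := ht
    obtain ⟨⟨y', -, rfl⟩, ho'⟩ := ht'
    have e1 : r * (y.1 / r) + o.1 = r * (y'.1 / r) + o'.1 := congrArg Prod.fst e
    have e2 : r * (y.2 / r) + o.2 = r * (y'.2 / r) + o'.2 := congrArg Prod.snd e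
    have a1 := h (y.1 / r) _ ho.1.1 ho.1.2
    have a2 := h (y.2 / r) _ ho.2.1 ho.2.2
    rw [e1, h _ _ ho'.1.1 ho'.1.2] at a1
    rw [e2, h _ _ ho'.2.1 ho'.2.2] at a2
    have : gr r y = gr r y' := by simp only [gr, a1, a2]
    simp only [this, add_right_inj] at e
    rw [this, e]

def Setup (X : Law) (M₀ : ℝ) (r₀ L : ℕ) (U : Set V) (c₀ : V) (R : ℕ) : Prop :=
  ∀ g ∈ box c₀ (2 * R), ∀ r, r₀ ≤ r → r ≤ R → ∀ K, X.M₁ ≤ K → Fr.Gd ⟨L, g, r, M₀⟩ X M₀ r₀ U K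

theorem one_scale {X : Law} {M₀ K₁ : ℝ} {r₀ L R r' r k k' k₁ m α : ℕ} {U : Set V} {c₀ : V} {w : W}
    (hS : Setup X M₀ r₀ L U c₀ R) (h0 : r₀ ≤ r) (hR : r ≤ R) (hK : X.M₁ ≤ K₁)
    (hα : 1 ≤ α) (hw : Pos w) (hf : Fr.FG ⟨L, c₀, R, M₀⟩ w) :
    ∃ I ⊆ (box 0 L ×ˢ box 0 L) ×ˢ box c₀ R,
      (∑ y ∈ box c₀ R, ind (PP L U y w) ≤
        ∑ y ∈ box c₀ R, ind (¬ (Med X w y (2 * k) k ∧ Med X w y (2 * k') k' ∧ Med X w y (2 * k₁) k₁)) +
        ∑ y ∈ box c₀ R, ind (NB X L U (2 * K₁ + 2 * X.M₁) y r' r w) +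
        ∑ y ∈ box c₀ R, ind (¬ Fr.FG ⟨L, gr r y, r, M₀⟩ w ∨
          (Fr.FG ⟨L, gr r y, r, M₀⟩ w ∧ Fr.Many ⟨L, gr r y, r, M₀⟩ U K₁ w)) +
        ((box c₀ R).image (gr r)).card * (α * r * (8 * (2646 * M₀ * r / K₁) + 4)) +
        ∑ g ∈ (box c₀ R).image (gr r), ∑ i ∈ box 0 L ×ˢ box 0 L, ∑ y ∈ box g r,
          ind (Fr.Ev ⟨L, g, r, M₀⟩ X U X.M₁ (2 * k) k (6 * X.M₁) i y w ∧
            Fr.Fat ⟨L, g, r, M₀⟩ X m (2 * k') k' (6 * X.M₁) i w) + m / α * I.card) ∧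
      ∀ t ∈ I, Fr.Ev ⟨L, c₀, R, M₀⟩ X U X.M₁ (2 * k₁) k₁ (4 * K₁ + 2 * X.M₁) t.1 t.2 w ∧
        (∃ y ∈ box t.2 r, PP L U y w ∧ Fr.rc ⟨L, c₀, R, M₀⟩ U X.M₁ w y = t.1) ∧
        ((∃ p ∈ box t.2 r', PP L U p w ∧ Fr.rc ⟨L, c₀, R, M₀⟩ U X.M₁ w p = t.1) →
          Fr.Ev ⟨L, c₀, R, M₀⟩ X U X.M₁ (2 * k) k (6 * X.M₁) t.1 t.2 w) := by
  classical
  set G0 : Fr := ⟨L, c₀, R, M₀⟩ with hG0
  let Fl : V → Fr := fun g => ⟨L, g, r, M₀⟩
  have M1 := X.M₁_pos.le
  have K1 : 0 < K₁ := X.M₁_pos.trans_le hK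
  have g0 : G0.Gd X M₀ r₀ U X.M₁ := hS c₀ (self_mem_box _ _) R (h0.trans hR) le_rfl _ le_rfl
  have r1 : 1 ≤ r := (hS c₀ (self_mem_box _ _) r h0 hR _ le_rfl).ok.r1
  have gl : ∀ y ∈ box c₀ R, (Fl (gr r y)).Gd X M₀ r₀ U X.M₁ := fun y hy =>
    hS _ (by have := gr_bd r1 y; rw [mem_box] at hy ⊢; omega) r h0 hR _ le_rfl
  have yb : ∀ y, y ∈ box (gr r y) r := fun y => by have := gr_bd r1 y; rw [mem_box]; omega
  have yb2 : ∀ y, y ∈ box (gr r y) (2 * r) := fun y => by have := gr_bd r1 y; rw [mem_box]; omega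
  have yR : ∀ y ∈ box c₀ R, y ∈ box c₀ (2 * R) := fun y hy => by rw [mem_box] at hy ⊢; omega
  let P' := (box c₀ R).filter fun y => PP L U y w ∧
    (Med X w y (2 * k) k ∧ Med X w y (2 * k') k' ∧ Med X w y (2 * k₁) k₁) ∧
    ¬ NB X L U (2 * K₁ + 2 * X.M₁) y r' r w ∧ (Fl (gr r y)).FG w ∧ ¬ (Fl (gr r y)).Many U K₁ w
  let gc : V → V × V := G0.rc U X.M₁ w
  let cl : V → V × (V × V) := fun y => (gr r y, (Fl (gr r y)).rc U K₁ w y)
  let Sm := P'.filter fun y => (P'.filter fun p => cl p = cl y).card < α * r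
  let Ft := P'.filter fun y => m * r < (P'.filter fun p => gr r p = gr r y ∧ gc p = gc y).card
  let Go := P' \ (Sm ∪ Ft)
  let I := ((box 0 L ×ˢ box 0 L) ×ˢ P').filter fun t => ∃ y ∈ P', cl y = cl t.2 ∧ gc y = t.1
  have gcI : ∀ y ∈ P', gc y ∈ box 0 L ×ˢ box 0 L := fun y hy => by
    rw [mem_filter] at hy
    exact (mem_filter.1 ((mem_Acts g0.ok g0.far).2 (Fr.rc_act (F := G0) hy.2.1 (yR y hy.1)))).1
  refine ⟨I, (filter_subset _ _).trans (product_subset_product_right (filter_subset _ _)), ?_, ?_⟩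
  · have c1 : ∑ y ∈ box c₀ R, ind (PP L U y w) ≤ ∑ y ∈ box c₀ R,
        (ind (¬ (Med X w y (2 * k) k ∧ Med X w y (2 * k') k' ∧ Med X w y (2 * k₁) k₁)) +
          ind (NB X L U (2 * K₁ + 2 * X.M₁) y r' r w) + ind (¬ (Fl (gr r y)).FG w ∨
            ((Fl (gr r y)).FG w ∧ (Fl (gr r y)).Many U K₁ w))) + P'.card := by
      rw [card_ind, ← sum_add_distrib]
      refine sum_le_sum fun y _ => ?_
      unfold ind
      split_ifs <;> first | (norm_num; done) | (exfalso; tauto)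
    have c2 : (P'.card : ℝ) ≤ Sm.card + Ft.card + Go.card := by
      have := le_card_sdiff (Sm ∪ Ft) P'
      have := card_union_le Sm Ft
      exact_mod_cast (show P'.card ≤ Sm.card + Ft.card + Go.card by simp only [Go]; omega)
    have c3 : (Sm.card : ℝ) ≤
        ((box c₀ R).image (gr r)).card * (α * r * (8 * (2646 * M₀ * r / K₁) + 4)) := by
      let Gr := P'.image (gr r)
      have a1 := card_le_mul_card_image_of_maps_to (s := Sm) (f := cl)
        (t := Gr.biUnion fun g => ((Fl g).Acts U K₁ w).image fun i => (g, i)) (fun y hy => by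
          have hy' := (mem_filter.1 hy).1
          have hy'' := mem_filter.1 hy'
          exact mem_biUnion.2 ⟨_, mem_image_of_mem _ hy', mem_image_of_mem _
            ((mem_Acts (gl y hy''.1).ok (gl y hy''.1).far).2
              (Fr.rc_act (F := Fl (gr r y)) hy''.2.1 (yb2 y)))⟩) (α * r) fun b _ => by
          rcases (Sm.filter fun a => cl a = b).eq_empty_or_nonempty with e | ⟨a, ha⟩
          · rw [e]; simp
          · rw [mem_filter] at ha
            refine le_trans (card_le_card fun p hp => ?_) (mem_filter.1 ha.1).2.le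
            rw [mem_filter] at hp ⊢
            exact ⟨(mem_filter.1 hp.1).1, hp.2.trans ha.2.symm⟩
      have a2 : ((Gr.biUnion fun g => ((Fl g).Acts U K₁ w).image fun i => (g, i)).card : ℝ) ≤
          Gr.card * (8 * (2646 * M₀ * r / K₁) + 4) := by
        have := card_biUnion_le (s := Gr) (t := fun g => ((Fl g).Acts U K₁ w).image fun i => (g, i))
        refine le_trans (Nat.cast_le.2 this) ?_
        push_cast
        rw [← nsmul_eq_mul]
        refine sum_le_card_nsmul _ _ _ fun g hg => ?_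
        obtain ⟨y, hy, rfl⟩ := mem_image.1 hg
        rw [mem_filter] at hy
        have b1 : (((Fl (gr r y)).Acts U K₁ w).card : ℝ) ≤ 8 * (Fl (gr r y)).kmax K₁ w + 4 := by
          exact_mod_cast not_lt.1 hy.2.2.2.2.2
        have b2 := (gl y hy.1).ok.kmax_le (K := K₁) hw hy.2.2.2.2.1
        have b3 : ((Fl (gr r y)).kmax K₁ w : ℝ) ≤ 2646 * M₀ * r / K₁ := by
          rw [le_div_iff₀ K1, mul_comm]; exact b2
        refine le_trans (Nat.cast_le.2 card_image_le) (by linarith)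
      have a3 : (Gr.card : ℝ) ≤ ((box c₀ R).image (gr r)).card :=
        Nat.cast_le.2 (card_le_card (image_subset_image (filter_subset _ _)))
      have a4 : (Sm.card : ℝ) ≤ α * r *
        (Gr.biUnion fun g => ((Fl g).Acts U K₁ w).image fun i => (g, i)).card := by exact_mod_cast a1
      have M0 : 0 < M₀ := g0.ok.M0
      calc (Sm.card : ℝ) ≤ α * r * (((box c₀ R).image (gr r)).card * (8 * (2646 * M₀ * r / K₁) + 4)) :=
            a4.trans (mul_le_mul_of_nonneg_left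
              (a2.trans (mul_le_mul_of_nonneg_right a3 (by positivity))) (by positivity))
        _ = _ := by ring
    have c4 : (Ft.card : ℝ) ≤ ∑ g ∈ (box c₀ R).image (gr r), ∑ i ∈ box 0 L ×ˢ box 0 L, ∑ y ∈ box g r,
        ind ((Fl g).Ev X U X.M₁ (2 * k) k (6 * X.M₁) i y w ∧
          (Fl g).Fat X m (2 * k') k' (6 * X.M₁) i w) := by
      rw [card_eq_sum_card_fiberwise (f := gr r) (t := (box c₀ R).image (gr r))
        fun y hy => mem_image_of_mem _ (mem_filter.1 (mem_filter.1 hy).1).1]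
      push_cast
      refine sum_le_sum fun g _ => ?_
      rw [sum_comm, card_eq_sum_ones]
      push_cast
      refine le_trans (sum_le_sum fun y hy => ?_) (sum_le_sum_of_subset_of_nonneg (fun y hy => ?_)
        fun _ _ _ => sum_nonneg fun _ _ => ind_nonneg _)
      swap
      · rw [← (mem_filter.1 hy).2]; exact yb y
      obtain ⟨hy1, e0⟩ := mem_filter.1 hy
      obtain ⟨hy2, hfat⟩ := mem_filter.1 hy1
      obtain ⟨hyB, pp, md, -, fg, -⟩ := mem_filter.1 hy2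
      subst e0
      have g1 := gl y hyB
      have act := Fr.rc_act (F := Fl (gr r y)) (K := X.M₁) pp (yb2 y)
      refine le_trans (le_of_eq (ind_true ?_).symm) (single_le_sum (fun _ _ => ind_nonneg _)
        (mem_filter.1 ((mem_Acts g1.ok g1.far).2 act)).1)
      refine ⟨⟨fg, act, g1.ok.rc_nr g1.far M1 hw pp (yb2 y) (ρ := 0) (by simp) (by linarith), md.1⟩, ?_⟩
      refine lt_of_lt_of_le (b := ((P'.filter fun p => gr r p = gr r y ∧ gc p = gc y).card : ℝ))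
        (by exact_mod_cast hfat) ?_
      rw [card_eq_sum_ones]
      push_cast
      refine le_trans (sum_le_sum fun p hp => le_of_eq (ind_true ?_).symm)
        (sum_le_sum_of_subset_of_nonneg (fun p hp => ?_) fun _ _ _ => ind_nonneg _)
      swap
      · rw [← (mem_filter.1 hp).2.1]; exact yb p
      obtain ⟨hp, e1, e2⟩ := mem_filter.1 hp
      obtain ⟨hpB, pp', md', -⟩ := mem_filter.1 hp
      have o := g0.ok.rc_same g0.far M1 hw pp' pp e2
      refine ⟨g1.ok.rc_nr g1.far M1 hw pp (e1 ▸ yb2 p) (xfer o.1 o.2 (yR p hpB) (yR y hyB) (ρ := 0)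
        (by simpa using fw_opt (met_box hw _ _) (ch_spec pp').2.2 (ch_spec pp).2.2.m)) (by linarith), md'.2.1⟩
    have c5 : (Go.card : ℝ) ≤ m / α * I.card := by
      have := card_mul_le_card_mul (s := Go) (t := I) (m := α * r) (n := m * r)
        (fun y t => gc y = t.1 ∧ cl y = cl t.2) (fun y hy => ?_) fun t _ => ?_
      · have h1 : (Go.card : ℝ) * (α * r) ≤ I.card * (m * r) := by exact_mod_cast this
        have : (0 : ℝ) < r := by exact_mod_cast r1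
        have : (0 : ℝ) < α := by exact_mod_cast hα
        rw [div_mul_eq_mul_div, le_div_iff₀ this]
        nlinarith
      · simp only [Go, mem_sdiff, mem_union, not_or] at hy
        have h1 : α * r ≤ (P'.filter fun p => cl p = cl y).card :=
          not_lt.1 fun hh => hy.2.1 (mem_filter.2 ⟨hy.1, hh⟩)
        refine h1.trans (card_le_card_of_injOn (fun p => (gc y, p)) (fun p hp => ?_)
          fun p _ p' _ e => congrArg Prod.snd e)
        have hp := mem_filter.1 hp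
        exact (mem_bipartiteAbove _).2 ⟨mem_filter.2 ⟨mem_product.2 ⟨gcI y hy.1, hp.1⟩,
          y, hy.1, hp.2.symm, rfl⟩, rfl, hp.2.symm⟩
      · rcases (Go.bipartiteBelow (fun y t => gc y = t.1 ∧ cl y = cl t.2) t).eq_empty_or_nonempty
          with e | ⟨y, hy⟩
        · rw [e]; simp
        · rw [mem_bipartiteBelow] at hy
          have hy1 := hy.1
          simp only [Go, mem_sdiff, mem_union, not_or] at hy1
          refine le_trans (card_le_card fun p hp => ?_)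
            (not_lt.1 fun hh => hy1.2.2 (mem_filter.2 ⟨hy1.1, hh⟩))
          rw [mem_bipartiteBelow] at hp
          exact mem_filter.2 ⟨(mem_sdiff.1 hp.1).1, congrArg Prod.fst (hp.2.2.trans hy.2.2.symm),
            hp.2.1.trans hy.2.1.symm⟩
    simp only [sum_add_distrib] at c1
    linarith
  · rintro ⟨i, y'⟩ ht
    obtain ⟨ht, y, hy, e1, rfl⟩ := mem_filter.1 ht
    obtain ⟨hyB', pp', md', nb', -⟩ := mem_filter.1 (mem_product.1 ht).2
    obtain ⟨hyB, pp, -⟩ := mem_filter.1 hy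
    have eg : gr r y = gr r y' := congrArg Prod.fst e1
    have el : (Fl (gr r y)).rc U K₁ w y' = (Fl (gr r y)).rc U K₁ w y := by
      have := congrArg Prod.snd e1
      simp only [cl, ← eg] at this
      exact this.symm
    have g1 := gl y hyB
    have o := g1.ok.rc_same g1.far K1.le hw pp' pp el
    have act := Fr.rc_act (F := G0) (K := X.M₁) pp (yR y hyB)
    refine ⟨⟨hf, act, g0.ok.rc_nr g0.far M1 hw pp (yR _ hyB') (xfer o.1 o.2 (eg ▸ yb2 y') (yb2 y) (ρ := 0)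
        (by simpa using fw_opt (met_box hw _ _) (ch_spec pp').2.2 (ch_spec pp).2.2.m)) (by linarith),
        md'.2.2⟩, ⟨y, ?_, pp, rfl⟩, ?_⟩
    · have := gr_bd r1 y; have := gr_bd r1 y'
      rw [mem_box]; rw [eg] at *; dsimp only; omega
    · rintro ⟨p, hp, ppp, ep⟩
      have o' := g0.ok.rc_same g0.far M1 hw pp ppp ep.symm
      have s1 : (box y' r : Set V) ⊆ box (gr r y) (2 * r) := fun t ht => by
        have := gr_bd r1 y'
        rw [eg]; rw [mem_coe, mem_box] at ht ⊢; omega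
      have s2 : (box y' r : Set V) ⊆ box c₀ (2 * R) := fun t ht => by
        rw [mem_coe, mem_box] at ht ⊢; rw [mem_box] at hyB'; dsimp only at hyB'; omega
      have o2 : Osc (box 0 L) w (box y' r') (ch L U w y').1 (ch L U w p).1 X.M₁ ∧
          Osc (box 0 L) w (box y' r') (ch L U w y').2 (ch L U w p).2 X.M₁ := by
        by_contra hc
        exact nb' ⟨_, (ch_spec pp').1, _, (ch_spec ppp).1, _, (ch_spec pp').2.1, _, (ch_spec ppp).2.1,
          y', self_mem_box _ _, p, hp, (ch_spec pp').2.2, (ch_spec ppp).2.2,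
          ((o.1.mono s1 le_rfl).trans (o'.1.mono s2 le_rfl)).mono subset_rfl (by linarith),
          ((o.2.mono s1 le_rfl).trans (o'.2.mono s2 le_rfl)).mono subset_rfl (by linarith), hc⟩
      refine ⟨hf, act, ?_, md'.1⟩
      have := g0.ok.rc_nr g0.far M1 hw ppp (yR _ hyB') (xfer o2.1 o2.2 (self_mem_box _ _) hp (ρ := 0)
        (by simpa using fw_opt (met_box hw _ _) (ch_spec pp').2.2 (ch_spec ppp).2.2.m))
        (ρ' := 6 * X.M₁) (by linarith)
      rwa [ep] at this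

end Vale.Agent.P158
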