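import Vale.Agent.P158.Cells

namespace Vale.Agent.P158
open SimpleGraph Finset

def Dm (L : ℕ) (c : V) (n : ℕ) (Δ : ℝ) (w : W) : Prop :=
  ∀ a ∈ box c n, ∀ b ∈ box c n, T (box 0 L) w a b ≤ Δ

def MB (X : Law) (c : V) (n k : ℕ) (w : W) : Prop := ∀ y ∈ box c n, Med X w y (2 * k) k

lemma two_split {D : Set V} {w : W} {u m s v₁ v₂ : V} (h : Met D w) (hg : Gen w)
    (b1 : Btw D w u m v₁) (b2 : Btw D w u m v₂) (_bs : Btw D w u m s) (s1 : Btw D w u s v₁)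
    (s2 : ¬ Btw D w u s v₂) : ∃ z, SplitAt D w z u v₁ v₂ ∧ Btw D w m z s := by
  classical
  obtain ⟨z, hz, hmax⟩ := (h.fin.toFinset.filter fun z => Btw D w u z v₁ ∧ Btw D w u z v₂).exists_max_image
    (T D w u) ⟨m, by simp [b1, b2, b1.m]⟩
  simp only [mem_filter, Set.Finite.mem_toFinset] at hz hmax
  have key : ∀ t, Btw D w u t v₁ → Btw D w u t v₂ → Btw D w u z t → t = z := fun t t1 t2 t3 =>
    (h.eq_of_le hz.1 t1.m (by linarith [hmax t ⟨t1.m, t1, t2⟩, t3.eq])).symm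
  refine ⟨z, ⟨hz.2.1, hz.2.2, fun t t1 t2 => key t (h.t3 hz.2.1 t1) (h.t3 hz.2.2 t2)
    (h.t4 hz.2.1 t1)⟩, ?_⟩
  have a1 : Btw D w u m z := by
    rcases h.total hg b1 hz.2.1 with k | k
    · exact k
    · rw [← key m b1 b2 k]; exact h.btw_right b1.l b1.m
  rcases h.total hg s1 hz.2.1 with k | k
  · exact absurd (h.t1 k hz.2.2) s2
  · exact h.t2 a1 k

lemma discrete_ivt {α : Type*} [DecidableEq α] (f : Finset α → ℝ) (P Q : Finset α) {lo hi M : ℝ}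
    (gap : lo + M < hi) (step : ∀ Y e, Y ⊆ Q → e ∈ Q → f (P ∪ insert e Y) ≤ f (P ∪ Y) + M)
    (h0 : f P ≤ lo) (dich : ∀ Y, Y ⊆ Q → f (P ∪ Y) ≤ lo ∨ hi ≤ f (P ∪ Y)) : f (P ∪ Q) ≤ lo := by
  have : ∀ Y, Y ⊆ Q → f (P ∪ Y) ≤ lo := by
    intro Y
    induction Y using Finset.induction_on with
    | empty => intro _; simpa using h0
    | insert e Y _ ih =>
      intro hY
      have h1 : Y ⊆ Q := (subset_insert _ _).trans hY
      have := step Y e h1 (hY (mem_insert_self _ _))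
      rcases dich _ hY with k | k
      · exact k
      · linarith [ih h1]
  exact this Q subset_rfl

namespace Fr
variable (F : Fr)

def EvE (U : Set V) (K ρ : ℝ) (w : W) : Prop :=
  ∃ u ∈ U, ∃ v₁ ∈ ring 0 F.L, ∃ v₂ ∈ ring 0 F.L, ∃ x ∈ box F.c (2 * F.r), Btw F.Λ w u x v₁ ∧
    T F.Λ w u x + T F.Λ w x v₂ ≤ T F.Λ w u v₂ + ρ ∧ ¬ F.Close K w v₁ v₂

def Spl (U : Set V) (n : ℕ) (w : W) : Prop :=
  ∃ z ∈ box F.c n, ∃ u ∈ U, ∃ v₁ ∈ ring 0 F.L, ∃ v₂ ∈ ring 0 F.L, SplitAt F.Λ w z u v₁ v₂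

variable {F}

theorem Ok.split_core {X : Law} {w s : W} {U : Set V} {ρ Δ₁ Δ₃ Δ₄ : ℝ} {k₁ k₀ k₄ R₁ R' R'' : ℕ}
    (h : F.Ok) (hw : Pos w) (hf : F.FG w) (hE : F.EvE U X.M₁ ρ w) (hρ : 0 ≤ ρ)
    (hR₁ : R₁ = 4 * F.r + 3 + 2 * k₁) (hR' : R' = R₁ + 2 * k₀) (hR'' : R'' = R' + 2 * k₄)
    (d1 : Dm F.L F.c (4 * F.r + 3) Δ₁ w) (d3 : Dm F.L F.c R₁ Δ₃ w) (d4 : Dm F.L F.c R' Δ₄ w)
    (m1 : MB X F.c (4 * F.r + 3) k₁ w) (m0 : MB X F.c (4 * F.r + 3) k₀ w) (m4 : MB X F.c R' k₄ w)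
    (hk₁ : Δ₁ + 49 * F.r * F.M₀ + ρ < k₁ * X.η) (hk₀ : 2 * Δ₃ + ρ < k₀ * X.η)
    (hk₄ : Δ₄ < (k₄ - (2 * k₀ + 4 * k₁) : ℕ) * X.a₁) (hmar : Mar F.L F.c R'')
    (hU : ∀ u ∈ U, u ∈ F.Λ ∧ u ∉ box F.c R'') (hs : ∀ e ∈ (box F.c R').sym2, s e ∈ Set.Ioc 0 X.a) :
    ∃ π ⊆ (box F.c R').sym2, ¬ Gen (low π s w) ∨ F.Spl U R'' (low π s w) := by
  classical
  by_contra hcon
  push Not at hcon
  obtain ⟨u, huU, v₁, hv₁, v₂, hv₂, x, hx, bx, ex, hC⟩ := hE
  simp only [Close, Osc, not_forall, not_le] at hC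
  obtain ⟨z₂, hz₂, z₁, hz₁, gap⟩ := hC
  have m := met (F := F) hw
  have mo := metO (F := F) hw
  have OΛ : F.O w ⊆ F.Λ := fun t ht => O_Λ ht
  obtain ⟨huΛ, huf⟩ := hU u huU
  have bΛ : ∀ {n t}, n ≤ R'' → t ∈ box F.c n → t ∈ F.Λ := fun {n t} hn ht => by
    unfold Mar at hmar; rw [mem_Λ]; rw [mem_box] at ht; omega
  have x3 : x ∈ box F.c (4 * F.r + 3) := by rw [mem_box] at hx ⊢; omega
  have xΛ := bx.m
  have farv : ∀ {z v}, z ∈ F.Z w → v ∈ ring 0 F.L → ¬ Ins z (2 * k₁) v := fun {z v} hz hv => by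
    have := Z_box hz
    unfold Mar at hmar
    simp only [mem_ring, mem_box, Ins, Prod.fst_zero, Prod.snd_zero] at hv this ⊢; omega
  obtain ⟨m₀, p₀, q₀, π₀, i₀, g₀, n₀, e₀, c₀, c₀'⟩ := highway (X := X) m xΛ huΛ
    (show ¬ Ins x (2 * k₀) u by rw [mem_box] at huf hx; unfold Ins; omega) (m0 x x3)
  obtain ⟨m₁, p₁, q₁, P₁, i₁, g₁, n₁, e₁, c₁, c₁'⟩ := highway (X := X) mo (Z_O hz₁) (h.ring_O hv₁)
    (farv hz₁ hv₁) (m1 z₁ (Z_box hz₁))
  obtain ⟨m₂, p₂, q₂, P₂, i₂, g₂, n₂, e₂, c₂, c₂'⟩ := highway (X := X) mo (Z_O hz₂) (h.ring_O hv₂)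
    (farv hz₂ hv₂) (m1 z₂ (Z_box hz₂))
  have s₀ : ∀ t ∈ p₀.support, t ∈ box F.c R' := fun t ht => by
    have := n₀ t ht; rw [mem_coe, mem_box] at this; rw [mem_box] at hx ⊢; omega
  have s₁₂ : ∀ e ∈ P₁ ∪ P₂, ∀ t ∈ e, t ∈ box F.c R₁ ∧ t ∈ F.O w := fun e he t ht => by
    rcases mem_union.1 he with he | he
    · have a := Walk.mem_support_of_mem_edges (e₁ e he).1 ht
      have := n₁ t a; have := Z_box hz₁
      exact ⟨by simp only [mem_coe, mem_box] at *; omega, (in_append.1 g₁.inD).1 t a⟩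
    · have a := Walk.mem_support_of_mem_edges (e₂ e he).1 ht
      have := n₂ t a; have := Z_box hz₂
      exact ⟨by simp only [mem_coe, mem_box] at *; omega, (in_append.1 g₂.inD).1 t a⟩
  have R1 : ∀ {t}, t ∈ box F.c R₁ → t ∈ box F.c R' := fun ht => by rw [mem_box] at ht ⊢; omega
  have hN : π₀ ∪ (P₁ ∪ P₂) ⊆ (box F.c R').sym2 := fun e he => by
    rw [mem_sym2_iff]
    intro t ht
    rcases mem_union.1 he with he | he
    · exact s₀ t (Walk.mem_support_of_mem_edges (e₀ e he).1 ht)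
    · exact R1 (s₁₂ e he t ht).1
  have md : Mod X (π₀ ∪ (P₁ ∪ P₂)) s w := ⟨hw, fun e he => by
    rcases mem_union.1 he with he | he
    · exact (e₀ e he).2
    · rcases mem_union.1 he with he | he
      · exact (e₁ e he).2
      · exact (e₂ e he).2, fun e he => hs e (hN he)⟩
  have md0 := md.mono (subset_union_left (s₁ := π₀))
  have M0 := m.change md0.pos'
  have v1Λ : v₁ ∈ F.Λ := ring_sub_box hv₁
  have v2Λ : v₂ ∈ F.Λ := ring_sub_box hv₂
  have η0 := X.η_pos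
  have Δ3 : 0 ≤ Δ₃ := T_nonneg.trans (d3 _ (self_mem_box _ _) _ (self_mem_box _ _))
  -- the road towards `u`
  have road : ∀ q ∈ F.Λ, T F.Λ w u x + T F.Λ w x q < T F.Λ w u q + k₀ * X.η →
      Btw F.Λ (low π₀ s w) u m₀ q := by
    intro q hq hlt
    have G0 := md0.low.geo M0 hw i₀ g₀ fun e he => by simp [(e₀ e he).1]
    obtain ⟨G1, -, G3⟩ := M0.geo_split G0
    have a1 := md0.cost_gain subset_rfl i₀ fun e he => by simp [(e₀ e he).1]
    have a2 : (k₀ : ℝ) * X.η ≤ π₀.card * X.η := mul_le_mul_of_nonneg_right (by exact_mod_cast c₀) η0.le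
    obtain ⟨p, hp, bp⟩ := md0.low.hit M0 hw {t | t ∈ p₀.support}
      (fun e he t ht => Walk.mem_support_of_mem_edges (e₀ e he).1 ht) huΛ hq (by
        linarith [M0.tri huΛ xΛ hq, m.T_low md0.pos' md0.low.le xΛ hq, G0.eq, g₀.eq,
          T_symm F.Λ w u x, T_symm F.Λ (low π₀ s w) u x])
    exact M0.t1 (M0.t2 (M0.btw_of_mem G1 hp) G3).symm bp
  have main : ∀ Y, Y ⊆ P₁ ∪ P₂ → (P₁ ⊆ Y ∨ P₂ ⊆ Y) → ∃ c' e, e ∈ Y ∧ c' ∈ e ∧
      T F.Λ (low (π₀ ∪ Y) s w) u v₁ - T F.Λ (low (π₀ ∪ Y) s w) u v₂ =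
        T (F.O w) w c' v₁ - T (F.O w) w c' v₂ := by
    intro Y hY hfull
    have mdY := md.mono (union_subset_union_right (s := π₀) hY)
    obtain ⟨gen, nsp⟩ := hcon _ ((union_subset_union_right (s := π₀) hY).trans hN)
    set w' := low (π₀ ∪ Y) s w with hw'
    have M' := m.change mdY.pos'
    have l2 := mdY.low2 (subset_union_left (s₁ := π₀))
    have common : ∀ v ∈ F.Λ, T F.Λ w u x + T F.Λ w x v ≤ T F.Λ w u v + ρ → Btw F.Λ w' u m₀ v := by
      intro v hv ev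
      obtain ⟨q, hq, bq, tq⟩ := l2.first M' md0.pos' (box F.c R₁ : Set V) (fun e he t ht =>
        (s₁₂ e (hY ((mem_union.1 (mem_sdiff.1 he).1).resolve_left (mem_sdiff.1 he).2)) t ht).1) huΛ hv
      have b0 : Btw F.Λ (low π₀ s w) u m₀ q := road q bq.m (by
        rcases hq with hq | rfl
        · have := d3 x (by rw [mem_box] at hx ⊢; omega) q hq
          change T F.Λ w x q ≤ Δ₃ at this
          linarith [m.tri huΛ bq.m xΛ, T_symm F.Λ w x q]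
        · linarith)
      refine M'.t1 (M'.btw huΛ b0.m bq.m ?_) bq
      linarith [b0.eq, M0.T_low mdY.pos' l2.le huΛ b0.m, M0.T_low mdY.pos' l2.le b0.m bq.m]
    have cm1 := common v₁ v1Λ (by linarith [bx.eq])
    have cm2 := common v₂ v2Λ ex
    have m0R := s₀ _ p₀.end_mem_support
    have two : ∀ {a b}, a ∈ ring 0 F.L → b ∈ ring 0 F.L → Btw F.Λ w' u m₀ a → Btw F.Λ w' u m₀ b →
        ∀ t ∈ box F.c R', Btw F.Λ w' u m₀ t → Btw F.Λ w' u t a → Btw F.Λ w' u t b := by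
      intro a b ha hb ba bb t ht b1 b2
      by_contra b3
      obtain ⟨z, sp, bz⟩ := two_split M' gen ba bb b1 b2 b3
      refine nsp ⟨z, ?_, u, huU, a, ha, b, hb, sp⟩
      obtain ⟨p, hp, gp⟩ := M'.geo bz.l bz.m
      have a1 := card_le_card (union_subset_union_right (s := π₀) hY)
      have a2 := card_union_le π₀ (P₁ ∪ P₂)
      have a3 := card_union_le P₁ P₂
      have := (((m4 m₀ m0R).change mdY.low.eq).mono
        (show k₄ - (2 * k₀ + 4 * k₁) ≤ k₄ - (π₀ ∪ Y).card by omega)).cost mdY.pos' hp (by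
          have := d4 m₀ m0R t ht
          change T F.Λ w m₀ t ≤ Δ₄ at this
          linarith [gp.eq, bz.eq, T_nonneg (D := F.Λ) (w := w') (a := z) (b := t),
            m.T_low mdY.pos' mdY.low.le bz.l bz.r])
      have hz := (supp_box p).stop
      rw [mem_coe, mem_box] at hz; rw [mem_box] at m0R ⊢; omega
    let S : Set V := {t | t ∈ F.D w ∨ t ∈ p₀.support ∨ ∃ e ∈ Y, t ∈ e}
    have SR : ∀ t ∈ S, t ∈ box F.c R' := by
      rintro t (ht | ht | ⟨e, he, ht⟩)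
      · have := D_box ht; rw [mem_box] at this ⊢; omega
      · exact s₀ t ht
      · exact R1 (s₁₂ e (hY he) t ht).1
    have Se : ∀ e ∈ π₀ ∪ Y, ∀ t ∈ e, t ∈ S := fun e he t ht => by
      rcases mem_union.1 he with he | he
      · exact .inr (.inl (Walk.mem_support_of_mem_edges (e₀ e he).1 ht))
      · exact .inr (.inr ⟨e, he, ht⟩)
    obtain ⟨c', hc', hmax⟩ := ((box F.c R').filter fun t => t ∈ S ∧ Btw F.Λ w' u m₀ t ∧
      Btw F.Λ w' u t v₁).exists_max_image (T F.Λ w' u)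
      ⟨m₀, mem_filter.2 ⟨m0R, .inr (.inl p₀.end_mem_support), M'.btw_right huΛ cm1.m, cm1⟩⟩
    simp only [mem_filter] at hc' hmax
    obtain ⟨cR, cS, cb, cv1⟩ := hc'
    have cv2 := two hv₁ hv₂ cm1 cm2 c' cR cb cv1
    have last1 : ∀ t ∈ S, Btw F.Λ w' c' t v₁ → t = c' := fun t ht bt =>
      (M'.eq_of_le cb.r bt.m (by
        linarith [hmax t ⟨SR t ht, ht, M'.t1 cb (M'.t4 cv1 bt), M'.t3 cv1 bt⟩, (M'.t4 cv1 bt).eq])).symm
    have last2 : ∀ t ∈ S, Btw F.Λ w' c' t v₂ → t = c' := fun t ht bt =>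
      (M'.eq_of_le cb.r bt.m (by
        linarith [hmax t ⟨SR t ht, ht, M'.t1 cb (M'.t4 cv2 bt), two hv₂ hv₁ cm2 cm1 t (SR t ht)
          (M'.t1 cb (M'.t4 cv2 bt)) (M'.t3 cv2 bt)⟩, (M'.t4 cv2 bt).eq])).symm
    have side : ∀ {z v mm : V} {P : Finset (Sym2 V)} {p : G.Walk z mm} {q : G.Walk mm v}, z ∈ F.Z w →
        v ∈ ring 0 F.L → (p.append q).IsPath → Geo (F.O w) w (p.append q) → P ⊆ Y →
        (∀ e ∈ P, e ∈ p.edges ∧ w e ∈ Set.Ioc X.a₁ X.M₁) → k₁ ≤ P.card →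
        T F.Λ w u x + T F.Λ w x v ≤ T F.Λ w u v + ρ → (∀ t ∈ S, Btw F.Λ w' c' t v → t = c') →
        ¬ (c' ∈ F.D w ∨ c' ∈ p₀.support) := by
      intro z v mm P p q hz hv ip gp PY eP cP ev last hc
      have vΛ : v ∈ F.Λ := ring_sub_box hv
      have zΛ := O_Λ (Z_O hz)
      have a0 := mdY.low.last M' hw S F.Λ Se cb.r vΛ cb.r (fun _ _ _ hy _ _ => hy) last
      have a1 := mdY.cost_gain (PY.trans subset_union_right) ip fun e he => by simp [(eP e he).1]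
      have a2 : (k₁ : ℝ) * X.η ≤ P.card * X.η := mul_le_mul_of_nonneg_right (by exact_mod_cast cP) η0.le
      have a3 := T_le mdY.pos' (gp.inD.mono OΛ)
      have a4 := M'.tri cb.r zΛ vΛ
      have a5 := m.T_low mdY.pos' mdY.low.le cb.r zΛ
      have a6 : ∀ t ∈ F.D w, T (F.O w) w z v ≤ 49 * F.r * F.M₀ + T F.Λ w t v ∧ T F.Λ w t z ≤ Δ₁ := by
        intro t ht
        obtain ⟨z', hz', e'⟩ := h.C1 hw (h.ring_O hv) (.inl ht)
        refine ⟨?_, d1 t (DZ_box (.inl ht)) z (Z_box hz)⟩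
        linarith [mo.tri (Z_O hz) (Z_O hz') (h.ring_O hv), h.Z_diam hw hf hz hz',
          T_nonneg (D := F.Λ) (w := w) (a := t) (b := z')]
      rcases hc with hc | hc
      · linarith [(a6 c' hc).1, (a6 c' hc).2, gp.eq]
      · have b := m.btw_of_mem g₀ (z := c') (by simp [hc])
        linarith [(a6 x (.inl hx)).1, (a6 x (.inl hx)).2, gp.eq, b.eq, m.tri cb.r xΛ zΛ,
          m.tri huΛ cb.r vΛ, T_symm F.Λ w u x, T_symm F.Λ w u c', T_symm F.Λ w x c']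
    have nc : ¬ (c' ∈ F.D w ∨ c' ∈ p₀.support) := by
      rcases hfull with hP | hP
      · exact side hz₁ hv₁ i₁ g₁ hP e₁ c₁ (by linarith [bx.eq]) last1
      · exact side hz₂ hv₂ i₂ g₂ hP e₂ c₂ ex last2
    obtain ⟨e, he, ce⟩ : ∃ e ∈ Y, c' ∈ e := by
      rcases cS with k | k | k
      · exact absurd (.inl k) nc
      · exact absurd (.inr k) nc
      · exact k
    have cO := (s₁₂ e (hY he) c' ce).2
    have fin : ∀ v ∈ ring 0 F.L, (∀ t ∈ S, Btw F.Λ w' c' t v → t = c') →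
        T F.Λ w' c' v = T (F.O w) w c' v := fun v hv last => le_antisymm
      ((m.T_low mdY.pos' mdY.low.le cb.r (ring_sub_box hv)).trans (mo.mono OΛ cO (h.ring_O hv)))
      (mdY.low.last M' hw S (F.O w) Se cb.r (ring_sub_box hv) cO
        (fun a ha y hy ad hS => O_step ha hy ad fun hD => hS (.inl hD)) last)
    exact ⟨c', e, he, ce, by linarith [fin v₁ hv₁ last1, fin v₂ hv₂ last2, cv1.eq, cv2.eq]⟩
  have sd1 : ∀ c' e, e ∈ P₁ → c' ∈ e → T (F.O w) w c' v₁ - T (F.O w) w c' v₂ ≤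
      T (F.O w) w z₁ v₁ - T (F.O w) w z₁ v₂ := fun c' e he ce => by
    have b := mo.btw_of_mem g₁ (z := c') (by simp [Walk.mem_support_of_mem_edges (e₁ e he).1 ce])
    linarith [b.eq, mo.tri b.l b.m (h.ring_O hv₂)]
  have sd2 : ∀ c' e, e ∈ P₂ → c' ∈ e → T (F.O w) w z₂ v₁ - T (F.O w) w z₂ v₂ ≤
      T (F.O w) w c' v₁ - T (F.O w) w c' v₂ := fun c' e he ce => by
    have b := mo.btw_of_mem g₂ (z := c') (by simp [Walk.mem_support_of_mem_edges (e₂ e he).1 ce])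
    linarith [b.eq, mo.tri b.l b.m (h.ring_O hv₁)]
  let f : Finset (Sym2 V) → ℝ := fun Y =>
    T F.Λ (low (π₀ ∪ Y) s w) u v₁ - T F.Λ (low (π₀ ∪ Y) s w) u v₂
  have dich : ∀ Y, Y ⊆ P₁ ∪ P₂ → (P₁ ⊆ Y ∨ P₂ ⊆ Y) → f Y ≤ T (F.O w) w z₁ v₁ - T (F.O w) w z₁ v₂ ∨
      T (F.O w) w z₂ v₁ - T (F.O w) w z₂ v₂ ≤ f Y := fun Y h1 h2 => by
    obtain ⟨c', e, he, ce, eq⟩ := main Y h1 h2
    simp only [f, eq]
    exact (mem_union.1 (h1 he)).imp (fun k => sd1 c' e k ce) fun k => sd2 c' e k ce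
  have step : ∀ Y e, insert e Y ⊆ P₁ ∪ P₂ →
      f (insert e Y) ≤ f Y + X.M₁ ∧ f Y ≤ f (insert e Y) + X.M₁ := fun Y e hY => by
    have mdY := md.mono (union_subset_union_right (s := π₀) hY)
    have sub : π₀ ∪ Y ⊆ π₀ ∪ insert e Y := union_subset_union_right (subset_insert _ _)
    have l2 := mdY.low2 sub
    have g := mdY.gain_le (π' := π₀ ∪ Y)
    have cd : (((π₀ ∪ insert e Y) \ (π₀ ∪ Y)).card : ℝ) ≤ 1 := by
      have : (π₀ ∪ insert e Y) \ (π₀ ∪ Y) ⊆ {e} := by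
        intro t; simp only [mem_sdiff, mem_union, mem_insert, mem_singleton]; tauto
      exact_mod_cast (card_le_card this).trans (card_singleton e).le
    have pY := (mdY.mono sub).pos'
    have t1 := l2.T_ge (m.change mdY.pos') pY huΛ v1Λ
    have t2 := l2.T_ge (m.change mdY.pos') pY huΛ v2Λ
    have t3 := (m.change pY).T_low mdY.pos' l2.le huΛ v1Λ
    have t4 := (m.change pY).T_low mdY.pos' l2.le huΛ v2Λ
    have := mul_le_mul_of_nonneg_right cd X.M₁_pos.le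
    simp only [f]
    constructor <;> linarith
  have A := discrete_ivt f P₁ P₂ gap
    (fun Y e h1 h2 => by
      rw [union_insert]
      exact (step _ e (insert_subset (mem_union_right _ h2) (union_subset_union_right h1))).1)
    (by
      obtain ⟨c', e, he, ce, eq⟩ := main P₁ subset_union_left (.inl subset_rfl)
      simp only [f, eq]; exact sd1 c' e he ce)
    fun Y h1 => dich _ (union_subset_union_right h1) (.inl subset_union_left)
  have B := discrete_ivt (fun Y => - f Y) P₂ P₁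
    (lo := -(T (F.O w) w z₂ v₁ - T (F.O w) w z₂ v₂)) (hi := -(T (F.O w) w z₁ v₁ - T (F.O w) w z₁ v₂))
    (M := X.M₁) (by linarith)
    (fun Y e h1 h2 => by
      rw [union_insert]
      linarith [(step (P₂ ∪ Y) e (insert_subset (mem_union_left _ h2)
        (union_subset subset_union_right (h1.trans subset_union_left)))).2])
    (by
      obtain ⟨c', e, he, ce, eq⟩ := main P₂ subset_union_right (.inr subset_rfl)
      simp only [f, eq]; linarith [sd2 c' e he ce])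
    fun Y h1 => (dich _ (union_subset subset_union_right (h1.trans subset_union_left))
      (.inr subset_union_left)).symm.imp neg_le_neg neg_le_neg
  rw [union_comm] at B
  linarith [X.M₁_pos]

end Fr
end Vale.Agent.P158
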