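import Vale.Agent.P158.Engine

namespace Vale.Agent.P158
open SimpleGraph Finset MeasureTheory Law Fr

lemma Mar.mono {L n n' : ℕ} {c : V} (h : Mar L c n) (hn : n' ≤ n) : Mar L c n' := by
  unfold Mar at *; omega

theorem lemE (X : Law) {M₀ ρ ε : ℝ} (r : ℕ) (hρ : 0 ≤ ρ) (hε : 0 < ε) :
    ∃ R'' : ℕ, ∃ C, 0 ≤ C ∧ ∀ F : Fr, F.Ok → F.r = r → F.M₀ = M₀ → Mar F.L F.c R'' →
      ∀ U : Set V, (∀ u ∈ U, u ∈ F.Λ ∧ u ∉ box F.c R'') →
      X.pr (fun w => F.FG w ∧ F.EvE U X.M₁ ρ w) ≤ ε + C * X.pr (F.Spl U R'') := by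
  have δ0 : 0 < ε / 6 := by positivity
  obtain ⟨Δ₁, -, d1⟩ := ex_dm (X := X) (4 * r + 3) δ0
  obtain ⟨k₁, a1, m1⟩ := ex_mb (X := X) (4 * r + 3) δ0 ((Δ₁ + 49 * r * M₀ + ρ) / X.η)
  obtain ⟨Δ₃, -, d3⟩ := ex_dm (X := X) (4 * r + 3 + 2 * k₁) δ0
  obtain ⟨k₀, a0, m0⟩ := ex_mb (X := X) (4 * r + 3) δ0 ((2 * Δ₃ + ρ) / X.η)
  obtain ⟨Δ₄, -, d4⟩ := ex_dm (X := X) (4 * r + 3 + 2 * k₁ + 2 * k₀) δ0
  obtain ⟨k₄, a4, m4⟩ := ex_mb (X := X) (4 * r + 3 + 2 * k₁ + 2 * k₀) δ0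
    (max (Δ₄ / X.a₁) 0 + (2 * k₀ + 4 * k₁ : ℕ))
  rw [div_lt_iff₀ X.η_pos] at a1 a0
  have a5 : Δ₄ < (k₄ - (2 * k₀ + 4 * k₁) : ℕ) * X.a₁ := by
    have h1 := le_max_left (Δ₄ / X.a₁) 0
    have h2 := le_max_right (Δ₄ / X.a₁) 0
    have h3 : 2 * k₀ + 4 * k₁ ≤ k₄ := by exact_mod_cast (show ((2 * k₀ + 4 * k₁ : ℕ) : ℝ) ≤ k₄ by linarith)
    rw [← div_lt_iff₀ X.a₁_pos, Nat.cast_sub h3]; linarith
  refine ⟨4 * r + 3 + 2 * k₁ + 2 * k₀ + 2 * k₄, X.cf (nb (4 * r + 3 + 2 * k₁ + 2 * k₀)), (cf_pos _).le, ?_⟩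
  rintro F h rfl rfl hm U hU
  have s1 : X.pr (fun w => Pos w ∧ F.FG w ∧ F.EvE U X.M₁ ρ w ∧ Dm F.L F.c (4 * F.r + 3) Δ₁ w ∧
      Dm F.L F.c (4 * F.r + 3 + 2 * k₁) Δ₃ w ∧ Dm F.L F.c (4 * F.r + 3 + 2 * k₁ + 2 * k₀) Δ₄ w ∧
      MB X F.c (4 * F.r + 3) k₁ w ∧ MB X F.c (4 * F.r + 3) k₀ w ∧
      MB X F.c (4 * F.r + 3 + 2 * k₁ + 2 * k₀) k₄ w) ≤ X.cf (nb (4 * F.r + 3 + 2 * k₁ + 2 * k₀)) *
        X.pr (F.Spl U (4 * F.r + 3 + 2 * k₁ + 2 * k₀ + 2 * k₄)) := by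
    rw [← card_sym2_box F.c]
    refine (fe (q := fun w => ¬ Gen w ∨ F.Spl U (4 * F.r + 3 + 2 * k₁ + 2 * k₀ + 2 * k₄) w) _ ?_).trans
      (mul_le_mul_of_nonneg_left (pr_mono_ae ?_) (cf_pos _).le)
    · rintro w ⟨b1, b2, b3, b4, b5, b6, b7, b8, b9⟩ s hs
      exact h.split_core b1 b2 b3 hρ rfl rfl rfl b4 b5 b6 b7 b8 b9 a1 a0 a5 hm hU hs
    · filter_upwards [ae_gen] with w hw hh using hh.resolve_left (not_not.2 hw)
  refine (pr_mono_ae (q := fun w => ¬ Dm F.L F.c (4 * F.r + 3) Δ₁ w ∨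
    ¬ Dm F.L F.c (4 * F.r + 3 + 2 * k₁) Δ₃ w ∨ ¬ Dm F.L F.c (4 * F.r + 3 + 2 * k₁ + 2 * k₀) Δ₄ w ∨
    ¬ MB X F.c (4 * F.r + 3) k₁ w ∨ ¬ MB X F.c (4 * F.r + 3) k₀ w ∨
    ¬ MB X F.c (4 * F.r + 3 + 2 * k₁ + 2 * k₀) k₄ w ∨ _) ?_).trans
    ((pr_or.trans (add_le_add (d1 _ _ (hm.mono (by omega))) (pr_or.trans (add_le_add
      (d3 _ _ (hm.mono (by omega))) (pr_or.trans (add_le_add (d4 _ _ (hm.mono (by omega)))
      (pr_or.trans (add_le_add (m1 _) (pr_or.trans (add_le_add (m0 _) (pr_or.trans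
      (add_le_add (m4 _) s1)))))))))))).trans (le_of_eq (by ring)))
  filter_upwards [ae_pos] with w hw hh
  by_contra hc
  simp only [not_or, not_not] at hc
  exact hc.2.2.2.2.2.2 ⟨hw, hh.1, hh.2, hc.1, hc.2.1, hc.2.2.1, hc.2.2.2.1, hc.2.2.2.2.1, hc.2.2.2.2.2.1⟩

def Zev (L : ℕ) (z : V) (w : W) : Prop :=
  ∃ v₁ ∈ ring 0 L, ∃ v₂ ∈ ring 0 L, SplitAt (box 0 L) w z 0 v₁ v₂

lemma zev_sum (X : Law) {n k L : ℕ} (h1 : n < k) (h2 : k ≤ L) :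
    ∑ z ∈ box 0 n, X.pr (Zev L z) ≤ ∑ y ∈ ring 0 k, X.pr (PP L {0} y) := by
  classical
  refine UB.sum_le (fun z => .exists fun _ => .and measurable_const (.exists fun _ =>
    .and measurable_const (m_split ..))) ((ub_sum_ind _ _).mono ?_ le_rfl)
  filter_upwards [ae_pos, ae_gen] with w hw hg
  have m := met_box hw 0 L
  rw [← card_ind, ← card_ind, Nat.cast_le]
  refine split_count (u := 0) m hg _ _ (fun z hz hz' => ?_) fun z hz => ?_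
  · have a := (mem_filter.1 hz).1
    have b := (mem_filter.1 hz').1
    rw [mem_box] at a; rw [mem_ring] at b; omega
  · obtain ⟨hz, v₁, a1, v₂, a2, sp⟩ := mem_filter.1 hz
    have zm : z ∈ box 0 k := by rw [mem_box] at hz ⊢; omega
    obtain ⟨y₁, b1, c1, -⟩ := m.exit sp.1.m zm sp.1.r (by rw [mem_ring] at a1; unfold Ins; omega)
    obtain ⟨y₂, b2, c2, -⟩ := m.exit sp.1.m zm sp.2.1.r (by rw [mem_ring] at a2; unfold Ins; omega)
    exact ⟨y₁, mem_filter.2 ⟨b1, 0, rfl, v₁, a1, m.t3 sp.1 c1⟩, y₂,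
      mem_filter.2 ⟨b2, 0, rfl, v₂, a2, m.t3 sp.2.1 c2⟩, m.t4 sp.1 c1, m.t4 sp.2.1 c2,
      fun s s1 s2 => sp.2.2 s (m.t1 s1 c1) (m.t1 s2 c2)⟩

lemma setup0 (X : Law) {M₀ : ℝ} (hM : 0 < M₀) {r₀ L R : ℕ} {c₀ : V} (h0 : 1 ≤ r₀)
    (hm : Mar L c₀ (6 * R + 4)) (hc : (0 : V) ∉ box c₀ (6 * R + 4)) : Setup X M₀ r₀ L {0} c₀ R := by
  intro g hg r h1 h2 K hK
  have ok : Fr.Ok ⟨L, g, r, M₀⟩ := ⟨h0.trans h1, hM, by
    unfold Mar at *; rw [mem_box] at hg; dsimp only; omega⟩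
  have far : Fr.Far ⟨L, g, r, M₀⟩ 0 := ⟨.inr rfl, by rw [mem_box] at *; dsimp only; omega⟩
  refine ⟨ok, rfl, h1, fun u hu => hu ▸ far, hK, ?_⟩
  refine (pr_mono (q := fun _ => False) fun w hw => (not_lt.2 (ok.acts_fixed far)) hw.2).trans ?_
  simp [pr]

lemma Fr.Ok.not_close {F : Fr} (h : F.Ok) {w : W} (hw : Pos w) {v₁ v₂ : V} {K : ℝ}
    (h1 : v₁ ∈ ring 0 F.L) (h2 : v₂ ∈ ring 0 F.L)
    (hn : ¬ Osc (box 0 F.L) w (box F.c F.r) v₁ v₂ K) : ¬ F.Close K w v₁ v₂ := fun hc =>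
  hn ((h.C2 hw (h.ring_O h1) (h.ring_O h2) hc).mono
    (fun t ht => box_DZ (by rw [mem_coe, mem_box] at ht; rw [mem_box]; omega)) le_rfl)

lemma eve_of_two {F : Fr} {w : W} (hw : Pos w) {U : Set V} {u v₁ v₂ x₁ x₂ : V} {K Δ : ℝ}
    (hu : u ∈ U) (h1 : v₁ ∈ ring 0 F.L) (h2 : v₂ ∈ ring 0 F.L) (a1 : x₁ ∈ box F.c (2 * F.r))
    (a2 : x₂ ∈ box F.c (2 * F.r)) (b1 : Btw F.Λ w u x₁ v₁) (b2 : Btw F.Λ w u x₂ v₂)
    (hc : ¬ F.Close K w v₁ v₂) (hd : Dm F.L F.c (2 * F.r) Δ w) : F.EvE U K (2 * Δ) w := by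
  have m := met (F := F) hw
  refine ⟨u, hu, v₁, h1, v₂, h2, x₁, a1, b1, ?_, hc⟩
  have := hd _ a1 _ a2
  change T F.Λ w x₁ x₂ ≤ Δ at this
  linarith [b2.eq, m.tri b1.l b2.m b1.m, m.tri b1.m b2.m b2.r, T_symm F.Λ w x₁ x₂]

lemma nb0 (X : Law) {M₀ ε : ℝ} (hε : 0 < ε) (hM : 0 < M₀)
    (hFG : ∀ F : Fr, F.M₀ = M₀ → 1 ≤ F.r → X.pr (fun w => ¬ F.FG w) ≤ ε) {r : ℕ} (hr : 1 ≤ r) :
    ∃ R'' : ℕ, ∃ C, 0 ≤ C ∧ ∀ L K y, Mar L y R'' → (0 : V) ∉ box y R'' →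
      X.pr (NB X L {0} K y r r) ≤ 3 * ε + C * ∑ z ∈ box y R'', X.pr (Zev L z) := by
  obtain ⟨Δ, Δ0, hd⟩ := ex_dm (X := X) (2 * r) hε
  obtain ⟨R'', C, C0, hE⟩ := lemE X (M₀ := M₀) r (show 0 ≤ 2 * Δ by positivity) hε
  refine ⟨R'' + 4 * r + 4, C, C0, fun L K y hm hc => ?_⟩
  let F : Fr := ⟨L, y, r, M₀⟩
  have ok : F.Ok := ⟨hr, hM, hm.mono (by dsimp only [F]; omega)⟩
  have e1 := hE F ok rfl rfl (hm.mono (by omega)) {0} fun u hu =>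
    hu ▸ ⟨self_mem_box _ _, by rw [mem_box] at *; dsimp only [F]; omega⟩
  have e2 : X.pr (F.Spl {0} R'') ≤ ∑ z ∈ box y (R'' + 4 * r + 4), X.pr (Zev L z) := by
    refine (pr_mono ?_).trans (pr_ex _ _)
    rintro w ⟨z, hz, u, rfl, hh⟩
    exact ⟨z, by rw [mem_box] at *; dsimp only [F] at hz; omega, hh⟩
  refine (pr_mono_ae (q := fun w => ¬ F.FG w ∨ ¬ Dm L y (2 * r) Δ w ∨
    (F.FG w ∧ F.EvE {0} X.M₁ (2 * Δ) w)) ?_).trans ((pr_or.trans (add_le_add (hFG F rfl hr)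
    (pr_or.trans (add_le_add (hd _ _ (hm.mono (by omega))) e1)))).trans ?_)
  · filter_upwards [ae_pos] with w hw
    rintro ⟨u₁, rfl, u₂, rfl, v₁, a1, v₂, a2, p₁, b1, p₂, b2, c1, c2, -, -, hn⟩
    by_cases hf : F.FG w
    · by_cases hD : Dm L y (2 * r) Δ w
      · refine .inr (.inr ⟨hf, eve_of_two (F := F) hw rfl a1 a2 ?_ ?_ c1 c2
          (ok.not_close hw a1 a2 fun hh => hn ⟨Osc.refl X.M₁_pos.le, hh⟩) hD⟩)
        · rw [mem_box] at *; dsimp only [F]; omega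
        · rw [mem_box] at *; dsimp only [F]; omega
      · exact .inr (.inl hD)
    · exact .inl hf
  · linarith [mul_le_mul_of_nonneg_left e2 C0]

theorem lemD (X : Law) {δ : ℝ} (hδ : 0 < δ) : ∃ n : ℕ, 1 ≤ n ∧
    ∑ y ∈ box 0 (2 * n) \ box 0 n, X.pr (PP (4 * n) {0} y) ≤ δ * n ^ 2 := by
  have hε : 0 < δ / 10000 := by positivity
  set ε := δ / 10000 with hεd
  obtain ⟨M₀, hM, hFG⟩ := ex_fg (X := X) hε
  obtain ⟨K', -, J, J1, r, r1, hen⟩ := engine X hε hM hFG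
  obtain ⟨R'', C, C0, hnb⟩ := nb0 X hε hM hFG r1
  obtain ⟨n₀, -, hn₀⟩ := ex_big (C * (2 * R'' + 1) ^ 2 * 32) hε
  obtain ⟨n, n1, n2⟩ : ∃ n, n₀ ≤ n ∧ 8 * r + R'' + 5 ≤ n := ⟨n₀ + 8 * r + R'' + 5, by omega, by omega⟩
  refine ⟨n, by omega, ?_⟩
  have np : (1 : ℝ) ≤ n := by exact_mod_cast (show 1 ≤ n by omega)
  have cA : ∀ a b : ℕ, a ≤ 3 * n → ((box 0 a \ box 0 b).card : ℝ) ≤ 49 * n ^ 2 := fun a b ha => by
    have := card_le_card (show box 0 a \ box 0 b ⊆ box 0 (3 * n) from fun t ht => by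
      have := (mem_sdiff.1 ht).1; rw [mem_box] at *; omega)
    rw [card_box] at this
    have h2 : ((box 0 a \ box 0 b).card : ℝ) ≤ (2 * (3 * n) + 1) ^ 2 := by exact_mod_cast this
    nlinarith
  have s1 := dc2 (A := box 0 (2 * n) \ box 0 n) (B := box 0 (2 * n + r) \ box 0 (n - r)) (n := r)
    (fun y hy t ht => by simp only [mem_sdiff, mem_box] at *; omega)
    (f := fun y => X.pr (PP (4 * n) {0} y)) fun _ => pr_nonneg
  have s2 : ∑ c ∈ box 0 (2 * n + r) \ box 0 (n - r), ∑ y ∈ box c r, X.pr (PP (4 * n) {0} y) ≤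
      ∑ c ∈ box 0 (2 * n + r) \ box 0 (n - r),
        (200 * ε * r ^ 2 + ∑ y ∈ box c r, X.pr (NB X (4 * n) {0} K' y r r)) :=
    sum_le_sum fun c hc => hen (4 * n) {0} c r (fun _ => r) monotone_const le_rfl le_rfl
      (setup0 X hM r1 (by simp only [mem_sdiff, mem_box, Mar, Prod.fst_zero, Prod.snd_zero] at *; omega)
        (by simp only [mem_sdiff, mem_box, Prod.fst_zero, Prod.snd_zero] at *; omega)) _ fun _ _ => le_rfl
  have s3 := dc1 (A := box 0 (2 * n + r) \ box 0 (n - r)) (B := box 0 (2 * n + 2 * r) \ box 0 (n - 2 * r))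
    (n := r) (fun y hy t ht => by simp only [mem_sdiff, mem_box] at *; omega)
    (f := fun y => X.pr (NB X (4 * n) {0} K' y r r)) fun _ => pr_nonneg
  have s4 : ∑ y ∈ box 0 (2 * n + 2 * r) \ box 0 (n - 2 * r), X.pr (NB X (4 * n) {0} K' y r r) ≤
      ∑ y ∈ box 0 (2 * n + 2 * r) \ box 0 (n - 2 * r),
        (3 * ε + C * ∑ z ∈ box y R'', X.pr (Zev (4 * n) z)) :=
    sum_le_sum fun y hy => hnb _ _ _
      (by simp only [mem_sdiff, mem_box, Mar, Prod.fst_zero, Prod.snd_zero] at *; omega)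
      (by simp only [mem_sdiff, mem_box, Prod.fst_zero, Prod.snd_zero] at *; omega)
  have s5 := dc1 (A := box 0 (2 * n + 2 * r) \ box 0 (n - 2 * r)) (B := box 0 (3 * n)) (n := R'')
    (fun y hy t ht => by simp only [mem_sdiff, mem_box] at *; omega)
    (f := fun z => X.pr (Zev (4 * n) z)) fun _ => pr_nonneg
  have s6 : ∑ z ∈ box 0 (3 * n), X.pr (Zev (4 * n) z) ≤ 32 * n := by
    refine (zev_sum X (Nat.lt_succ_self _) (by omega)).trans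
      ((sum_le_card_nsmul _ _ 1 fun _ _ => pr_le_one).trans ?_)
    rw [card_ring, nsmul_eq_mul]; push_cast; linarith
  rw [sum_add_distrib, sum_const, nsmul_eq_mul] at s2 s4
  rw [← mul_sum] at s4
  have c1 := cA (2 * n + r) (n - r) (by omega)
  have c2 := cA (2 * n + 2 * r) (n - 2 * r) (by omega)
  have e0 := hn₀ n n1
  have t1 : ∑ y ∈ box 0 (2 * n + 2 * r) \ box 0 (n - 2 * r), X.pr (NB X (4 * n) {0} K' y r r) ≤
      148 * ε * n ^ 2 := by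
    have := mul_le_mul_of_nonneg_left (s5.trans (mul_le_mul_of_nonneg_left s6 (by positivity))) C0
    nlinarith
  have t2 : (200 : ℝ) * ε * r ^ 2 ≤ (2 * r + 1) ^ 2 * (200 * ε) := by
    have : (0 : ℝ) ≤ r := by positivity
    nlinarith
  have t3 := mul_le_mul c1 t2 (by positivity) (by positivity)
  have t4 := mul_le_mul_of_nonneg_left t1 (show (0 : ℝ) ≤ (2 * r + 1) ^ 2 by positivity)
  refine le_of_mul_le_mul_left (a := (2 * r + 1 : ℝ) ^ 2) ?_ (by positivity)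
  have : δ = 10000 * ε := by rw [hεd]; ring
  rw [this]
  nlinarith [mul_nonneg (mul_nonneg (show (0 : ℝ) ≤ (2 * r + 1) ^ 2 by positivity) hε.le)
    (show (0 : ℝ) ≤ n ^ 2 by positivity)]

def SS (L : ℕ) (w : W) : Prop :=
  ∃ u ∈ ring 0 L, ∃ v₁ ∈ ring 0 L, ∃ v₂ ∈ ring 0 L, SplitAt (box 0 L) w 0 u v₁ v₂

lemma ss_many {n : ℕ} {w : W} (hw : Pos w) (h : SS (5 * n) w) :
    (n : ℝ) ≤ ∑ x ∈ box 0 n, ind (Zev (4 * n) (-x) (shift x w)) := by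
  classical
  obtain ⟨u, hu, v₁, a1, v₂, a2, sp⟩ := h
  have m := met_box hw 0 (5 * n)
  obtain ⟨q, iq, gq⟩ := m.geo sp.1.m sp.1.l
  have hl : n ≤ q.length := len_ge q (by rw [mem_ring] at hu; unfold Ins; omega)
  have hlen : (q.take n).length = n := by rw [Walk.take_length]; omega
  have hin := supp_box (q.take n)
  rw [hlen] at hin
  rw [← card_ind, Nat.cast_le]
  refine le_trans ?_ (card_le_card (s := (q.take n).support.toFinset) fun x hx => ?_)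
  · rw [List.toFinset_card_of_nodup (iq.take n).support_nodup, Walk.length_support]; omega
  rw [List.mem_toFinset] at hx
  have xn := hin x hx
  refine mem_filter.2 ⟨xn, ?_⟩
  rw [← q.append_take_drop_eq n] at gq
  obtain ⟨a, b, e⟩ := Walk.mem_support_iff_exists_append.1 hx
  have g1 := (m.geo_split gq).1
  have bx := m.btw_of_mem gq (z := x) ((Walk.mem_support_append_iff _ _).2 (.inl hx))
  rw [e] at g1 hin
  have g2 := (m.geo_split g1).1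
  rw [mem_coe, mem_box] at xn
  have z4 : (0 : V) ∈ box x (4 * n) := by rw [mem_box]; omega
  obtain ⟨y₁, b1, c1, d1⟩ := m.exit sp.1.m z4 sp.1.r (by rw [mem_ring] at a1; unfold Ins; omega)
  obtain ⟨y₂, b2, c2, d2⟩ := m.exit sp.1.m z4 sp.2.1.r (by rw [mem_ring] at a2; unfold Ins; omega)
  have sp' := split_sub (met_box hw x (4 * n)) m (fun t ht => by rw [mem_coe, mem_box] at *; omega)
    sp z4 (self_mem_box _ _) (ring_sub_box b1) (ring_sub_box b2) bx.symm (by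
      rw [T_symm _ _ x, T_symm _ _ x, ← g2.eq]
      exact T_le hw ((in_append.1 hin).1.mono fun t ht => by rw [mem_coe, mem_box] at *; omega))
    c1 d1 c2 d2
  have := split_shift x sp'
  rw [sub_self, zero_sub] at this
  exact ⟨y₁ - x, by rw [← sub_self x]; exact mem_ring_sub.2 b1, y₂ - x,
    by rw [← sub_self x]; exact mem_ring_sub.2 b2, this⟩

theorem lemC (X : Law) {δ : ℝ} (hδ : 0 < δ) : ∃ L : ℕ, X.pr (SS L) ≤ δ := by
  obtain ⟨n, n1, hn⟩ := lemD X hδ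
  refine ⟨5 * n, ?_⟩
  have np : (0 : ℝ) < n := by exact_mod_cast n1
  have s1 : n * X.pr (SS (5 * n)) ≤ ∑ z ∈ box 0 n, X.pr (Zev (4 * n) z) := by
    refine UB.pr_le np.le ((ub_sum_ind (box 0 n) fun x w => Zev (4 * n) (-x) (shift x w)).mono ?_ ?_)
    · filter_upwards [ae_pos] with w hw
      by_cases h : SS (5 * n) w
      · rw [ind_true h, mul_one]; exact ss_many hw h
      · rw [ind_false h, mul_zero]; exact sum_ind_nonneg _ _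
    · refine (sum_le_sum fun x _ => pr_shift x (Zev (4 * n) (-x))).trans (le_of_eq ?_)
      refine sum_nbij' (fun x => -x) (fun x => -x) ?_ ?_ (by simp) (by simp) (by simp) <;>
      · intro x hx
        simp only [mem_box, Prod.fst_neg, Prod.snd_neg, Prod.fst_zero, Prod.snd_zero] at *
        omega
  have s2 : ∑ m ∈ Ioc n (2 * n), n * X.pr (SS (5 * n)) ≤
      ∑ m ∈ Ioc n (2 * n), ∑ y ∈ ring 0 m, X.pr (PP (4 * n) {0} y) :=
    sum_le_sum fun m hm => s1.trans (zev_sum X (mem_Ioc.1 hm).1 (by have := (mem_Ioc.1 hm).2; omega))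
  rw [← sum_biUnion, sum_const, Nat.card_Ioc, show 2 * n - n = n by omega, nsmul_eq_mul] at s2
  · have s3 := s2.trans ((sum_le_sum_of_subset_of_nonneg (fun y hy => ?_) fun _ _ _ => pr_nonneg).trans hn)
    · exact le_of_mul_le_mul_left (a := (n : ℝ) ^ 2) (by nlinarith) (by positivity)
    · obtain ⟨m, hm, hy⟩ := mem_biUnion.1 hy
      rw [mem_Ioc] at hm
      simp only [mem_ring, mem_sdiff, mem_box] at *
      omega
  · intro a _ b _ hab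
    refine disjoint_left.2 fun y h1 h2 => hab ?_
    simp only [mem_ring] at *
    omega

end Vale.Agent.P158
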