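import Vale.Agent.P158.Prob

namespace Vale.Agent.P158
open SimpleGraph Finset MeasureTheory ProbabilityTheory

noncomputable def chains (ρ : ℕ) : ℕ → V → Finset (List V)
  | 0, y => {[y]}
  | n + 1, y => (box y ρ).biUnion fun y' => (chains ρ n y').image (y :: ·)

lemma card_chains (ρ n : ℕ) (y : V) : (chains ρ n y).card ≤ ((2 * ρ + 1) ^ 2) ^ n := by
  induction n generalizing y with
  | zero => simp [chains]
  | succ n ih =>
    refine (card_biUnion_le_card_mul _ _ _ fun y' _ => card_image_le.trans (ih y')).trans ?_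
    rw [card_box, pow_succ _ n, mul_comm]

lemma length_chains {ρ n : ℕ} {y : V} {l : List V} (h : l ∈ chains ρ n y) : l.length = n + 1 := by
  induction n generalizing y l with
  | zero => simp only [chains, mem_singleton] at h; simp [h]
  | succ n ih =>
    simp only [chains, mem_biUnion, mem_image] at h
    obtain ⟨y', -, l', h1, rfl⟩ := h
    simp [ih h1]

lemma mem_chains {H : SimpleGraph V} {ρ : ℕ} (hH : ∀ x y, H.Adj x y → y ∈ box x ρ) {a b : V}
    (p : H.Walk a b) : p.support ∈ chains ρ p.length a := by
  induction p with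
  | nil => simp [chains]
  | cons h p ih =>
    simp only [chains, Walk.length_cons, Walk.support_cons, mem_biUnion, mem_image]
    exact ⟨_, hH _ _ h, _, ih, rfl⟩

namespace Law
variable {X : Law}

lemma pr_med (y : V) (k : ℕ) : X.pr (fun w => ¬ Med X w y (2 * k) k) ≤ (1 / 2) ^ k := by
  classical
  let E : List V → Finset (Sym2 V) := fun l => (List.zipWith (s(·, ·)) l l.tail).toFinset
  refine (pr_mono (q := fun w => ∃ l ∈ chains 1 (2 * k) y,
    k ≤ ((E l).filter fun e => w e ∈ (Set.Ioc X.a₁ X.M₁)ᶜ).card) fun w hw => ?_).trans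
    ((pr_ex_le _ _ (b := 2 ^ (2 * k) * (1 / 648) ^ k) fun l hl => ?_).trans ?_)
  · simp only [Med, not_forall, not_le] at hw
    obtain ⟨v, q, hq, hl, hc⟩ := hw
    refine ⟨q.support, hl ▸ mem_chains (fun _ _ => adj_mem_box) q, ?_⟩
    have e : E q.support = q.edges.toFinset := by simp only [E, ← Walk.edges_eq_zipWith_support]
    have h1 : ∀ B : Finset (Sym2 V), q.edges.toFinset ⊆ medE X w q.edges ∪ B → k ≤ B.card := by
      intro B hB
      have h2 := (card_le_card hB).trans (card_union_le _ _)
      rw [List.toFinset_card_of_nodup hq.isTrail.edges_nodup, Walk.length_edges, hl] at h2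
      omega
    rw [e]
    refine h1 _ fun t ht => ?_
    simp only [medE, mem_union, mem_filter, Set.mem_compl_iff]; tauto
  · refine (pr_many _ measurableSet_Ioc.compl k).trans (mul_le_mul (pow_le_pow_right₀ one_le_two ?_)
      (pow_le_pow_left₀ measureReal_nonneg X.med _) (pow_nonneg measureReal_nonneg _) (by positivity))
    refine (List.toFinset_card_le _).trans ?_
    simp [length_chains hl]
  · have : ((chains 1 (2 * k) y).card : ℝ) ≤ (9 : ℝ) ^ (2 * k) := by
      exact_mod_cast card_chains 1 (2 * k) y
    refine (mul_le_mul_of_nonneg_right this (by positivity)).trans (le_of_eq ?_)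
    rw [pow_mul, pow_mul, ← mul_pow, ← mul_pow]; norm_num

lemma pr_mb (c : V) (n k : ℕ) : X.pr (fun w => ¬ MB X c n k w) ≤ (2 * n + 1) ^ 2 * (1 / 2) ^ k := by
  refine (pr_mono (q := fun w => ∃ y ∈ box c n, ¬ Med X w y (2 * k) k) fun w hw => by
    simpa [MB] using hw).trans ((pr_ex_le _ _ fun y _ => pr_med y k).trans ?_)
  rw [card_box]; push_cast; rfl

lemma ex_mb (n : ℕ) {ε : ℝ} (hε : 0 < ε) (A : ℝ) :
    ∃ k : ℕ, A < k ∧ ∀ c, X.pr (fun w => ¬ MB X c n k w) ≤ ε := by
  have h1 : Filter.Tendsto (fun k : ℕ => (2 * n + 1 : ℝ) ^ 2 * (1 / 2) ^ k) Filter.atTop (nhds 0) := by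
    simpa using (tendsto_pow_atTop_nhds_zero_of_lt_one (r := (1 / 2 : ℝ)) (by norm_num)
      (by norm_num)).const_mul ((2 * n + 1 : ℝ) ^ 2)
  obtain ⟨k, h2, h3⟩ := ((h1.eventually (gt_mem_nhds hε)).and
    (tendsto_natCast_atTop_atTop.eventually (Filter.eventually_gt_atTop A))).exists
  exact ⟨k, h3, fun c => (pr_mb c n k).trans h2.le⟩

lemma ex_dm (n : ℕ) {ε : ℝ} (hε : 0 < ε) : ∃ Δ, 0 ≤ Δ ∧ ∀ L c, Mar L c n →
    X.pr (fun w => ¬ Dm L c n Δ w) ≤ ε := by
  let N : ℕ := ((2 * n + 1) ^ 2 + 1).choose 2
  obtain ⟨H, H0, hH⟩ := tail X.μ (show 0 < ε / (N + 1) by positivity)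
  refine ⟨4 * n * H, by positivity, fun L c hm => ?_⟩
  refine (pr_mono_ae (q := fun w => ∃ e ∈ (box c n).sym2, w e ∈ Set.Ioi H) ?_).trans
    ((pr_ex_le _ _ (b := ε / (N + 1)) fun e _ =>
      (ENNReal.toReal_mono (measure_ne_top _ _) (pr_eval e _)).trans hH).trans ?_)
  · filter_upwards [ae_pos] with w hw hd
    by_contra hc
    refine hd fun a ha b hb => ?_
    obtain ⟨p, hl, hp⟩ := box_walk ha hb
    refine (T_le hw (hp.mono fun t ht => ?_)).trans ((cost_le_len (H := H) p fun e he => ?_).trans ?_)
    · unfold Mar at hm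
      simp only [mem_coe, mem_box, Prod.fst_zero, Prod.snd_zero] at ht ⊢; omega
    · by_contra hh
      exact hc ⟨e, mem_sym2_iff.2 fun t ht => hp t (Walk.mem_support_of_mem_edges he ht), not_le.1 hh⟩
    · have : (p.length : ℝ) ≤ 4 * n := by exact_mod_cast hl
      exact mul_le_mul_of_nonneg_right this H0.le
  · rw [card_sym2, card_box, mul_div_assoc', div_le_iff₀ (by positivity)]
    nlinarith

lemma ex_fg {ε : ℝ} (hε : 0 < ε) : ∃ M₀, 0 < M₀ ∧ ∀ F : Fr, F.M₀ = M₀ → 1 ≤ F.r →
    X.pr (fun w => ¬ F.FG w) ≤ ε := by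
  classical
  obtain ⟨M₀, H0, hH⟩ := tail X.μ (show 0 < min (ε / 192) (1 / 200) by positivity)
  refine ⟨M₀, H0, fun F hF hr => ?_⟩
  set δ := X.μ.real (Set.Ioi M₀) with hδ
  have δ0 : 0 ≤ δ := measureReal_nonneg
  have δ1 : δ ≤ ε / 192 := hH.trans (min_le_left _ _)
  have δ2 : δ ≤ 1 / 200 := hH.trans (min_le_right _ _)
  let E : List V → Finset (Sym2 V) := fun l =>
    l.toFinset.biUnion fun x => {s(x, (x.1 + 1, x.2)), s(x, (x.1, x.2 + 1))}
  let ev : ℕ → List V → W → Prop := fun k l w => k + 1 ≤ ((E l).filter fun e => w e ∈ Set.Ioi M₀).card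
  have h1 : ∀ w, ((F.K w).card : ℝ) ≤ ∑ x₀ ∈ ring F.c (2 * F.r + 1), ∑ k ∈ range (F.r + 1),
      ∑ l ∈ chains 2 k x₀, ind (ev k l w) := by
    intro w
    have : F.K w ⊆ (ring F.c (2 * F.r + 1)).biUnion fun x₀ => (range (F.r + 1)).biUnion fun k =>
        ((chains 2 k x₀).filter fun l => ev k l w).image fun l => l.getLastD 0 := by
      intro x hx
      obtain ⟨x₀, h0, p, hl, hp⟩ := Fr.mem_K.1 hx
      simp only [mem_biUnion, mem_image, mem_filter, mem_range]
      refine ⟨x₀, h0, p.bypass.length, Nat.lt_succ_of_le (p.length_bypass_le_length.trans hl),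
        p.bypass.support, ⟨mem_chains (H := H2) (fun _ _ h => h.2) _, ?_⟩, ?_⟩
      · simp only [ev]
        rw [← Walk.length_support, ← List.toFinset_card_of_nodup p.bypass_isPath.support_nodup]
        refine card_le_card_of_injOn (fun x => if M₀ < w s(x, (x.1 + 1, x.2)) then s(x, (x.1 + 1, x.2))
          else s(x, (x.1, x.2 + 1))) (fun t ht => ?_) fun t _ t' _ e => ?_
        · have := (hp.bypass t (List.mem_toFinset.1 ht)).2
          rw [hF] at this
          simp only [coe_filter, Set.mem_ofPred_eq, E, mem_biUnion, mem_insert, mem_singleton, Set.mem_Ioi]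
          split_ifs with c
          · exact ⟨⟨t, ht, .inl rfl⟩, c⟩
          · exact ⟨⟨t, ht, .inr rfl⟩, this.resolve_left c⟩
        · simp only at e
          split_ifs at e <;> simp only [Sym2.eq_iff, Prod.ext_iff] at e ⊢ <;> omega
      · rw [List.getLastD_eq_getLast?, List.getLast?_eq_some_getLast (Walk.support_ne_nil _),
          Walk.getLast_support]; rfl
    have h2 := (card_le_card this).trans (card_biUnion_le.trans (sum_le_sum fun x₀ _ =>
      card_biUnion_le.trans (sum_le_sum fun k _ => card_image_le)))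
    simp only [← card_ind]
    exact_mod_cast h2
  have h2 : X.UB _ _ := ub_sum (ring F.c (2 * F.r + 1)) fun x₀ _ => ub_sum (range (F.r + 1))
    fun k _ => ub_sum_ind (chains 2 k x₀) (ev k)
  have h3 : X.UB (fun w => (F.r : ℝ) * ind (¬ F.FG w)) (F.r * ε) := by
    refine h2.mono (.of_forall fun w => le_trans ?_ (h1 w)) ?_
    · by_cases c : F.FG w
      · rw [ind_false (not_not.2 c), mul_zero]; positivity
      · rw [ind_true c, mul_one]; exact_mod_cast (not_le.1 c).le
    · have b : ∀ x₀ ∈ ring F.c (2 * F.r + 1), ∑ k ∈ range (F.r + 1), ∑ l ∈ chains 2 k x₀,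
          X.pr (ev k l) ≤ 8 * δ := fun x₀ _ => by
        refine (sum_le_sum (g := fun k => 4 * δ * (1 / 2) ^ k) fun k _ => ?_).trans ?_
        · refine (sum_le_card_nsmul _ _ (2 ^ (2 * (k + 1)) * δ ^ (k + 1)) fun l hl => ?_).trans ?_
          · refine (pr_many _ measurableSet_Ioi _).trans (mul_le_mul_of_nonneg_right
              (pow_le_pow_right₀ one_le_two ?_) (pow_nonneg δ0 _))
            refine (card_biUnion_le_card_mul _ _ 2 fun _ _ => card_le_two).trans ?_
            have := List.toFinset_card_le l
            rw [length_chains hl] at this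
            omega
          · have : ((chains 2 k x₀).card : ℝ) ≤ (25 : ℝ) ^ k := by exact_mod_cast card_chains 2 k x₀
            rw [nsmul_eq_mul]
            refine (mul_le_mul_of_nonneg_right this (by positivity)).trans ?_
            have e : (25 : ℝ) ^ k * (2 ^ (2 * (k + 1)) * δ ^ (k + 1)) = 4 * δ * (100 * δ) ^ k := by
              rw [pow_mul, show (100 : ℝ) = 25 * 2 ^ 2 by norm_num, mul_pow, mul_pow]; ring
            rw [e]
            exact mul_le_mul_of_nonneg_left (pow_le_pow_left₀ (by positivity) (by linarith) _)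
              (by positivity)
        · rw [← mul_sum]
          nlinarith [sum_geometric_two_le (F.r + 1)]
      refine (sum_le_card_nsmul _ _ _ b).trans ?_
      rw [card_ring, nsmul_eq_mul]
      have : (1 : ℝ) ≤ F.r := by exact_mod_cast hr
      push_cast
      nlinarith
  have : (0 : ℝ) < F.r := by exact_mod_cast hr
  exact le_of_mul_le_mul_left (h3.pr_le this.le) this

end Law

/-! measurability -/

lemma m_T {D : W → Set V} (hD : ∀ x, Measurable fun w => x ∈ D w) (a b : V) :
    Measurable fun w => T (D w) w a b := by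
  classical
  refine Measurable.ennreal_toReal (Measurable.iInf fun p => ?_)
  simp only [iInf_eq_if]
  refine Measurable.ite (Measurable.setOf ?_) (Law.m_sum _).ennreal_ofReal measurable_const
  exact .forall fun x => .imp measurable_const (hD x)

lemma m_card {ι : Type*} (I : Finset ι) {p : ι → W → Prop} (hp : ∀ t, Measurable (p t))
    [∀ w, DecidablePred fun t => p t w] : Measurable fun w => (I.filter fun t => p t w).card := by
  simp only [card_filter]
  exact Finset.measurable_sum _ fun t _ => .ite (hp t).setOf measurable_const measurable_const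

lemma m_btw (D : Set V) (x z y : V) : Measurable fun w => Btw D w x z y :=
  .and measurable_const (.and measurable_const (.and measurable_const
    (measurableSet_eq_fun ((m_T (fun _ => measurable_const) _ _).add (m_T (fun _ => measurable_const) _ _))
      (m_T (fun _ => measurable_const) _ _)).mem))

lemma m_split (D : Set V) (z u v₁ v₂ : V) : Measurable fun w => SplitAt D w z u v₁ v₂ :=
  .and (m_btw ..) (.and (m_btw ..) (.forall fun _ => .imp (m_btw ..) (.imp (m_btw ..) measurable_const)))

lemma m_med (X : Law) (y : V) (ℓ θ : ℕ) : Measurable fun w => Med X w y ℓ θ := by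
  classical
  refine .forall fun v => .forall fun q => .imp measurable_const (.imp measurable_const ?_)
  unfold medE
  have := m_card q.edges.toFinset (p := fun e w => w e ∈ Set.Ioc X.a₁ X.M₁)
    fun e => (measurable_pi_apply e measurableSet_Ioc).mem
  refine measurable_const.le' ?_
  convert this

lemma m_sig {R : W → ℕ → ℕ → Prop} (hR : ∀ a b, Measurable fun w => R w a b) (a : ℕ) :
    Measurable fun w => sig (R w) a := by
  induction a with
  | zero => exact measurable_const
  | succ a ih =>
    simp only [sig]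
    refine .ite (Measurable.setOf ?_) ih measurable_const
    have : (fun w => R w (sig (R w) a) (a + 1)) = fun w => ∃ k, sig (R w) a = k ∧ R w k (a + 1) := by
      funext w; simp
    rw [this]
    exact .exists fun k => .and (ih.eq_const k) (hR _ _)

namespace Fr
variable (F : Fr)

lemma m_Ch (x : V) : Measurable fun w => F.Ch w x :=
  .exists fun _ => .and measurable_const (.exists fun _ => .and measurable_const
    (.forall fun _ => .imp measurable_const (.and measurable_const
      (.or (measurable_const.lt (measurable_pi_apply _)) (measurable_const.lt (measurable_pi_apply _))))))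

lemma m_K (x : V) : Measurable fun w => x ∈ F.K w := by simp only [mem_K]; exact F.m_Ch x

lemma m_FG : Measurable F.FG := by
  classical
  unfold FG K
  exact (m_card _ F.m_Ch).le' measurable_const

lemma m_D (x : V) : Measurable fun w => x ∈ F.D w :=
  .or measurable_const (.exists fun k => .and (F.m_K k) measurable_const)

lemma m_O (x : V) : Measurable fun w => x ∈ F.O w :=
  .exists fun _ => .forall fun t => .imp measurable_const (.and measurable_const (F.m_D t).not)

lemma m_Z (x : V) : Measurable fun w => x ∈ F.Z w := by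
  simp only [mem_Z]
  exact .and (F.m_O x) (.exists fun d => .and (F.m_D d) measurable_const)

lemma m_Close (K : ℝ) (v v' : V) : Measurable fun w => F.Close K w v v' :=
  .forall fun a => .imp (F.m_Z a) (.forall fun b => .imp (F.m_Z b)
    (((m_T F.m_O _ _).sub (m_T F.m_O _ _)).le' (((m_T F.m_O _ _).sub (m_T F.m_O _ _)).add_const _)))

lemma m_rep (K : ℝ) (v v' : V) : Measurable fun w => F.rep K w v = v' := by
  unfold rep
  split_ifs
  · exact ((measurable_from_top (f := bd F.L)).comp
      (m_sig (fun a b => F.m_Close K _ _) _)).eq_const v'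
  · exact measurable_const

lemma m_Act (U : Set V) (K : ℝ) (i : V × V) : Measurable fun w => F.Act U K w i :=
  .exists fun _ => .and measurable_const (.exists fun _ => .and measurable_const (.exists fun _ =>
    .and measurable_const (.and (m_btw ..) (.and (F.m_rep ..) (F.m_rep ..)))))

lemma m_Fv (i : V × V) (y : V) : Measurable fun w => F.Fv w i y :=
  (m_T (fun _ => measurable_const) _ _).add (m_T (fun _ => measurable_const) _ _)

lemma m_Nr (i : V × V) (y : V) (ρ : ℝ) : Measurable fun w => F.Nr w i y ρ :=
  .forall fun z => .imp (F.m_Z z) ((F.m_Fv i y).le' ((F.m_Fv i z).add_const _))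

end Fr
end Vale.Agent.P158
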